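import Vale.Agent.P011.H948.EtaB
import Vale.Agent.P011.H775.Diag
import Mathlib.LinearAlgebra.CrossProduct
import Mathlib.Topology.Instances.Matrix

/-!
Every splitting of an algebra of degree three computes the cubic norm structure; cyclic vectors.
-/

open Module Polynomial Matrix

set_option linter.unusedSectionVars false
set_option linter.unusedVariables false

namespace Vale.Agent.P011.H511

open Vale.Agent.P011.H775 Vale.Agent.P011.H948

section spl

variable {K D : Type} [Field K] [Ring D] [Algebra K D] [FiniteDimensional K D]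
  [Algebra.IsCentral K D] [IsSimpleRing D] (C : Cub K D)

/-- Every splitting computes the reduced trace, norm and adjoint. -/
theorem spl_compat (hD : finrank K D = 3 ^ 2) {Ω : Type} [Field Ω] [Algebra K Ω]
    (f : D →ₐ[K] Matrix (Fin 3) (Fin 3) Ω) (x : D) :
    (f x).trace = algebraMap K Ω (C.T x) ∧ (f x).adjugate.trace = algebraMap K Ω (C.S x) ∧
      (f x).det = algebraMap K Ω (C.N x) ∧ (f x).adjugate = f (C.adj x) := by
  obtain ⟨F, _, _, g, hg, hT, hN, hA⟩ := C.spl
  have hS : (g x).adjugate.trace = algebraMap K F (C.S x) := by rw [hA, hT]; rfl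
  have h1 : (g x).charpoly = (X ^ 3 - Polynomial.C (C.T x) * X ^ 2 + Polynomial.C (C.S x) * X -
      Polynomial.C (C.N x)).map (algebraMap K F) := by
    rw [mat_charpoly, hT, hS, hN]
    simp only [Polynomial.map_sub, Polynomial.map_add, Polynomial.map_mul, Polynomial.map_pow,
      Polynomial.map_X, Polynomial.map_C]
  have h2 := H268.charpoly_compare' (by norm_num) hD g f x h1
  rw [mat_charpoly] at h2
  have e0 := congrArg (fun Q => Polynomial.coeff Q 0) h2
  have e1 := congrArg (fun Q => Polynomial.coeff Q 1) h2
  have e2 := congrArg (fun Q => Polynomial.coeff Q 2) h2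
  simp only [coeff_sub, coeff_add, coeff_X_pow, coeff_C_mul, coeff_X, coeff_C,
    Polynomial.coeff_map] at e0 e1 e2
  norm_num at e0 e1 e2
  refine ⟨e2, e1, e0, ?_⟩
  rw [mat_cayley, e1, e2, C.adj_eq, map_add, map_sub, map_mul, map_smul, map_smul, map_one,
    algebraMap_smul, algebraMap_smul]

end spl

end Vale.Agent.P011.H511
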