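import Vale.Agent.P011.H973.QuadPl
import Vale.Agent.P011.Hey.H63.HasseFF
import Vale.Agent.P011.H63.FBase

/-!
The Hasse norm theorem for extensions of prime degree of global function fields, with
approximation: an element of norm `b` which is close to `1` at finitely many places if `b` is.
-/

open Polynomial Module

set_option linter.unusedSectionVars false

namespace Vale.Agent.P011.H511.FF

open Vale.Agent.P011.H738 Vale.Agent.P011.H271 Vale.Agent.P011.H271.S3 Vale.Agent.P011.H973.PF

theorem exists_ub {ι : Type} (s : Finset ι) (f : ι → ℝ) : ∃ m : ℝ, 0 < m ∧ ∀ i ∈ s, f i ≤ m := by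
  classical
  induction s using Finset.induction_on with
  | empty => exact ⟨1, one_pos, by simp⟩
  | insert a s _ ih =>
    obtain ⟨m, hm, h⟩ := ih
    refine ⟨max m (f a), lt_max_of_lt_left hm, ?_⟩
    intro i hi
    rcases Finset.mem_insert.mp hi with rfl | hi
    · exact le_max_right _ _
    · exact (h i hi).trans (le_max_left _ _)

theorem exists_lb {ι : Type} (s : Finset ι) (f : ι → ℝ) (hf : ∀ i ∈ s, 0 < f i) :
    ∃ m : ℝ, 0 < m ∧ ∀ i ∈ s, m ≤ f i := by
  obtain ⟨m, hm, h⟩ := exists_ub s fun i => (f i)⁻¹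
  refine ⟨m⁻¹, inv_pos.mpr hm, fun i hi => ?_⟩
  have h1 := h i hi
  rwa [inv_le_comm₀ hm (hf i hi)]

theorem abv_sum_lt {M : Type} [Field M] (w : Place M) {ι : Type} (s : Finset ι) (f : ι → M)
    {c : ℝ} (hc : 0 < c) (h : ∀ i ∈ s, w.abv (f i) < c) : w.abv (∑ i ∈ s, f i) < c := by
  classical
  induction s using Finset.induction_on with
  | empty => rwa [Finset.sum_empty, map_zero]
  | insert a s ha ih =>
    rw [Finset.sum_insert ha]
    exact abv_add_lt w (h a (Finset.mem_insert_self _ _))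
      (ih fun i hi => h i (Finset.mem_insert_of_mem hi))

/-- A cyclic extension of degree `p` with a Kummer generator. -/
structure CY (p : ℕ) {R M : Type} [Field R] [Field M] [Algebra R M] (σ : M ≃ₐ[R] M) (ζ : R)
    (θ : M) : Prop where
  prime : p.Prime
  pow : σ ^ p = 1
  norm_eq : ∀ e : M, algebraMap R M (Algebra.norm R e) = ∏ i ∈ Finset.range p, (σ ^ i) e
  prim : IsPrimitiveRoot ζ p
  ne : θ ≠ 0
  eq : σ θ = algebraMap R M ζ * θ

/-- The partial norms. -/
noncomputable def pn {R M : Type} [Field R] [Field M] [Algebra R M] (σ : M ≃ₐ[R] M) (e : M)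
    (i : ℕ) : M := ∏ j ∈ Finset.range i, (σ ^ j) e

/-- The resolvent. -/
noncomputable def rs {R M : Type} [Field R] [Field M] [Algebra R M] (p : ℕ) (σ : M ≃ₐ[R] M)
    (e c : M) : M := ∑ i ∈ Finset.range p, pn σ e i * (σ ^ i) c

section cyc

variable {p : ℕ} {R M : Type} [Field R] [Field M] [Algebra R M] {σ : M ≃ₐ[R] M} {ζ : R} {θ : M}

theorem CY.sig_theta (Q : CY p σ ζ θ) (i : ℕ) : (σ ^ i) θ = algebraMap R M (ζ ^ i) * θ := by
  induction i with
  | zero => simp
  | succ i ih =>
    rw [pow_succ', AlgEquiv.mul_apply, ih, map_mul, AlgEquiv.commutes, Q.eq, pow_succ ζ i, map_mul,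
      mul_assoc]

theorem pn_zero (e : M) : pn σ e 0 = 1 := by rw [pn, Finset.range_zero, Finset.prod_empty]

theorem pn_succ' (e : M) (i : ℕ) : e * σ (pn σ e i) = pn σ e (i + 1) := by
  rw [pn, pn, Finset.prod_range_succ', map_prod, mul_comm, pow_zero]
  have h : ∀ x : ℕ, σ ((σ ^ x) e) = (σ ^ (x + 1)) e := fun x => by
    rw [pow_succ']
    rfl
  rw [Finset.prod_congr rfl fun x _ => h x]
  rfl

theorem pn_ne {e : M} (he : e ≠ 0) (i : ℕ) : pn σ e i ≠ 0 := by
  rw [pn, Finset.prod_ne_zero_iff]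
  intro j _
  exact (_root_.map_ne_zero (σ ^ j : M ≃ₐ[R] M)).mpr he

/-- The resolvent is an approximate solution of `e σ f = f`. -/
theorem rs_rel (Q : CY p σ ζ θ) (e c : M) :
    e * σ (rs p σ e c) = rs p σ e c + (algebraMap R M (Algebra.norm R e) - 1) * c := by
  have h1 : e * σ (rs p σ e c) = ∑ i ∈ Finset.range p, pn σ e (i + 1) * (σ ^ (i + 1)) c := by
    rw [rs, map_sum, Finset.mul_sum]
    refine Finset.sum_congr rfl fun i _ => ?_
    rw [map_mul, ← mul_assoc, pn_succ', pow_succ']
    rfl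
  have h2 := Finset.sum_range_succ' (fun i => pn σ e i * (σ ^ i) c) p
  have h3 := Finset.sum_range_succ (fun i => pn σ e i * (σ ^ i) c) p
  rw [h3] at h2
  have h4 : pn σ e p = algebraMap R M (Algebra.norm R e) := (Q.norm_eq e).symm
  rw [h1, h4.symm]
  have h5 : (σ ^ 0) c = c := rfl
  have h5' : (σ ^ p) c = c := by rw [Q.pow]; rfl
  rw [pn_zero, h5, h5'] at h2
  have h6 : rs p σ e c = ∑ x ∈ Finset.range p, pn σ e x * (σ ^ x) c := rfl
  rw [← h6] at h2
  linear_combination -h2

/-- Some power of the Kummer generator has a large resolvent. -/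
theorem exists_pow_rs [GFF M] (Q : CY p σ ζ θ) (hp : (p : M) ≠ 0) (e : M) (w : Place M) :
    ∃ j : ℕ, w.abv (θ ^ j) ≤ w.abv (rs p σ e (θ ^ j)) := by
  by_contra hcon
  push Not at hcon
  have hθ := Q.ne
  have h1 : ∀ j, w.abv ((θ ^ j)⁻¹ * rs p σ e (θ ^ j)) < 1 := by
    intro j
    have h2 : 0 < w.abv (θ ^ j) := w.abv.pos (pow_ne_zero j hθ)
    rw [map_mul, map_inv₀, mul_comm, ← div_eq_mul_inv, div_lt_one h2]
    exact hcon j
  have h2 : ∀ j, (θ ^ j)⁻¹ * rs p σ e (θ ^ j) =
      ∑ i ∈ Finset.range p, pn σ e i * (algebraMap R M (ζ ^ i)) ^ j := by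
    intro j
    rw [rs, Finset.mul_sum]
    refine Finset.sum_congr rfl fun i _ => ?_
    rw [map_pow, Q.sig_theta, mul_pow]
    field_simp
  have h3 : ∑ j ∈ Finset.range p, (θ ^ j)⁻¹ * rs p σ e (θ ^ j) = (p : M) := by
    rw [Finset.sum_congr rfl fun j _ => h2 j, Finset.sum_comm]
    have h4 : ∀ i ∈ Finset.range p, i ≠ 0 →
        ∑ j ∈ Finset.range p, pn σ e i * (algebraMap R M (ζ ^ i)) ^ j = 0 := by
      intro i hi hi0
      rw [← Finset.mul_sum]
      have h5 : (algebraMap R M (ζ ^ i) - 1) *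
          ∑ j ∈ Finset.range p, (algebraMap R M (ζ ^ i)) ^ j = 0 := by
        rw [mul_geom_sum, ← map_pow, ← pow_mul, mul_comm i, pow_mul, Q.prim.pow_eq_one, one_pow,
          map_one, sub_self]
      rcases mul_eq_zero.mp h5 with h | h
      · exfalso
        have h6 : ζ ^ i = 1 := by
          apply (algebraMap R M).injective
          rw [map_one]
          exact sub_eq_zero.mp h
        have h7 := (Q.prim.pow_eq_one_iff_dvd i).mp h6
        exact absurd (Nat.le_of_dvd (Nat.pos_of_ne_zero hi0) h7)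
          (not_le.mpr (Finset.mem_range.mp hi))
      · rw [h, mul_zero]
    rw [Finset.sum_eq_single_of_mem 0 (Finset.mem_range.mpr Q.prime.pos) h4]
    simp [pn_zero]
  have h4 : w.abv (∑ j ∈ Finset.range p, (θ ^ j)⁻¹ * rs p σ e (θ ^ j)) < 1 :=
    abv_sum_lt w _ _ one_pos fun j _ => h1 j
  rw [h3, Hey.H63.abv_nat_eq_one w hp] at h4
  exact lt_irrefl _ h4

theorem sig_pow_mod (Q : CY p σ ζ θ) (m : ℕ) : σ ^ m = σ ^ (m % p) := by
  conv_lhs => rw [← Nat.div_add_mod m p, pow_add, pow_mul, Q.pow, one_pow, one_mul]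

/-- The Galois group is transitive on the places above a place. -/
theorem transitive [GFF M] (Q : CY p σ ζ θ) {v : Place R} {w0 w : Place M} (h0 : Av' w0 v)
    (hw : Av' w v) : ∃ i : ℕ, ∀ z, w.abv z = w0.abv ((σ ^ i) z) := by
  classical
  by_contra hcon
  push Not at hcon
  have hne : ∀ i j : ℕ, conjP (σ ^ i) w ≠ conjP (σ ^ j) w0 := by
    intro i j hij
    obtain ⟨z, hz⟩ := hcon (j + i * (p - 1))
    apply hz
    have h1 : ∀ y, w.abv ((σ ^ i) y) = w0.abv ((σ ^ j) y) := fun y => by
      rw [← conjP_abv, hij, conjP_abv]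
    have h2 := h1 ((σ ^ (i * (p - 1))) z)
    rw [← AlgEquiv.mul_apply, ← AlgEquiv.mul_apply, ← pow_add, ← pow_add] at h2
    have h3 : i + i * (p - 1) = p * i := by
      obtain ⟨q, hq⟩ : ∃ q, p = q + 1 := ⟨p - 1, (Nat.succ_pred_eq_of_pos Q.prime.pos).symm⟩
      rw [hq, Nat.add_sub_cancel]
      ring
    rw [h3, pow_mul, Q.pow, one_pow] at h2
    exact h2
  set T0 := (Finset.range p).image fun i => conjP (σ ^ i) w0 with hT0
  set T1 := (Finset.range p).image fun i => conjP (σ ^ i) w with hT1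
  obtain ⟨x, hx⟩ := weakP (T0 ∪ T1) (fun u => if u ∈ T0 then (1 : M) else 0) one_pos
  have hx0 : ∀ i ∈ Finset.range p, w0.abv ((σ ^ i) x) = 1 := by
    intro i hi
    have hi' : conjP (σ ^ i) w0 ∈ T0 := Finset.mem_image_of_mem (fun i => conjP (σ ^ i) w0) hi
    have h1 := hx _ (Finset.mem_union_left _ hi')
    rw [if_pos hi'] at h1
    rw [← conjP_abv, abv_eq_of_sub_lt (y := 1) _ (by rwa [map_one]), map_one]
  have hx1 : ∀ i ∈ Finset.range p, w.abv ((σ ^ i) x) < 1 := by
    intro i hi
    have hi' : conjP (σ ^ i) w ∈ T1 := Finset.mem_image_of_mem (fun i => conjP (σ ^ i) w) hi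
    have h1 := hx _ (Finset.mem_union_right _ hi')
    rw [if_neg, sub_zero] at h1
    · exact h1
    · intro h
      obtain ⟨j, -, hj⟩ := Finset.mem_image.mp h
      exact hne i j hj.symm
  have h1 : w0.abv (algebraMap R M (Algebra.norm R x)) = 1 := by
    rw [Q.norm_eq, map_prod, Finset.prod_congr rfl hx0, Finset.prod_const_one]
  have h2 : w.abv (algebraMap R M (Algebra.norm R x)) < 1 := by
    rw [Q.norm_eq, map_prod]
    obtain ⟨q, hq⟩ : ∃ q, p = q + 1 := ⟨p - 1, (Nat.succ_pred_eq_of_pos Q.prime.pos).symm⟩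
    rw [hq, Finset.prod_range_succ']
    refine mul_lt_one_of_nonneg_of_lt_one_right ?_ (w.abv.nonneg _)
      (hx1 0 (Finset.mem_range.mpr Q.prime.pos))
    refine Finset.prod_le_one (fun i _ => w.abv.nonneg _) fun i hi => ?_
    refine (hx1 (i + 1) ?_).le
    rw [Finset.mem_range] at hi ⊢
    omega
  rw [h0.eq_one] at h1
  rw [hw.lt_one, h1] at h2
  exact lt_irrefl _ h2

theorem fix_of_pow (Q : CY p σ ζ θ) (w : Place M) {n : ℕ} (hn : ¬ p ∣ n)
    (h : ∀ z, w.abv ((σ ^ n) z) = w.abv z) (z : M) : w.abv (σ z) = w.abv z := by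
  have h1 : ∀ (m : ℕ) (z : M), w.abv (((σ ^ n) ^ m) z) = w.abv z := by
    intro m
    induction m with
    | zero => intro z; rfl
    | succ m ih =>
      intro z
      rw [pow_succ', AlgEquiv.mul_apply, h, ih]
  obtain ⟨m, hm⟩ : ∃ m : ℕ, n * m % p = 1 % p := by
    have hcop : Nat.Coprime n p := ((Nat.Prime.coprime_iff_not_dvd Q.prime).mpr hn).symm
    obtain ⟨m, -, hm⟩ := Nat.exists_mul_mod_eq_one_of_coprime hcop Q.prime.one_lt
    exact ⟨m, by rw [hm, Nat.mod_eq_of_lt Q.prime.one_lt]⟩
  have h2 : (σ ^ n) ^ m = σ := by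
    rw [← pow_mul, sig_pow_mod Q, hm, ← sig_pow_mod Q, pow_one]
  have h3 := h1 m z
  rwa [h2] at h3

/-- The local form of the element `c`. -/
theorem local_res [GFF M] (Q : CY p σ ζ θ) (hp : (p : M) ≠ 0) {e : M} (he : e ≠ 0) {v : Place R}
    {w0 : Place M} (h0 : Av' w0 v) :
    ∃ (t : M) (γ : ℝ), 0 < γ ∧ ∀ c : M, w0.abv (c - t) < γ →
      (∀ w : Place M, Av' w v → w ≠ w0 → w.abv c < γ) →
      ∀ w : Place M, Av' w v → w.abv c ≤ w.abv (rs p σ e c) ∧ rs p σ e c ≠ 0 := by
  classical
  by_cases hfix : ∀ z, w0.abv (σ z) = w0.abv z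
  · -- only one place
    have hfix' : ∀ i : ℕ, ∀ z, w0.abv ((σ ^ i) z) = w0.abv z := by
      intro i
      induction i with
      | zero => intro z; rfl
      | succ i ih =>
        intro z
        rw [pow_succ', AlgEquiv.mul_apply, hfix, ih]
    have hone : ∀ w : Place M, Av' w v → w = w0 := by
      intro w hw
      obtain ⟨i, hi⟩ := transitive Q h0 hw
      exact place_ext' fun z => by rw [hi z, hfix' i z]
    obtain ⟨j, hj⟩ := exists_pow_rs Q hp e w0
    set r := w0.abv (rs p σ e (θ ^ j)) with hr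
    have hθj : 0 < w0.abv (θ ^ j) := w0.abv.pos (pow_ne_zero j Q.ne)
    have hr0 : 0 < r := hθj.trans_le hj
    obtain ⟨m, hm0, hm⟩ := exists_ub (Finset.range p) fun i => w0.abv (pn σ e i)
    refine ⟨θ ^ j, min (w0.abv (θ ^ j)) (r / m), lt_min hθj (div_pos hr0 hm0),
      fun c hc _ w hw => ?_⟩
    obtain rfl := hone w hw
    have hc1 : w.abv c = w.abv (θ ^ j) := abv_eq_of_sub_lt w (hc.trans_le (min_le_left _ _))
    have hc2 : w.abv (rs p σ e c - rs p σ e (θ ^ j)) < r := by
      have e1 : rs p σ e c - rs p σ e (θ ^ j) =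
          ∑ i ∈ Finset.range p, pn σ e i * (σ ^ i) (c - θ ^ j) := by
        rw [rs, rs, ← Finset.sum_sub_distrib]
        refine Finset.sum_congr rfl fun i _ => ?_
        rw [map_sub, mul_sub]
      rw [e1]
      refine abv_sum_lt w _ _ hr0 fun i hi => ?_
      rw [map_mul, hfix' i]
      have h1 : w.abv (c - θ ^ j) < r / m := hc.trans_le (min_le_right _ _)
      rw [lt_div_iff₀ hm0] at h1
      refine lt_of_le_of_lt ?_ h1
      rw [mul_comm]
      exact mul_le_mul_of_nonneg_left (hm i hi) (w.abv.nonneg _)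
    have hc3 : w.abv (rs p σ e c) = r := abv_eq_of_sub_lt w hc2
    refine ⟨?_, fun h => ?_⟩
    · rw [hc3, hc1]
      exact hj
    · rw [h, map_zero] at hc3
      exact hr0.ne hc3
  · -- the split case
    obtain ⟨γ1, hγ1, hm⟩ := exists_ub ((Finset.range p) ×ˢ (Finset.range p))
      fun x => w0.abv ((σ ^ x.1) (pn σ e x.2))
    obtain ⟨γ2, hγ2, hl⟩ := exists_lb ((Finset.range p) ×ˢ (Finset.range p))
      (fun x => w0.abv ((σ ^ x.1) (pn σ e x.2))) (by
        intro x _
        refine w0.abv.pos ?_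
        exact (_root_.map_ne_zero (σ ^ x.1 : M ≃ₐ[R] M)).mpr (pn_ne he _))
    refine ⟨1, min 1 (min γ2 (γ2 / γ1)), lt_min one_pos (lt_min hγ2 (div_pos hγ2 hγ1)),
      fun c hc hcw w hw => ?_⟩
    set γ := min 1 (min γ2 (γ2 / γ1)) with hγdef
    have hγ1' : γ ≤ 1 := min_le_left _ _
    have hγ2' : γ ≤ γ2 := (min_le_right _ _).trans (min_le_left _ _)
    have hγ3' : γ ≤ γ2 / γ1 := (min_le_right _ _).trans (min_le_right _ _)
    have hc1 : w0.abv c = 1 := by
      rw [abv_eq_of_sub_lt (y := 1) w0 (by rw [map_one]; exact hc.trans_le hγ1'), map_one]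
    have hcn : ∀ n : ℕ, ¬ p ∣ n → w0.abv ((σ ^ n) c) < γ := by
      intro n hn
      rw [← conjP_abv]
      refine hcw _ ((conjP_av _ _ _).mpr h0) fun h => ?_
      exact hfix fun z => fix_of_pow Q w0 hn (fun z => by rw [← conjP_abv, h]) z
    obtain ⟨m0, hm0⟩ := transitive Q h0 hw
    obtain ⟨m, hmp, hmw⟩ : ∃ m, m < p ∧ ∀ z, w.abv z = w0.abv ((σ ^ m) z) := by
      refine ⟨m0 % p, Nat.mod_lt _ Q.prime.pos, fun z => ?_⟩
      rw [hm0 z, ← sig_pow_mod Q]
    obtain ⟨l, hlp, hml⟩ : ∃ l, l < p ∧ p ∣ m + l := by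
      rcases Nat.eq_zero_or_pos m with rfl | hm1
      · exact ⟨0, Q.prime.pos, by simp⟩
      · exact ⟨p - m, by omega, by rw [Nat.add_sub_cancel' hmp.le]⟩
    have hdiv : ∀ n, p ∣ n → (σ ^ n) c = c := by
      rintro _ ⟨q, rfl⟩
      rw [pow_mul, Q.pow, one_pow]
      rfl
    have hmain : w.abv (rs p σ e c) = w0.abv ((σ ^ m) (pn σ e l)) := by
      have e1 : ∀ i, (σ ^ m) (pn σ e i * (σ ^ i) c) = (σ ^ m) (pn σ e i) * (σ ^ (m + i)) c := by
        intro i
        rw [map_mul, pow_add]
        rfl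
      have h1 : w0.abv ((σ ^ m) (pn σ e l * (σ ^ l) c)) =
          w0.abv ((σ ^ m) (pn σ e l)) := by
        rw [e1, hdiv _ hml, map_mul, hc1, mul_one]
      have hne : 0 < w0.abv ((σ ^ m) (pn σ e l)) := by
        refine w0.abv.pos ?_
        exact (_root_.map_ne_zero (σ ^ m : M ≃ₐ[R] M)).mpr (pn_ne he _)
      rw [← h1]
      rw [hmw]
      refine abv_eq_of_sub_lt w0 ?_
      rw [rs, map_sum, ← Finset.add_sum_erase _ _ (Finset.mem_range.mpr hlp), add_sub_cancel_left]
      rw [h1]
      refine abv_sum_lt w0 _ _ hne fun i hi => ?_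
      obtain ⟨hil, hip⟩ := Finset.mem_erase.mp hi
      rw [Finset.mem_range] at hip
      have h2 : ¬ p ∣ m + i := by
        intro hd
        have h3 : p ∣ (m + l) - (m + i) := Nat.dvd_sub hml hd
        have h4 : p ∣ (m + i) - (m + l) := Nat.dvd_sub hd hml
        rcases Nat.lt_or_gt_of_ne hil with h5 | h5
        · have := Nat.le_of_dvd (by omega) h3
          omega
        · have := Nat.le_of_dvd (by omega) h4
          omega
      rw [e1, map_mul]
      have h3 := hcn _ h2
      have h4 : w0.abv ((σ ^ m) (pn σ e i)) ≤ γ1 :=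
        hm (m, i) (Finset.mk_mem_product (Finset.mem_range.mpr hmp) (Finset.mem_range.mpr hip))
      have h5 : γ2 ≤ w0.abv ((σ ^ m) (pn σ e l)) :=
        hl (m, l) (Finset.mk_mem_product (Finset.mem_range.mpr hmp) (Finset.mem_range.mpr hlp))
      have h6 := h3.trans_le hγ3'
      rw [lt_div_iff₀ hγ1] at h6
      refine lt_of_le_of_lt ?_ (h6.trans_le h5)
      rw [mul_comm]
      exact mul_le_mul_of_nonneg_left h4 (w0.abv.nonneg _)
    have hne : 0 < w0.abv ((σ ^ m) (pn σ e l)) := by
      refine w0.abv.pos ?_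
      exact (_root_.map_ne_zero (σ ^ m : M ≃ₐ[R] M)).mpr (pn_ne he _)
    refine ⟨?_, fun h => ?_⟩
    · rw [hmain]
      rcases Nat.eq_zero_or_pos m with rfl | hm1
      · have hl0 : l = 0 := by
          rw [zero_add] at hml
          exact Nat.eq_zero_of_dvd_of_lt hml hlp
        subst hl0
        have h1 : w.abv c = 1 := by
          rw [hmw, ← hc1]
          rfl
        rw [h1, pn_zero, map_one, map_one]
      · have h1 : ¬ p ∣ m := fun h => absurd (Nat.le_of_dvd hm1 h) (not_le.mpr hmp)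
        have h2 := hcn m h1
        rw [← hmw] at h2
        have h5 : γ2 ≤ w0.abv ((σ ^ m) (pn σ e l)) :=
          hl (m, l) (Finset.mk_mem_product (Finset.mem_range.mpr hmp) (Finset.mem_range.mpr hlp))
        exact (h2.le.trans hγ2').trans h5
    · rw [h, map_zero] at hmain
      exact hne.ne hmain

end cyc

section fin

variable {k K : Type} [Field k] [Field K] [Algebra k K]

/-- The finite set of the places above a finite set. -/
theorem above_finite [GFF K] {S : Set (Place k)} (hS : S.Finite) :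
    {V : Place K | ∃ v ∈ S, Av' V v}.Finite := by
  have h1 : ∀ v : Place k, {V : Place K | Av' V v}.Finite := by
    intro v
    obtain ⟨x, hx0, hx⟩ := exists_ml v (-1)
    have hx' : algebraMap k K x ≠ 0 := (_root_.map_ne_zero _).2 hx0
    refine (place_finite hx').subset fun V hV => ?_
    refine ((hV.lt_one x).mpr ?_).ne
    rw [← ml_neg_iff v hx0, hx]
    norm_num
  refine (hS.biUnion fun v _ => h1 v).subset ?_
  rintro V ⟨v, hv, h⟩
  exact Set.mem_biUnion hv h

theorem av_of_ab {V : Place K} {v : Place k} (h : Ab V v) : Av' V v := fun _ => h.le_one_iff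

theorem ab_of_av [GFF k] [GFF K] [Algebra.IsAlgebraic k K] {V : Place K} {v : Place k}
    (h : Av' V v) : Ab V v := by
  obtain ⟨v', h'⟩ := Hey.H63.exists_below (k := k) V
  have h1 : Ab V v' := h'
  obtain rfl := h.unique (av_of_ab h1)
  exact h1

theorem below_av [GFF k] [GFF K] [Algebra.IsAlgebraic k K] (V : Place K) :
    ∃ v : Place k, Av' V v := by
  obtain ⟨v, hv⟩ := Hey.H63.exists_below (k := k) V
  exact ⟨v, av_of_ab hv⟩

theorem Av'_trans {A N : Type} [Field A] [Field N] [Algebra k A] [Algebra A N] [Algebra k N]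
    [IsScalarTower k A N] {W : Place N} {V : Place A} {v : Place k} (h1 : Av' W V)
    (h2 : Av' V v) : Av' W v := fun x => by
  rw [IsScalarTower.algebraMap_apply k A N, h1, h2]

end fin

section close

variable {R : Type} [Field R] (w : Place R) {γ : ℝ}

theorem one_of_close (hγ : γ ≤ 1) {x : R} (h : w.abv (x - 1) < γ) : w.abv x = 1 := by
  rw [abv_eq_of_sub_lt (y := 1) w (by rw [map_one]; exact h.trans_le hγ), map_one]

theorem close_mul (hγ : γ ≤ 1) {x y : R} (hx : w.abv (x - 1) < γ) (hy : w.abv (y - 1) < γ) :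
    w.abv (x * y - 1) < γ := by
  have e : x * y - 1 = x * (y - 1) + (x - 1) := by ring
  rw [e]
  refine abv_add_lt w ?_ hx
  rw [map_mul, one_of_close w hγ hx, one_mul]
  exact hy

theorem close_inv (hγ : γ ≤ 1) {x : R} (hx : w.abv (x - 1) < γ) : w.abv (x⁻¹ - 1) < γ := by
  have h1 := one_of_close w hγ hx
  have h0 : x ≠ 0 := by
    rintro rfl
    rw [map_zero] at h1
    exact zero_ne_one h1
  have e : x⁻¹ - 1 = -(x⁻¹ * (x - 1)) := by
    field_simp
    ring
  rw [e, AbsoluteValue.map_neg, map_mul, map_inv₀, h1, inv_one, one_mul]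
  exact hx

theorem close_pow (hγ : γ ≤ 1) {x : R} (hx : w.abv (x - 1) < γ) (n : ℕ) :
    w.abv (x ^ n - 1) < γ := by
  induction n with
  | zero =>
    rw [pow_zero, sub_self, map_zero]
    exact (w.abv.nonneg _).trans_lt hx
  | succ n ih =>
    rw [pow_succ]
    exact close_mul w hγ ih hx

theorem close_zpow (hγ : γ ≤ 1) {x : R} (hx : w.abv (x - 1) < γ) (n : ℤ) :
    w.abv (x ^ n - 1) < γ := by
  rcases n with n | n
  · rw [Int.ofNat_eq_natCast, zpow_natCast]
    exact close_pow w hγ hx n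
  · rw [zpow_negSucc]
    exact close_inv w hγ (close_pow w hγ hx (n + 1))

theorem close_prod (hγ : γ ≤ 1) (hγ0 : 0 < γ) {ι : Type} (s : Finset ι) (f : ι → R)
    (h : ∀ i ∈ s, w.abv (f i - 1) < γ) : w.abv (∏ i ∈ s, f i - 1) < γ := by
  classical
  induction s using Finset.induction_on with
  | empty => rwa [Finset.prod_empty, sub_self, map_zero]
  | insert a s ha ih =>
    rw [Finset.prod_insert ha]
    exact close_mul w hγ (h a (Finset.mem_insert_self _ _))
      (ih fun i hi => h i (Finset.mem_insert_of_mem hi))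

end close

theorem av_lt_iff {F E : Type} [Field F] [Field E] [Algebra F E] {W : Place E} {v : Place F}
    (h : Av' W v) (x y : F) :
    W.abv (algebraMap F E x) < W.abv (algebraMap F E y) ↔ v.abv x < v.abv y := by
  rw [← not_le, ← not_le, h.le_iff]

section kd

variable {p : ℕ} {R M : Type} [Field R] [Field M] [Algebra R M] {σ : M ≃ₐ[R] M} {ζ : R} {θ : M}

/-- **Norms near `1` are norms of elements near `1`**, in a Kummer extension. -/
theorem kd_approx [GFF R] [GFF M] [FiniteDimensional R M] (Q : CY p σ ζ θ) (hp : (p : M) ≠ 0)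
    {e : M} (he : e ≠ 0) {S : Set (Place R)} (hS : S.Finite) :
    ∃ e1 : M, Algebra.norm R e1 = Algebra.norm R e ∧ ∀ v ∈ S, ∀ w : Place M, Av' w v →
      w.abv (e1 - 1) ≤ w.abv (algebraMap R M (Algebra.norm R e - 1)) := by
  classical
  choose w0 hw0 using fun v : Place R => exists_aboveF (E := M) v
  choose t γ hγ hloc using fun v : Place R => local_res Q hp he (hw0 v)
  choose be hbe using fun w : Place M => below_av (k := R) w
  obtain ⟨γ', hγ', hγl⟩ := exists_lb hS.toFinset γ fun v _ => hγ v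
  obtain ⟨c, hc⟩ := weakP (above_finite (K := M) hS).toFinset
    (fun w => if w = w0 (be w) then t (be w) else 0) hγ'
  have hbe' : ∀ {v : Place R} {w : Place M}, Av' w v → be w = v := fun h => (hbe _).unique h
  have hkey : ∀ v ∈ S, ∀ w : Place M, Av' w v →
      w.abv c ≤ w.abv (rs p σ e c) ∧ rs p σ e c ≠ 0 := by
    intro v hv
    have hγv : γ' ≤ γ v := hγl v (hS.mem_toFinset.mpr hv)
    refine hloc v c ?_ ?_
    · have h1 := hc (w0 v) ((above_finite (K := M) hS).mem_toFinset.mpr ⟨v, hv, hw0 v⟩)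
      rw [hbe' (hw0 v), if_pos rfl] at h1
      exact h1.trans_le hγv
    · intro w hw hne
      have h1 := hc w ((above_finite (K := M) hS).mem_toFinset.mpr ⟨v, hv, hw⟩)
      rw [hbe' hw, if_neg hne, sub_zero] at h1
      exact h1.trans_le hγv
  by_cases hf : rs p σ e c = 0
  · refine ⟨e, rfl, fun v hv w hw => ?_⟩
    exact absurd hf (hkey v hv w hw).2
  · refine ⟨e * σ (rs p σ e c) / rs p σ e c, ?_, fun v hv w hw => ?_⟩
    · have h1 : Algebra.norm R (rs p σ e c) ≠ 0 := Algebra.norm_ne_zero_iff.mpr hf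
      have h2 : Algebra.norm R (e * σ (rs p σ e c) / rs p σ e c) *
          Algebra.norm R (rs p σ e c) = Algebra.norm R e * Algebra.norm R (rs p σ e c) := by
        rw [← map_mul, div_mul_cancel₀ _ hf, map_mul, Algebra.norm_eq_of_algEquiv]
      exact mul_right_cancel₀ h1 h2
    · have hwf : 0 < w.abv (rs p σ e c) := w.abv.pos hf
      have e1 : e * σ (rs p σ e c) / rs p σ e c - 1 =
          algebraMap R M (Algebra.norm R e - 1) * c / rs p σ e c := by
        rw [rs_rel Q, map_sub, map_one]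
        field_simp
        ring
      rw [e1, map_div₀, map_mul, div_le_iff₀ hwf]
      exact mul_le_mul_of_nonneg_left (hkey v hv w hw).1 (w.abv.nonneg _)

end kd

/-- The norm of a Galois extension of an element close to `1`. -/
theorem norm_close {E N : Type} [Field E] [Field N] [GFF N] [Algebra E N]
    [FiniteDimensional E N] [IsGalois E N] {w : Place E} {g : E}
    (hg0 : g ≠ 0) (hg : w.abv g ≤ 1) {x : N}
    (h : ∀ W : Place N, Av' W w → W.abv (x - 1) < W.abv (algebraMap E N g)) :
    w.abv (Algebra.norm E x - 1) < w.abv g := by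
  obtain ⟨W, hW⟩ := exists_aboveF (E := N) w
  rw [← av_lt_iff hW, map_sub, map_one, Algebra.norm_eq_prod_automorphisms]
  refine close_prod W ((hW g).mpr hg) ?_ _ _ fun τ _ => ?_
  · exact W.abv.pos ((_root_.map_ne_zero (algebraMap E N)).mpr hg0)
  · have h1 := h (conjP τ W) ((conjP_av _ _ _).mpr hW)
    rw [conjP_abv, conjP_abv, map_sub, map_one, AlgEquiv.commutes] at h1
    exact h1

section gal

variable {k : Type} [Field k]

theorem card_gal_dvd (P : k[X]) {p : ℕ} (hP : P.natDegree = p) :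
    Nat.card P.Gal ∣ p.factorial := by
  have : Fact ((P.map (algebraMap k P.SplittingField)).Splits) := ⟨SplittingField.splits P⟩
  have h1 := Subgroup.card_dvd_of_injective _ (Gal.galActionHom_injective P P.SplittingField)
  refine h1.trans ?_
  rw [Nat.card_perm, Nat.card_coe_set_eq]
  exact Nat.factorial_dvd_factorial ((ncard_rootSet_le P P.SplittingField).trans hP.le)

theorem card_cyc_dvd {p : ℕ} (hp : p.Prime) (hpk : (p : k) ≠ 0) :
    Nat.card (cyclotomic p k).Gal ∣ p - 1 := by
  have : NeZero p := ⟨hp.ne_zero⟩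
  have : NeZero (p : k) := ⟨hpk⟩
  have h1 : Nat.card ((CyclotomicField p k) ≃ₐ[k] (CyclotomicField p k)) ∣ p - 1 := by
    have h2 := Subgroup.card_dvd_of_injective _
      ((IsCyclotomicExtension.zeta_spec p k (CyclotomicField p k)).autToPow_injective k)
    rwa [Nat.card_eq_fintype_card (α := (ZMod p)ˣ), ZMod.card_units_eq_totient,
      Nat.totient_prime hp] at h2
  exact h1

theorem card_mul_not_dvd {p : ℕ} (hp : p.Prime) (hpk : (p : k) ≠ 0) {P : k[X]}
    (hP : P.natDegree = p) : ¬ p ^ 2 ∣ Nat.card (P * cyclotomic p k).Gal := by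
  intro h
  have h1 := Subgroup.card_dvd_of_injective _ (Gal.restrictProd_injective P (cyclotomic p k))
  rw [Nat.card_prod] at h1
  have h2 : p ^ 2 ∣ p.factorial * (p - 1) :=
    h.trans (h1.trans (mul_dvd_mul (card_gal_dvd P hP) (card_cyc_dvd hp hpk)))
  obtain ⟨q, rfl⟩ : ∃ q, p = q + 1 := ⟨p - 1, (Nat.succ_pred_eq_of_pos hp.pos).symm⟩
  rw [Nat.factorial_succ, add_tsub_cancel_right, pow_two, mul_assoc] at h2
  have h3 := Nat.dvd_of_mul_dvd_mul_left hp.pos h2
  have h4 : ∀ j, j ≤ q → ¬ (q + 1) ∣ j.factorial := fun j hj h => by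
    have := (hp.dvd_factorial).mp h
    omega
  rcases (hp.dvd_mul).mp h3 with h5 | h5
  · exact h4 q le_rfl h5
  · have := Nat.le_of_dvd (by have := hp.one_lt; omega) h5
    omega

/-- A Galois extension containing `E` and the roots of unity, of order not divisible by
`p ^ 2`. -/
theorem exists_big {p : ℕ} (hp : p.Prime) (k E : Type) [Field k] [Field E] [Algebra k E]
    [Algebra.IsSeparable k E] (hpk : (p : k) ≠ 0) (hE : finrank k E = p) :
    ∃ (N : Type) (_ : Field N) (_ : Algebra k N) (_ : E →ₐ[k] N) (ζ : N),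
      FiniteDimensional k N ∧ IsGalois k N ∧ IsPrimitiveRoot ζ p ∧ ¬ p ^ 2 ∣ finrank k N := by
  have hfd : FiniteDimensional k E := Module.finite_of_finrank_pos (by rw [hE]; exact hp.pos)
  have pb := Field.powerBasisOfFiniteOfSeparable k E
  set P := minpoly k pb.gen with hPdef
  have hPdeg : P.natDegree = p := by
    rw [hPdef, pb.natDegree_minpoly, ← pb.finrank, hE]
  have hP0 : P ≠ 0 := by
    intro h
    rw [h, natDegree_zero] at hPdeg
    exact hp.ne_zero hPdeg.symm
  have hPirr : Irreducible P := minpoly.irreducible (Algebra.IsIntegral.isIntegral _)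
  have hPsep : P.Separable := Algebra.IsSeparable.isSeparable k pb.gen
  have : NeZero (p : k) := ⟨hpk⟩
  have hC0 : cyclotomic p k ≠ 0 := cyclotomic_ne_zero p k
  set Q := P * cyclotomic p k with hQdef
  have hQ0 : Q ≠ 0 := mul_ne_zero hP0 hC0
  have hQsep : Q.Separable := by
    refine hPsep.mul (separable_cyclotomic p k) ?_
    refine (EuclideanDomain.dvd_or_coprime P _ hPirr).resolve_left fun h => ?_
    have h1 := natDegree_le_of_dvd h hC0
    rw [hPdeg, natDegree_cyclotomic, Nat.totient_prime hp] at h1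
    have := hp.pos
    omega
  have hgal : IsGalois k Q.SplittingField := IsGalois.of_separable_splitting_field hQsep
  have hsp := SplittingField.splits Q
  obtain ⟨x, hx⟩ : ∃ x : Q.SplittingField, aeval x P = 0 := by
    have h1 : (P.map (algebraMap k Q.SplittingField)).Splits := by
      refine Splits.of_dvd hsp ((Polynomial.map_ne_zero_iff (algebraMap k _).injective).mpr hQ0)
        (Polynomial.map_dvd _ (dvd_mul_right _ _))
    obtain ⟨x, hx⟩ := h1.exists_eval_eq_zero (by
      rw [degree_map]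
      intro h
      have := natDegree_eq_zero_iff_degree_le_zero.mpr h.le
      rw [hPdeg] at this
      exact hp.ne_zero this)
    exact ⟨x, by rwa [eval_map_algebraMap] at hx⟩
  obtain ⟨ζ, hζ⟩ : ∃ ζ : Q.SplittingField, IsPrimitiveRoot ζ p := by
    have h1 : ((cyclotomic p k).map (algebraMap k Q.SplittingField)).Splits := by
      refine Splits.of_dvd hsp ((Polynomial.map_ne_zero_iff (algebraMap k _).injective).mpr hQ0)
        (Polynomial.map_dvd _ (dvd_mul_left _ _))
    obtain ⟨x, hx⟩ := h1.exists_eval_eq_zero (by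
      rw [degree_map]
      exact (degree_cyclotomic_pos p k hp.pos).ne')
    refine ⟨x, ?_⟩
    have : NeZero (p : Q.SplittingField) := ⟨by
      rw [← map_natCast (algebraMap k Q.SplittingField)]
      exact (_root_.map_ne_zero _).mpr hpk⟩
    rw [map_cyclotomic] at hx
    exact isRoot_cyclotomic_iff.mp hx
  refine ⟨Q.SplittingField, inferInstance, inferInstance, pb.lift x hx, ζ, inferInstance, hgal,
    hζ, ?_⟩
  rw [← IsGalois.card_aut_eq_finrank]
  exact card_mul_not_dvd hp hpk hPdeg

/-- The tower: a Galois extension of degree `p` over an extension of degree prime to `p`. -/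
theorem exists_tower {p : ℕ} (hp : p.Prime) (k E : Type) [Field k] [Field E] [Algebra k E]
    [Algebra.IsSeparable k E] (hpk : (p : k) ≠ 0) (hE : finrank k E = p) :
    ∃ (A N : Type) (_ : Field A) (_ : Field N)
      (_ : Algebra k A) (_ : Algebra A N) (_ : Algebra k N) (_ : IsScalarTower k A N)
      (φ : E →ₐ[k] N) (ζ : N), FiniteDimensional k A ∧ FiniteDimensional k N ∧
      IsGalois k N ∧ IsGalois A N ∧ IsPrimitiveRoot ζ p ∧ finrank A N = p ∧
      (finrank k A).Coprime p ∧
      ∀ e : E, Algebra.norm A (φ e) = algebraMap k A (Algebra.norm k e) := by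
  have hpf : Fact p.Prime := ⟨hp⟩
  obtain ⟨N, _, _, φ, ζ, hfdN, hgal, hζ, hn⟩ := exists_big hp k E hpk hE
  have hpn : p ∣ finrank k N := by
    let _ := φ.toRingHom.toAlgebra
    have : IsScalarTower k E N := IsScalarTower.of_algebraMap_eq fun x => (φ.commutes x).symm
    rw [← finrank_mul_finrank k E N, hE]
    exact dvd_mul_right _ _
  have hcard : Nat.card (N ≃ₐ[k] N) = finrank k N := IsGalois.card_aut_eq_finrank k N
  obtain ⟨g, hg⟩ := exists_prime_orderOf_dvd_card' (G := N ≃ₐ[k] N) p (by rw [hcard]; exact hpn)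
  set S := Subgroup.zpowers g with hS
  set A := IntermediateField.fixedField S with hA
  have hAN : finrank A N = p := by
    rw [hA, IntermediateField.finrank_fixedField_eq_card, hS, Nat.card_zpowers, hg]
  have hmul : finrank k A * p = finrank k N := by
    rw [← hAN]; exact finrank_mul_finrank k A N
  have hcop : (finrank k A).Coprime p := by
    rw [Nat.coprime_comm]
    refine (Nat.Prime.coprime_iff_not_dvd hp).mpr fun h => hn ?_
    rw [← hmul, pow_two]
    exact mul_dvd_mul_right h p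
  set B := φ.fieldRange with hB
  have hBk : finrank k B = p := by
    rw [← hE]; exact φ.equivFieldRange.symm.toLinearEquiv.finrank_eq
  have hld : A.LinearDisjoint B := by
    apply IntermediateField.LinearDisjoint.of_finrank_coprime
    rw [hBk]; exact hcop
  have htop : A ⊔ B = ⊤ := by
    have h1 := hld.finrank_sup
    rw [hBk, hmul] at h1
    apply IntermediateField.eq_of_le_of_finrank_eq le_top
    rw [h1, IntermediateField.finrank_top']
  refine ⟨A, N, inferInstance, inferInstance, inferInstance, inferInstance, inferInstance,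
    inferInstance, φ, ζ, inferInstance, hfdN, hgal, inferInstance, hζ, hAN,
    hcop, fun e => ?_⟩
  have h1 := hld.norm_algebraMap htop (φ.equivFieldRange e)
  rw [Algebra.norm_eq_of_algEquiv] at h1
  exact h1

theorem root_mem {p : ℕ} (hp : p.Prime) {A N : Type} [Field A] [Field N] [Algebra A N]
    [FiniteDimensional A N] (hN : finrank A N = p) {ζ : N} (hζ : IsPrimitiveRoot ζ p) :
    ∃ z : A, algebraMap A N z = ζ := by
  have h1 : (minpoly A ζ).natDegree ∣ p := by
    rw [← hN, ← IntermediateField.adjoin.finrank (Algebra.IsIntegral.isIntegral ζ)]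
    exact ⟨_, (finrank_mul_finrank A (IntermediateField.adjoin A {ζ}) N).symm⟩
  have h2 : (minpoly A ζ).natDegree ≤ p - 1 := by
    have h3 : minpoly A ζ ∣ cyclotomic p A := by
      apply minpoly.dvd
      rw [aeval_def, eval₂_eq_eval_map, map_cyclotomic]
      exact hζ.isRoot_cyclotomic hp.pos
    have := natDegree_le_of_dvd h3 (cyclotomic_ne_zero p A)
    rwa [natDegree_cyclotomic, Nat.totient_prime hp] at this
  have h4 : (minpoly A ζ).natDegree = 1 := by
    rcases (Nat.dvd_prime hp).mp h1 with h | h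
    · exact h
    · have := hp.pos
      omega
  have h5 := minpoly.natDegree_eq_one_iff.mp h4
  exact h5

/-- Kummer theory. -/
theorem exists_cy {p : ℕ} (hp : p.Prime) {A N : Type} [Field A] [Field N] [Algebra A N]
    [IsGalois A N] (hN : finrank A N = p) {ζ : N} (hζ : IsPrimitiveRoot ζ p) :
    ∃ (σ : N ≃ₐ[A] N) (z : A) (θ : N), CY p σ z θ := by
  classical
  have hpf : Fact p.Prime := ⟨hp⟩
  have hfd : FiniteDimensional A N := Module.finite_of_finrank_pos (by rw [hN]; exact hp.pos)
  obtain ⟨z, hz⟩ := root_mem hp hN hζ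
  have hzp : IsPrimitiveRoot z p := by
    rw [← hz] at hζ
    exact hζ.of_map_of_injective (algebraMap A N).injective
  have hcard : Nat.card (N ≃ₐ[A] N) = p := by rw [IsGalois.card_aut_eq_finrank, hN]
  have hcyc : IsCyclic (N ≃ₐ[A] N) := isCyclic_of_prime_card hcard
  have hne : (primitiveRoots (finrank A N) A).Nonempty :=
    ⟨z, by rw [hN]; exact (mem_primitiveRoots hp.pos).mpr hzp⟩
  obtain ⟨θ, ⟨a, ha⟩, htop⟩ := exists_root_adjoin_eq_top_of_isCyclic A N hne
  rw [hN] at ha
  have hgen : ∀ e : N, ∃ q : A[X], e = aeval θ q := by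
    intro e
    have h1 : Algebra.adjoin A {θ} = ⊤ :=
      (IntermediateField.adjoin_simple_eq_top_iff_of_isAlgebraic
        (Algebra.IsAlgebraic.isAlgebraic θ)).mp htop
    have h2 : e ∈ Algebra.adjoin A {θ} := h1 ▸ Algebra.mem_top
    rw [Algebra.adjoin_singleton_eq_range_aeval] at h2
    obtain ⟨q, hq⟩ := h2
    exact ⟨q, hq.symm⟩
  have hθA : ∀ c : A, algebraMap A N c ≠ θ := by
    intro c hc
    have h1 : Function.Surjective (algebraMap A N) := by
      intro e
      obtain ⟨q, rfl⟩ := hgen e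
      rw [← hc, aeval_algebraMap_apply_eq_algebraMap_eval]
      exact ⟨_, rfl⟩
    have h2 : finrank A N = 1 := by
      have h3 := (LinearEquiv.ofBijective (Algebra.linearMap A N)
        ⟨(algebraMap A N).injective, h1⟩).finrank_eq
      rw [← h3, finrank_self]
    rw [hN] at h2
    exact hp.one_lt.ne' h2
  have hθ0 : θ ≠ 0 := fun h => hθA 0 (by rw [map_zero, h])
  obtain ⟨σ, hσ⟩ : ∃ σ : N ≃ₐ[A] N, σ ≠ 1 := by
    have : Nontrivial (N ≃ₐ[A] N) := by
      rw [← Finite.one_lt_card_iff_nontrivial, hcard]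
      exact hp.one_lt
    exact exists_ne 1
  have hσθ : σ θ ≠ θ := by
    intro h
    apply hσ
    ext e
    obtain ⟨q, rfl⟩ := hgen e
    have h1 := (Polynomial.aeval_algHom_apply (σ : N →ₐ[A] N) θ q).symm
    have h2 : (σ : N →ₐ[A] N) θ = θ := h
    rw [h2] at h1
    exact h1
  have hroot : (σ θ / θ) ^ p = 1 := by
    rw [div_pow, ← map_pow, ← ha, AlgEquiv.commutes, ha, div_self (pow_ne_zero p hθ0)]
  have hroot1 : σ θ / θ ≠ 1 := by
    intro h
    exact hσθ ((div_eq_one_iff_eq hθ0).mp h)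
  have hprim : IsPrimitiveRoot (σ θ / θ) p := by
    have := orderOf_eq_prime hroot hroot1
    rw [← this]
    exact IsPrimitiveRoot.orderOf _
  obtain ⟨z', hz'⟩ := root_mem hp hN hprim
  have hzp' : IsPrimitiveRoot z' p := by
    rw [← hz'] at hprim
    exact hprim.of_map_of_injective (algebraMap A N).injective
  have hσp : orderOf σ = p := by
    have h1 : orderOf σ ∣ p := hcard ▸ orderOf_dvd_natCard σ
    rcases (Nat.dvd_prime hp).mp h1 with h | h
    · exact absurd (orderOf_eq_one_iff.mp h) hσ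
    · exact h
  have hall : ∀ x : N ≃ₐ[A] N, x ∈ Subgroup.zpowers σ := fun x =>
    mem_zpowers_of_prime_card hcard hσ
  refine ⟨σ, z', θ, hp, ?_, fun e => ?_, hzp', hθ0, ?_⟩
  · rw [← hσp]
    exact pow_orderOf_eq_one σ
  · rw [Algebra.norm_eq_prod_automorphisms, ← IsCyclic.image_range_orderOf hall, hσp,
      Finset.prod_image]
    intro i hi j hj hij
    rw [Finset.coe_range, Set.mem_Iio] at hi hj
    exact pow_injOn_Iio_orderOf (by rw [hσp]; exact hi) (by rw [hσp]; exact hj) hij
  · rw [hz', div_mul_cancel₀ _ hθ0]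

end gal

/-- **The Hasse norm theorem with approximation**, first form: if `b` is a norm and close to `1`
at finitely many places, then it is the norm of an element which is close to `1` at these
places. -/
theorem norm_approx_prime {p : ℕ} (hp : p.Prime) {k E : Type} [Field k] [GFF k] [Field E]
    [Algebra k E] [Algebra.IsSeparable k E] (hpk : (p : k) ≠ 0) (hE : finrank k E = p) {b : k}
    (hb0 : b ≠ 0) {e0 : E} (he0 : Algebra.norm k e0 = b)
    {S : Set (Place k)} (hS : S.Finite) (c : Place k → k)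
    (hc : ∀ v ∈ S, c v ≠ 0 ∧ v.abv (c v) ≤ 1)
    (hb : ∀ v ∈ S, v.abv (b - 1) < v.abv (c v)) :
    ∃ e : E, Algebra.norm k e = b ∧ ∀ v ∈ S, ∀ w : Place E, Av' w v →
        w.abv (e - 1) < w.abv (algebraMap k E (c v)) := by
  have hfd : FiniteDimensional k E := Module.finite_of_finrank_pos (by rw [hE]; exact hp.pos)
  obtain ⟨A, N, _, _, _, _, _, _, φ, ζ, hfdA, hfdN, hgal, hgal', hζ, hN, hcop, hnorm⟩ :=
    exists_tower hp k E hpk hE
  obtain ⟨σ, z, θ, Q⟩ := exists_cy hp hN hζ
  have hfAN : FiniteDimensional A N := Module.finite_of_finrank_pos (by rw [hN]; exact hp.pos)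
  have gE : GFF E := Hey.H63.gff_of_finite (k := k)
  have gA : GFF A := Hey.H63.gff_of_finite (k := k)
  have gN : GFF N := Hey.H63.gff_of_finite (k := k)
  have hpN : (p : N) ≠ 0 := by
    rw [← map_natCast (algebraMap k N)]
    exact (_root_.map_ne_zero _).mpr hpk
  have he00 : e0 ≠ 0 := by
    rintro rfl
    rw [Algebra.norm_zero] at he0
    exact hb0 he0.symm
  have hφ0 : φ e0 ≠ 0 := (_root_.map_ne_zero φ).mpr he00
  obtain ⟨e1, he1, hclose⟩ := kd_approx Q hpN hφ0 (above_finite (K := A) hS)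
  rw [hnorm, he0] at he1
  let _ := φ.toRingHom.toAlgebra
  have htw : IsScalarTower k E N := IsScalarTower.of_algebraMap_eq fun x => (φ.commutes x).symm
  have hfEN : FiniteDimensional E N := Module.Finite.of_restrictScalars_finite k E N
  have hgE : IsGalois E N := IsGalois.tower_top_of_isGalois k E N
  -- `e1` is close to one
  have hcl1 : ∀ v ∈ S, ∀ W : Place N, Av' W v →
      W.abv (e1 - 1) < W.abv (algebraMap k N (c v)) := by
    intro v hv W hW
    obtain ⟨V, hV⟩ := below_av (k := A) W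
    have hVv : Av' V v := fun x => by
      rw [← hV, ← IsScalarTower.algebraMap_apply]
      exact hW x
    have h1 := hclose V ⟨v, hv, hVv⟩ W hV
    rw [hnorm, he0] at h1
    refine h1.trans_lt ?_
    have h3 := (av_lt_iff hW _ _).mpr (hb v hv)
    have e1 : algebraMap k N (b - 1) = algebraMap A N (algebraMap k A b - 1) := by
      rw [map_sub, map_sub, map_one, map_one, ← IsScalarTower.algebraMap_apply]
    rw [← e1]
    exact h3
  set e2 := Algebra.norm E e1 with he2
  have hcl2 : ∀ v ∈ S, ∀ w : Place E, Av' w v →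
        w.abv (e2 - 1) < w.abv (algebraMap k E (c v)) := by
    intro v hv w hw
    refine norm_close ((_root_.map_ne_zero _).mpr (hc v hv).1)
      ((hw _).mpr (hc v hv).2) fun W hW => ?_
    rw [← IsScalarTower.algebraMap_apply]
    exact hcl1 v hv W (Av'_trans hW hw)
  have he20 : e2 ≠ 0 := by
    rw [he2, Algebra.norm_ne_zero_iff]
    rintro rfl
    rw [Algebra.norm_zero] at he1
    exact (_root_.map_ne_zero (algebraMap k A)).mpr hb0 he1.symm
  have hn2 : Algebra.norm k e2 = b ^ finrank k A := by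
    rw [he2, Algebra.norm_norm, ← Algebra.norm_norm (R := k) (S := A), he1]
    exact Algebra.norm_algebraMap b
  have hzp : ∀ (x : E) (n : ℤ), x ≠ 0 → Algebra.norm k (x ^ n) = (Algebra.norm k x) ^ n := by
    intro x n hx
    have h1 : Algebra.norm k x ≠ 0 := Algebra.norm_ne_zero_iff.mpr hx
    rcases n with n | n
    · rw [Int.ofNat_eq_natCast, zpow_natCast, zpow_natCast, map_pow]
    · rw [zpow_negSucc, zpow_negSucc]
      apply eq_inv_of_mul_eq_one_left
      rw [← map_pow, ← map_mul, inv_mul_cancel₀ (pow_ne_zero _ hx), map_one]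
  have hbE : algebraMap k E b ≠ 0 := (_root_.map_ne_zero _).mpr hb0
  refine ⟨e2 ^ (Nat.gcdA (finrank k A) p) * (algebraMap k E b) ^ (Nat.gcdB (finrank k A) p), ?_,
    fun v hv w hw => ?_⟩
  · rw [map_mul, hzp _ _ he20, hzp _ _ hbE, hn2, Algebra.norm_algebraMap, hE, ← zpow_natCast,
      ← zpow_natCast, ← zpow_mul, ← zpow_mul, ← zpow_add₀ hb0, ← Nat.gcd_eq_gcd_ab, hcop,
      Nat.cast_one, zpow_one]
  · have hg1 : w.abv (algebraMap k E (c v)) ≤ 1 := (hw _).mpr (hc v hv).2
    refine close_mul _ hg1 (close_zpow _ hg1 (hcl2 v hv w hw) _) (close_zpow _ hg1 ?_ _)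
    rw [← map_one (algebraMap k E), ← map_sub, av_lt_iff hw]
    exact hb v hv

/-- Extensions of prime degree different from the characteristic are separable. -/
theorem sep_of_deg {p : ℕ} (hp : p.Prime) {k E : Type} [Field k] [Field E] [Algebra k E]
    (hpk : (p : k) ≠ 0) (hE : finrank k E = p) : Algebra.IsSeparable k E := by
  have hfd : FiniteDimensional k E := Module.finite_of_finrank_pos (by rw [hE]; exact hp.pos)
  refine ⟨fun x => ?_⟩
  have hirr : Irreducible (minpoly k x) := minpoly.irreducible (Algebra.IsIntegral.isIntegral x)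
  rw [IsSeparable, separable_iff_derivative_ne_zero hirr]
  intro h
  have hm : (minpoly k x).Monic := minpoly.monic (Algebra.IsIntegral.isIntegral x)
  have hd : (minpoly k x).natDegree ∣ p := by
    rw [← hE, ← IntermediateField.adjoin.finrank (Algebra.IsIntegral.isIntegral x)]
    exact ⟨_, (finrank_mul_finrank k (IntermediateField.adjoin k {x}) E).symm⟩
  have hpos : 0 < (minpoly k x).natDegree := minpoly.natDegree_pos (Algebra.IsIntegral.isIntegral x)
  have h1 : (derivative (minpoly k x)).coeff ((minpoly k x).natDegree - 1) =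
      ((minpoly k x).natDegree : k) := by
    rw [coeff_derivative, Nat.sub_add_cancel hpos, hm.coeff_natDegree, one_mul]
    push_cast [Nat.cast_sub hpos]
    ring
  rw [h, coeff_zero] at h1
  rcases (Nat.dvd_prime hp).mp hd with h2 | h2
  · rw [h2, Nat.cast_one] at h1
    exact zero_ne_one h1
  · rw [h2] at h1
    exact hpk h1.symm

/-- Elements near `1` are powers in the completion. -/
theorem exists_root_near {F : Type} [Field F] [GFF F] (v : Place F) {p : ℕ}
    (hp : (p : F) ≠ 0) {x : v.comp} (hx : ‖x - 1‖ < 1) : ∃ y : v.comp, y ^ p = x := by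
  have hxO : x ∈ Hey.H63.OK v.comp := by
    have h : x = (x - 1) + 1 := by ring
    rw [h]
    exact (Hey.H63.OK v.comp).add_mem (Hey.H63.mem_OK.mpr hx.le) (Hey.H63.OK v.comp).one_mem
  have hp0 : p ≠ 0 := by
    rintro rfl
    exact hp Nat.cast_zero
  let P : (Hey.H63.OK v.comp)[X] := (X + 1) ^ p - C ⟨x, hxO⟩
  have h0 : P.coeff 0 = 1 - ⟨x, hxO⟩ := by
    simp only [P, coeff_sub, coeff_X_add_one_pow, coeff_C_zero, Nat.choose_zero_right,
      Nat.cast_one]
  have h1 : P.coeff 1 = (p : Hey.H63.OK v.comp) := by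
    simp only [P, coeff_sub, coeff_X_add_one_pow, coeff_C, Nat.choose_one_right, one_ne_zero,
      if_false, sub_zero]
  have hpn : ‖(p : v.comp)‖ = 1 := by
    rw [← map_natCast (algebraMap F v.comp), norm_alg]
    exact Hey.H63.abv_nat_eq_one v hp
  obtain ⟨z, -, hz⟩ := Hey.H63.hensel P (by
      rw [h0]
      push_cast
      rw [← norm_neg, neg_sub]
      exact hx) (by
      rw [h1]
      push_cast
      exact hpn)
  refine ⟨z + 1, ?_⟩
  have h3 : (((z + 1) ^ p - ⟨x, hxO⟩ : Hey.H63.OK v.comp)) = 0 := by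
    rw [← hz]; simp [P]
  have h4 := congrArg (Subring.subtype _) h3
  simp only [map_add, map_pow, map_sub, map_one, map_zero, Subring.subtype_apply] at h4
  exact sub_eq_zero.mp h4

/-- The local condition, inside the field. -/
theorem locN_of_near {p : ℕ} (hp : p.Prime) {k E : Type} [Field k] [GFF k] [Field E]
    [Algebra k E] (hpk : (p : k) ≠ 0) (hE : finrank k E = p) {b : k} {v : Place k}
    (h : ∃ e : E, v.abv (b / Algebra.norm k e - 1) < 1) : Hey.H63.LocN E b v := by
  have hsep := sep_of_deg hp hpk hE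
  have hfd : FiniteDimensional k E := Module.finite_of_finrank_pos (by rw [hE]; exact hp.pos)
  obtain ⟨e, he⟩ := h
  have hn0 : Algebra.norm k e ≠ 0 := by
    intro h0
    rw [h0, div_zero, zero_sub, AbsoluteValue.map_neg, map_one] at he
    exact lt_irrefl _ he
  obtain ⟨y, hy⟩ := exists_root_near v hpk
    (x := algebraMap k v.comp (b / Algebra.norm k e)) (by
      rw [← map_one (algebraMap k v.comp), ← map_sub, norm_alg]
      exact he)
  rw [Hey.H63.locN_iff]
  have h1 : Hey.H63.IsN k E v.comp (algebraMap k v.comp (b / Algebra.norm k e)) := by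
    rw [← hy, ← hE]
    exact Hey.H63.IsN.of_pow y
  have h2 : Hey.H63.IsN k E v.comp (algebraMap k v.comp (Algebra.norm k e)) :=
    Hey.H63.IsN.of_norm e
  have h3 := h1.mul h2
  rwa [← map_mul, div_mul_cancel₀ _ hn0] at h3

/-- **The Hasse norm theorem with approximation over global function fields**, for extensions of
prime degree different from the characteristic. -/
theorem hasse_norm_approx {p : ℕ} (hp : p.Prime) {k E : Type} [Field k] [GFF k] [Field E]
    [Algebra k E] (hpk : (p : k) ≠ 0) (hE : finrank k E = p) {b : k} (hb0 : b ≠ 0)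
    (h : ∀ v : Place k, Hey.H63.LocN E b v)
    {S : Set (Place k)} (hS : S.Finite) (c : Place k → k)
    (hc : ∀ v ∈ S, c v ≠ 0 ∧ v.abv (c v) ≤ 1)
    (hb : ∀ v ∈ S, v.abv (b - 1) < v.abv (c v)) :
    ∃ e : E, Algebra.norm k e = b ∧ ∀ v ∈ S, ∀ w : Place E, Av' w v →
        w.abv (e - 1) < w.abv (algebraMap k E (c v)) := by
  have hsep := sep_of_deg hp hpk hE
  obtain ⟨e0, he0⟩ := Hey.hasse_norm hp hE b h
  exact norm_approx_prime hp hpk hE hb0 he0 hS c hc hb

/-- **The Hasse norm theorem with approximation over global function fields**, with the local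
conditions inside the field. -/
theorem hasse_norm_approx' {p : ℕ} (hp : p.Prime) {k E : Type} [Field k] [GFF k] [Field E]
    [Algebra k E] (hpk : (p : k) ≠ 0) (hE : finrank k E = p) {b : k} (hb0 : b ≠ 0)
    (h : ∀ v : Place k, ∃ e : E, v.abv (b / Algebra.norm k e - 1) < 1)
    {S : Set (Place k)} (hS : S.Finite) (c : Place k → k)
    (hc : ∀ v ∈ S, c v ≠ 0 ∧ v.abv (c v) ≤ 1)
    (hb : ∀ v ∈ S, v.abv (b - 1) < v.abv (c v)) :
    ∃ e : E, Algebra.norm k e = b ∧ ∀ v ∈ S, ∀ w : Place E, Av' w v →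
        w.abv (e - 1) < w.abv (algebraMap k E (c v)) :=
  hasse_norm_approx hp hpk hE hb0 (fun v => locN_of_near hp hpk hE (h v)) hS c hc hb

/-- Towers of places. -/
theorem ab_trans {k A N : Type} [Field k] [Field A] [Field N] [Algebra k A] [Algebra A N]
    [Algebra k N] [IsScalarTower k A N] {W : Place N} {V : Place A} {v : Place k}
    (h1 : Ab W V) (h2 : Ab V v) : Ab W v := by
  obtain ⟨c, hc, h⟩ := h1
  obtain ⟨c', hc', h'⟩ := h2
  refine ⟨c' * c, mul_pos hc' hc, fun x => ?_⟩
  rw [IsScalarTower.algebraMap_apply k A N, h, h', Real.rpow_mul (v.abv.nonneg x)]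

theorem exists_below_ab {k K : Type} [Field k] [Field K] [Algebra k K] [GFF k] [GFF K]
    [Algebra.IsAlgebraic k K] (V : Place K) : ∃ v : Place k, Ab V v :=
  Hey.H63.exists_below (k := k) V

theorem exists_above_ab {k K : Type} [Field k] [Field K] [Algebra k K] [GFF k] [GFF K]
    [Algebra.IsAlgebraic k K] (v : Place k) : ∃ V : Place K, Ab V v := by
  obtain ⟨V, hV⟩ := exists_aboveF (E := K) v
  exact ⟨V, ab_of_av hV⟩

theorem ab_lt_iff {k K : Type} [Field k] [Field K] [Algebra k K] {V : Place K} {v : Place k}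
    (h : Ab V v) (x y : k) :
    V.abv (algebraMap k K x) < V.abv (algebraMap k K y) ↔ v.abv x < v.abv y :=
  av_lt_iff (av_of_ab h) x y

theorem ab_le_iff {k K : Type} [Field k] [Field K] [Algebra k K] {V : Place K} {v : Place k}
    (h : Ab V v) (x y : k) :
    V.abv (algebraMap k K x) ≤ V.abv (algebraMap k K y) ↔ v.abv x ≤ v.abv y :=
  (av_of_ab h).le_iff x y

/-- **(N) over function fields**, in the letters `Ab`. -/
theorem hasse_norm_approxF {p : ℕ} (hp : p.Prime) {k E : Type} [Field k] [GFF k] [Field E]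
    [Algebra k E] (hE : finrank k E = p) (hpk : (p : k) ≠ 0) (b : kˣ)
    (h : ∀ v : Place k, ∃ e : E, v.abv ((b : k) / Algebra.norm k e - 1) < 1)
    {S : Set (Place k)} (hS : S.Finite) (c : Place k → k)
    (hc : ∀ v ∈ S, c v ≠ 0 ∧ v.abv (c v) ≤ 1)
    (hb : ∀ v ∈ S, v.abv ((b : k) - 1) < v.abv (c v)) :
    ∃ e : E, Algebra.norm k e = b ∧ ∀ v ∈ S, ∀ w : Place E, Ab w v →
        w.abv (e - 1) < w.abv (algebraMap k E (c v)) := by
  obtain ⟨e, he, h1⟩ := hasse_norm_approx' hp hpk hE b.ne_zero h hS c hc hb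
  exact ⟨e, he, fun v hv w hw => h1 v hv w (av_of_ab hw)⟩

end Vale.Agent.P011.H511.FF
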