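import Vale.Agent.P011.H775.CubEx
import Mathlib.RingTheory.Valuation.Basic

/-!
If the reduced characteristic polynomial of `t` is not integral at `V`, then the traces
`T (h t ^ j)`, `j` an integer, are not all integral.
-/

open Module

set_option linter.unusedSectionVars false
set_option linter.unusedVariables false

namespace Vale.Agent.P011.H511

open Vale.Agent.P011.H775

variable {K D : Type} [Field K] [DivisionRing D] [Algebra K D] (C : Cub K D)

theorem T_sq (t : D) : C.T (t ^ 2) = C.T t ^ 2 - 2 * C.S t := by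
  have h3 := congrArg C.T (C.adj_eq t)
  rw [map_add, map_sub, map_smul, map_smul, C.T_one, smul_eq_mul, smul_eq_mul] at h3
  have h5 : C.T (C.adj t) = C.S t := rfl
  rw [h5] at h3
  rw [pow_two]
  linear_combination -h3

theorem T_rec {t : D} (hN : C.N t = 1) (n : ℕ) : C.T (t ^ (n + 3)) =
    C.T t * C.T (t ^ (n + 2)) - C.S t * C.T (t ^ (n + 1)) + C.T (t ^ n) := by
  have h1 := congrArg (fun z => z * t ^ n) (C.cayley t)
  simp only [zero_mul] at h1
  have h2 := congrArg C.T h1
  rw [hN] at h2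
  simp only [sub_mul, add_mul, smul_mul_assoc, one_mul, map_sub, map_add, map_smul, map_zero,
    smul_eq_mul, one_mul] at h2
  have e3 : t * t * t * t ^ n = t ^ (n + 3) := by
    rw [← pow_two, ← pow_succ, ← pow_add]
    congr 1
    omega
  have e2 : t * t * t ^ n = t ^ (n + 2) := by
    rw [← pow_two, ← pow_add]
    congr 1
    omega
  have e1 : t * t ^ n = t ^ (n + 1) := by
    rw [← pow_succ']
  rw [e3, e2, e1] at h2
  linear_combination h2

variable {Γ : Type} [LinearOrderedCommGroupWithZero Γ] (V : Valuation K Γ)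

theorem V_nat_le (n : ℕ) : V (n : K) ≤ 1 := by
  induction n with
  | zero => rw [Nat.cast_zero, map_zero]; exact zero_le_one
  | succ n ih =>
    rw [Nat.cast_add, Nat.cast_one]
    exact (V.map_add _ _).trans (max_le ih (map_one V).le)

/-- The powers have large traces. -/
theorem big_pow {t : D} (hN : C.N t = 1) (h1 : 1 < V (C.T t)) (h2 : V (C.S t) < V (C.T t) ^ 2)
    (n : ℕ) : V (C.T (t ^ (n + 1))) = V (C.T t) ^ (n + 1) ∧
      V (C.T (t ^ (n + 2))) = V (C.T t) ^ (n + 2) ∧
      V (C.T (t ^ (n + 3))) = V (C.T t) ^ (n + 3) := by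
  have hT0 : 0 < V (C.T t) := zero_lt_one.trans h1
  have e2 : V (C.T (t ^ 2)) = V (C.T t) ^ 2 := by
    rw [T_sq, ← map_pow V]
    apply V.map_sub_eq_of_lt_left
    rw [map_mul, map_pow]
    calc V 2 * V (C.S t) ≤ 1 * V (C.S t) := by
          refine mul_le_mul_left ?_ _
          exact_mod_cast V_nat_le V 2
      _ < _ := by rwa [one_mul]
  -- the step
  have step : ∀ m : ℕ, V (C.T (t ^ (m + 2))) = V (C.T t) ^ (m + 2) →
      V (C.T (t ^ (m + 1))) = V (C.T t) ^ (m + 1) → V (C.T (t ^ m)) ≤ V (C.T t) ^ m →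
      V (C.T (t ^ (m + 3))) = V (C.T t) ^ (m + 3) := by
    intro m a1 a2 a3
    rw [T_rec C hN]
    have b1 : V (C.T t * C.T (t ^ (m + 2))) = V (C.T t) ^ (m + 3) := by
      rw [map_mul, a1, ← pow_succ']
    have b2 : V (C.S t * C.T (t ^ (m + 1))) < V (C.T t) ^ (m + 3) := by
      rw [map_mul, a2]
      calc V (C.S t) * V (C.T t) ^ (m + 1) < V (C.T t) ^ 2 * V (C.T t) ^ (m + 1) :=
            mul_lt_mul_of_pos_right h2 (pow_pos hT0 _)
        _ = _ := by
          rw [← pow_add]
          congr 1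
          omega
    have b3 : V (C.T (t ^ m)) < V (C.T t) ^ (m + 3) :=
      a3.trans_lt (pow_lt_pow_right₀ h1 (by omega))
    have b4 : V (C.T t * C.T (t ^ (m + 2)) - C.S t * C.T (t ^ (m + 1))) =
        V (C.T t) ^ (m + 3) := by
      rw [← b1]
      exact V.map_sub_eq_of_lt_left (by rw [b1]; exact b2)
    rw [← b4]
    exact V.map_add_eq_of_lt_left (by rw [b4]; exact b3)
  induction n with
  | zero =>
    have a0 : V (C.T (t ^ 0)) ≤ V (C.T t) ^ 0 := by
      rw [pow_zero, pow_zero, C.T_one]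
      exact_mod_cast V_nat_le V 3
    refine ⟨by rw [zero_add, pow_one, pow_one], by rw [zero_add]; exact e2, ?_⟩
    exact step 0 (by rw [zero_add]; exact e2) (by rw [zero_add, pow_one, pow_one]) a0
  | succ n ih =>
    obtain ⟨a1, a2, a3⟩ := ih
    exact ⟨a2, a3, step (n + 1) a3 a2 a1.le⟩

theorem inv_TSN {t : D} (hN : C.N t = 1) : C.T t⁻¹ = C.S t ∧ C.S t⁻¹ = C.T t ∧ C.N t⁻¹ = 1 := by
  have ht : t ≠ 0 := by
    rintro rfl
    rw [C.N_zero] at hN
    exact zero_ne_one hN
  have e : t⁻¹ = C.adj t := by rw [C.inv_eq ht, hN, inv_one, one_smul]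
  refine ⟨by rw [e]; rfl, ?_, by rw [C.N_inv, hN, inv_one]⟩
  rw [e, Cub.S, C.adj_adj, hN, one_smul]

/-- The bounded elements. -/
theorem bdd_aeval {h t : D} (ht : t ≠ 0) (hb : ∀ j : ℤ, V (C.T (h * t ^ j)) ≤ 1)
    (p : Polynomial K) : ∃ M : Γ, ∀ j : ℤ, V (C.T (h * Polynomial.aeval t p * t ^ j)) ≤ M := by
  induction p using Polynomial.induction_on' with
  | add p q hp hq =>
    obtain ⟨M, hM⟩ := hp
    obtain ⟨M', hM'⟩ := hq
    refine ⟨max M M', fun j => ?_⟩
    rw [map_add, mul_add, add_mul, map_add]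
    exact (V.map_add _ _).trans (max_le_max (hM j) (hM' j))
  | monomial n c =>
    refine ⟨V c, fun j => ?_⟩
    rw [Polynomial.aeval_monomial, ← Algebra.smul_def, mul_smul_comm, smul_mul_assoc, map_smul,
      smul_eq_mul, map_mul]
    have e : h * t ^ n * t ^ j = h * t ^ ((n : ℤ) + j) := by
      rw [mul_assoc, zpow_add₀ ht, zpow_natCast]
    rw [e]
    exact mul_le_of_le_one_right' (hb _)

/-- The trace form twisted by `h` represents the trace. -/
theorem exists_repr [FiniteDimensional K D] {h t : D} {E : Subalgebra K D}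
    (hE : ∃ x ∈ E, C.T (h * x) ≠ 0) : ∃ y ∈ E, ∀ x ∈ E, C.T (h * y * x) = C.T x := by
  obtain ⟨x₀, hx₀, hT⟩ := hE
  -- division in `E`
  have hdiv : ∀ y ∈ E, y ≠ 0 → ∃ x ∈ E, y * x = x₀ := by
    intro y hy hy0
    let L : E →ₗ[K] E :=
      { toFun := fun x => ⟨y * x, E.mul_mem hy x.2⟩
        map_add' := fun a b => Subtype.ext (by simp [mul_add])
        map_smul' := fun c a => Subtype.ext (by simp) }
    have hinj : Function.Injective L := by
      intro a b hab
      have h1 : y * (a : D) = y * (b : D) := congrArg Subtype.val hab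
      exact Subtype.ext (mul_left_cancel₀ hy0 h1)
    have hsurj := LinearMap.surjective_of_injective hinj
    obtain ⟨x, hx⟩ := hsurj ⟨x₀, hx₀⟩
    exact ⟨x, x.2, congrArg Subtype.val hx⟩
  let Φ : E →ₗ[K] Dual K E :=
    { toFun := fun y =>
        { toFun := fun x => C.T (h * y * x)
          map_add' := fun a b => by rw [Subalgebra.coe_add, mul_add, map_add]
          map_smul' := fun c a => by
            rw [Subalgebra.coe_smul, mul_smul_comm, map_smul, RingHom.id_apply] }
      map_add' := fun a b => by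
        ext x
        change C.T (h * ((a + b : E) : D) * x) = C.T (h * a * x) + C.T (h * b * x)
        rw [Subalgebra.coe_add, mul_add, add_mul, map_add]
      map_smul' := fun c a => by
        ext x
        change C.T (h * ((c • a : E) : D) * x) = c • C.T (h * a * x)
        rw [Subalgebra.coe_smul, mul_smul_comm, smul_mul_assoc, map_smul] }
  have hinj : Function.Injective Φ := by
    rw [← LinearMap.ker_eq_bot, LinearMap.ker_eq_bot']
    intro y hy
    by_contra hy0
    obtain ⟨x, hx, hyx⟩ := hdiv y y.2 (fun h0 => hy0 (Subtype.ext h0))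
    have h1 : C.T (h * (y : D) * x) = 0 := congrArg (fun l : Dual K E => l ⟨x, hx⟩) hy
    rw [mul_assoc, hyx] at h1
    exact hT h1
  have hsurj : Function.Surjective Φ :=
    (LinearMap.injective_iff_surjective_of_finrank_eq_finrank
      (Subspace.dual_finrank_eq).symm).mp hinj
  obtain ⟨y, hy⟩ := hsurj
    { toFun := fun x => C.T (x : D)
      map_add' := fun a b => by rw [Subalgebra.coe_add, map_add]
      map_smul' := fun c a => by rw [Subalgebra.coe_smul, map_smul, RingHom.id_apply] }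
  refine ⟨y, y.2, fun x hx => ?_⟩
  exact congrArg (fun l : Dual K E => l ⟨x, hx⟩) hy

/-- **Large traces.** -/
theorem large' [FiniteDimensional K D] [MulArchimedean Γ] {h t : D} (hN : C.N t = 1)
    (hV : 1 < V (C.T t) ∨ 1 < V (C.S t))
    (hh : ¬ (C.T h = 0 ∧ C.T (h * t) = 0 ∧ C.T (h * t ^ 2) = 0)) :
    ∃ j : ℤ, 1 < V (C.T (h * t ^ j)) := by
  by_contra hcon
  push Not at hcon
  have ht : t ≠ 0 := by
    rintro rfl
    rw [C.N_zero] at hN
    exact zero_ne_one hN
  have hmem : ∀ n : ℕ, t ^ n ∈ Algebra.adjoin K {t} := fun n =>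
    pow_mem (Algebra.self_mem_adjoin_singleton K t) n
  obtain ⟨y, hy, hyx⟩ := exists_repr C (h := h) (t := t) (E := Algebra.adjoin K {t}) (by
    by_contra hE
    push Not at hE
    apply hh
    refine ⟨?_, ?_, hE _ (hmem 2)⟩
    · have := hE _ (hmem 0)
      rwa [pow_zero, mul_one] at this
    · have := hE _ (hmem 1)
      rwa [pow_one] at this)
  rw [Algebra.adjoin_singleton_eq_range_aeval] at hy
  obtain ⟨p, rfl⟩ := hy
  obtain ⟨M, hM⟩ := bdd_aeval C V ht hcon p
  -- the traces of the powers are bounded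
  have hzmem : ∀ j : ℤ, t ^ j ∈ Algebra.adjoin K {t} := by
    have hinv : t⁻¹ ∈ Algebra.adjoin K {t} := by
      have e : t⁻¹ = t * t - C.T t • t + C.S t • (1 : D) := by
        rw [← C.adj_eq, C.inv_eq ht, hN, inv_one, one_smul]
      rw [e]
      exact add_mem (sub_mem (mul_mem (Algebra.self_mem_adjoin_singleton K t)
        (Algebra.self_mem_adjoin_singleton K t))
        (Subalgebra.smul_mem _ (Algebra.self_mem_adjoin_singleton K t) _))
        (Subalgebra.smul_mem _ (one_mem _) _)
    intro j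
    rcases j with n | n
    · rw [Int.ofNat_eq_natCast, zpow_natCast]
      exact hmem n
    · rw [zpow_negSucc, ← inv_pow]
      exact pow_mem hinv _
  have hbd : ∀ j : ℤ, V (C.T (t ^ j)) ≤ M := by
    intro j
    rw [← hyx _ (hzmem j)]
    exact hM j
  -- contradiction
  have main : ∀ u : D, C.N u = 1 → 1 < V (C.T u) → V (C.S u) < V (C.T u) ^ 2 →
      (∀ n : ℕ, V (C.T (u ^ n)) ≤ M) → False := by
    intro u hu h1 h2 h3
    obtain ⟨n, hn⟩ := MulArchimedean.arch M h1
    have h4 := (big_pow C V hu h1 h2 n).1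
    have h5 := h3 (n + 1)
    rw [h4] at h5
    exact absurd (h5.trans hn) (not_le.mpr (pow_lt_pow_right₀ h1 (by omega)))
  obtain ⟨i1, i2, i3⟩ := inv_TSN C hN
  by_cases hA : 1 < V (C.T t) ∧ V (C.S t) < V (C.T t) ^ 2
  · exact main t hN hA.1 hA.2 fun n => by
      have := hbd n
      rwa [zpow_natCast] at this
  · have hS1 : 1 < V (C.S t) ∧ V (C.T t) < V (C.S t) ^ 2 := by
      by_cases hT : 1 < V (C.T t)
      · have h2 : V (C.T t) ^ 2 ≤ V (C.S t) := by
          by_contra h3
          exact hA ⟨hT, not_le.mp h3⟩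
        have h3 : V (C.T t) < V (C.S t) := by
          refine lt_of_lt_of_le ?_ h2
          calc V (C.T t) = V (C.T t) ^ 1 := (pow_one _).symm
            _ < V (C.T t) ^ 2 := pow_lt_pow_right₀ hT (by norm_num)
        have h4 : 1 < V (C.S t) := hT.trans h3
        refine ⟨h4, h3.trans ?_⟩
        calc V (C.S t) = V (C.S t) ^ 1 := (pow_one _).symm
          _ < V (C.S t) ^ 2 := pow_lt_pow_right₀ h4 (by norm_num)
      · have h4 : 1 < V (C.S t) := hV.resolve_left hT
        refine ⟨h4, lt_of_le_of_lt (not_lt.mp hT) ?_⟩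
        exact one_lt_pow₀ h4 (by norm_num)
    exact main t⁻¹ i3 (by rw [i1]; exact hS1.1) (by rw [i1, i2]; exact hS1.2) fun n => by
      have := hbd (-(n : ℤ))
      rwa [zpow_neg, zpow_natCast, ← inv_pow] at this

/-- **Large traces.** -/
theorem large [FiniteDimensional K D] [MulArchimedean Γ] {h t : D} (hN : C.N t = 1)
    (hV : 1 < V (C.T t) ∨ 1 < V (C.S t)) (hh : C.T h ≠ 0) :
    ∃ j : ℤ, 1 < V (C.T (h * t ^ j)) :=
  large' C V hN hV fun h0 => hh h0.1

end Vale.Agent.P011.H511
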