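import Vale.Agent.P011.H167.FpC
import Vale.Agent.P011.H167.LfE

/-!
Square roots at a nonsplit place of a function field: the class of the reduced norm of a symmetric
element `g` with `g * Y = star Y * g`, where `Y ^ 2` is `d` times a local square.
-/

open Module Matrix TensorProduct

set_option linter.unusedSectionVars false

namespace Vale.Agent.P011.H511.SX

open Vale.Agent.P011.H738 Vale.Agent.P011.H271 Vale.Agent.P011.H182
open Vale.Agent.P011.H305 Vale.Agent.P011.H167.Fp Vale.Agent.P011.H167.Lf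
open Vale.Agent.P011.T2 (QuadL)
open Vale.Agent.P011.Even (LN)
open Vale.Agent.P011.Arith (NF)
open Vale.Agent.P011.H63.FB (LSF iuF iuF_val mem_LN_iff)

section lin

variable {L : Type} [Field L]

/-- Idempotent endomorphisms of the same rank are conjugate. -/
theorem proj_conj {V : Type} [AddCommGroup V] [Module L V] [FiniteDimensional L V]
    {f g : V →ₗ[L] V} (hf : IsIdempotentElem f) (hg : IsIdempotentElem g)
    (h : finrank L (LinearMap.range f) = finrank L (LinearMap.range g)) :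
    ∃ φ : V ≃ₗ[L] V, ∀ x, φ (f x) = g (φ x) := by
  have h' : finrank L (LinearMap.ker f) = finrank L (LinearMap.ker g) := by
    have h1 := f.finrank_range_add_finrank_ker
    have h2 := g.finrank_range_add_finrank_ker
    omega
  obtain ⟨a⟩ : Nonempty (LinearMap.range f ≃ₗ[L] LinearMap.range g) :=
    ⟨LinearEquiv.ofFinrankEq _ _ h⟩
  obtain ⟨b⟩ : Nonempty (LinearMap.ker f ≃ₗ[L] LinearMap.ker g) :=
    ⟨LinearEquiv.ofFinrankEq _ _ h'⟩
  let P := (LinearMap.range f).prodEquivOfIsCompl (LinearMap.ker f)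
    (LinearMap.IsIdempotentElem.isCompl hf)
  let Q := (LinearMap.range g).prodEquivOfIsCompl (LinearMap.ker g)
    (LinearMap.IsIdempotentElem.isCompl hg)
  have hP : ∀ y, P y = (y.1 : V) + y.2 := fun y => rfl
  have hQ : ∀ y, Q y = (y.1 : V) + y.2 := fun y => rfl
  have key : ∀ y, Q ((a.prodCongr b) (P.symm (f (P y)))) =
      g (Q ((a.prodCongr b) (P.symm (P y)))) := by
    intro y
    have h1 : f (P y) = P (y.1, 0) := by
      rw [hP, hP, map_add, LinearMap.mem_ker.mp y.2.2, add_zero,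
        (LinearMap.IsIdempotentElem.mem_range_iff hf).mp y.1.2]
      simp
    rw [h1, LinearEquiv.symm_apply_apply, LinearEquiv.symm_apply_apply, hQ, hQ, map_add]
    simp only [LinearEquiv.prodCongr_apply, map_zero, ZeroMemClass.coe_zero, add_zero]
    rw [LinearMap.mem_ker.mp (b y.2).2, add_zero,
      (LinearMap.IsIdempotentElem.mem_range_iff hg).mp (a y.1).2]
  refine ⟨P.symm.trans ((a.prodCongr b).trans Q), fun x => ?_⟩
  have := key (P.symm x)
  rw [LinearEquiv.apply_symm_apply] at this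
  exact this

variable (h2 : (2 : L) ≠ 0)

include h2

/-- Involutory matrices which are conjugate to their opposites are conjugate. -/
theorem conj_invol {n : ℕ} {y z : Matrix (Fin n) (Fin n) L} (hy : y * y = 1)
    (hz : z * z = 1) (ty : ∃ a : Matrix (Fin n) (Fin n) L, IsUnit a ∧ a * y = -(y * a))
    (tz : ∃ a : Matrix (Fin n) (Fin n) L, IsUnit a ∧ a * z = -(z * a)) :
    ∃ P : Matrix (Fin n) (Fin n) L, IsUnit P ∧ P * y = z * P := by
  have h22 : (2 : L)⁻¹ * 2 = 1 := inv_mul_cancel₀ h2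
  have hidem : ∀ w : Matrix (Fin n) (Fin n) L, w * w = 1 →
      IsIdempotentElem (Matrix.toLin' ((2 : L)⁻¹ • (1 + w))) := by
    intro w hw
    have h1 : ((2 : L)⁻¹ • (1 + w)) * ((2 : L)⁻¹ • (1 + w)) = (2 : L)⁻¹ • (1 + w) := by
      have h3 : (1 + w) * (1 + w) = (2 : L) • (1 + w) := by
        rw [add_mul, mul_add, mul_add, one_mul, one_mul, mul_one, hw, two_smul, add_comm w 1]
      rw [smul_mul_assoc, mul_smul_comm, h3, smul_smul, smul_smul, mul_assoc, h22, mul_one]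
    have h2 := Matrix.toLin'_mul ((2 : L)⁻¹ • (1 + w)) ((2 : L)⁻¹ • (1 + w))
    rw [h1] at h2
    exact h2.symm
  have hrk : ∀ w : Matrix (Fin n) (Fin n) L, w * w = 1 →
      (∃ a : Matrix (Fin n) (Fin n) L, IsUnit a ∧ a * w = -(w * a)) →
      2 * finrank L (LinearMap.range (Matrix.toLin' ((2 : L)⁻¹ • (1 + w)))) = n := by
    intro w hw ⟨a, ha, haw⟩
    have hf := hidem w hw
    have hk := (Matrix.toLin' ((2 : L)⁻¹ • (1 + w))).finrank_range_add_finrank_ker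
    rw [finrank_fin_fun] at hk
    have hsum : ∀ x : Fin n → L, ((2 : L)⁻¹ • (1 + w)) *ᵥ x + ((2 : L)⁻¹ • (1 - w)) *ᵥ x = x := by
      intro x
      rw [← Matrix.add_mulVec, ← smul_add]
      have e1 : (1 + w) + (1 - w) = (2 : L) • (1 : Matrix (Fin n) (Fin n) L) := by
        rw [two_smul]; abel
      rw [e1, smul_smul, h22, one_smul, Matrix.one_mulVec]
    have hcom : a * ((2 : L)⁻¹ • (1 + w)) = ((2 : L)⁻¹ • (1 - w)) * a := by
      rw [mul_smul_comm, smul_mul_assoc, mul_add, mul_one, haw, sub_mul, one_mul, sub_eq_add_neg]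
    have hcom' : a * ((2 : L)⁻¹ • (1 - w)) = ((2 : L)⁻¹ • (1 + w)) * a := by
      rw [mul_smul_comm, smul_mul_assoc, mul_sub, mul_one, haw, add_mul, one_mul, sub_neg_eq_add]
    -- the kernel is the image of the range under `a`
    have hinj : Function.Injective (Matrix.toLin' a) := by
      obtain ⟨b, hb⟩ := ha.exists_left_inv
      intro x y hxy
      rw [Matrix.toLin'_apply, Matrix.toLin'_apply] at hxy
      have h1 := congrArg (fun z => b *ᵥ z) hxy
      simpa only [Matrix.mulVec_mulVec, hb, Matrix.one_mulVec] using h1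
    have hmap : Submodule.map (Matrix.toLin' a)
        (LinearMap.range (Matrix.toLin' ((2 : L)⁻¹ • (1 + w)))) =
        LinearMap.ker (Matrix.toLin' ((2 : L)⁻¹ • (1 + w))) := by
      have hww : ((2 : L)⁻¹ • (1 + w)) * ((2 : L)⁻¹ • (1 - w)) = 0 := by
        rw [smul_mul_assoc, mul_smul_comm, add_mul, mul_sub, mul_sub, one_mul, mul_one, hw,
          one_mul]
        have : (1 : Matrix (Fin n) (Fin n) L) - w + (w - 1) = 0 := by abel
        rw [this, smul_zero, smul_zero]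
      ext x
      constructor
      · rintro ⟨y, ⟨z, rfl⟩, rfl⟩
        rw [LinearMap.mem_ker]
        simp only [Matrix.toLin'_apply]
        rw [Matrix.mulVec_mulVec _ a, hcom, Matrix.mulVec_mulVec, ← mul_assoc, hww, zero_mul,
          Matrix.zero_mulVec]
      · intro hx
        rw [LinearMap.mem_ker, Matrix.toLin'_apply] at hx
        obtain ⟨b, hb⟩ := ha.exists_right_inv
        have hx1 : x = ((2 : L)⁻¹ • (1 - w)) *ᵥ x := by
          have := hsum x
          rw [hx, zero_add] at this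
          exact this.symm
        refine ⟨((2 : L)⁻¹ • (1 + w)) *ᵥ (b *ᵥ x), ⟨b *ᵥ x, Matrix.toLin'_apply _ _⟩, ?_⟩
        rw [Matrix.toLin'_apply, Matrix.mulVec_mulVec, hcom, ← Matrix.mulVec_mulVec,
          Matrix.mulVec_mulVec _ a b, hb, Matrix.one_mulVec]
        exact hx1.symm
    have hfr : finrank L (LinearMap.ker (Matrix.toLin' ((2 : L)⁻¹ • (1 + w)))) =
        finrank L (LinearMap.range (Matrix.toLin' ((2 : L)⁻¹ • (1 + w)))) := by
      rw [← hmap]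
      exact (LinearEquiv.finrank_eq (Submodule.equivMapOfInjective _ hinj _)).symm
    omega
  obtain ⟨φ, hφ⟩ := proj_conj (hidem y hy) (hidem z hz) (by
    have h1 := hrk y hy ty
    have h2 := hrk z hz tz
    omega)
  obtain ⟨P, hP⟩ : ∃ P, P = LinearMap.toMatrix' (φ : (Fin n → L) →ₗ[L] (Fin n → L)) := ⟨_, rfl⟩
  have hPv : ∀ x, P *ᵥ x = φ x := by
    intro x
    rw [hP, LinearMap.toMatrix'_mulVec]
    rfl
  have hφ' : ∀ x, P *ᵥ (((2 : L)⁻¹ • (1 + y)) *ᵥ x) = ((2 : L)⁻¹ • (1 + z)) *ᵥ (P *ᵥ x) := by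
    intro x
    have := hφ x
    rw [Matrix.toLin'_apply, Matrix.toLin'_apply] at this
    rw [hPv, hPv, this]
  have h2' : P * ((2 : L)⁻¹ • (1 + y)) = ((2 : L)⁻¹ • (1 + z)) * P := by
    apply Matrix.toLin'.injective
    refine LinearMap.ext fun x => ?_
    rw [Matrix.toLin'_apply, Matrix.toLin'_apply, ← Matrix.mulVec_mulVec, hφ',
      Matrix.mulVec_mulVec]
  refine ⟨P, ?_, ?_⟩
  · rw [hP, LinearMap.isUnit_toMatrix'_iff, Module.End.isUnit_iff]
    exact φ.bijective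
  · rw [mul_smul_comm, smul_mul_assoc, mul_add, add_mul, mul_one, one_mul] at h2'
    have h3 := smul_right_injective (Matrix (Fin n) (Fin n) L)
      (inv_ne_zero h2) h2'
    exact add_left_cancel h3

omit h2 in
/-- Two hermitian matrices for which the image of the idempotent `e` is a lagrangian. -/
theorem herm_conj [StarRing L] {n : ℕ} {e H H' : Matrix (Fin n) (Fin n) L} (he : e * e = e)
    (hs : Hᴴ = H) (hs' : H'ᴴ = H')
    (hH : (1 - e) * H = H * eᴴ) (hH' : (1 - e) * H' = H' * eᴴ) (hu : IsUnit H') :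
    ∃ t : Matrix (Fin n) (Fin n) L, H = t * H' * tᴴ := by
  have hd := (Matrix.isUnit_iff_isUnit_det _).mp hu
  obtain ⟨J, hJ⟩ : ∃ J, J = H'⁻¹ := ⟨_, rfl⟩
  obtain ⟨f, hf⟩ : ∃ f, f = 1 - e := ⟨_, rfl⟩
  have j1 : H' * J = 1 := by rw [hJ, Matrix.mul_nonsing_inv _ hd]
  have j2 : J * H' = 1 := by rw [hJ, Matrix.nonsing_inv_mul _ hd]
  have j3 : Jᴴ = J := by rw [hJ, Matrix.conjTranspose_nonsing_inv, hs']
  rw [← hf] at hH hH'
  have f1 : e * f = 0 := by rw [hf, mul_sub, mul_one, he, sub_self]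
  have f2 : f * f = f := by rw [hf, sub_mul, one_mul, ← hf, f1, sub_zero]
  have f3 : eᴴ * J = J * f := by
    calc eᴴ * J = (J * H') * eᴴ * J := by rw [j2, one_mul]
      _ = J * (H' * eᴴ) * J := by simp only [mul_assoc]
      _ = J * f * (H' * J) := by rw [← hH']; simp only [mul_assoc]
      _ = _ := by rw [j1, mul_one]
  refine ⟨e * H * J + f, ?_⟩
  have e1 : (e * H * J + f)ᴴ = J * H * eᴴ + (1 - eᴴ) := by
    rw [Matrix.conjTranspose_add, Matrix.conjTranspose_mul, Matrix.conjTranspose_mul, j3, hs, hf,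
      Matrix.conjTranspose_sub, Matrix.conjTranspose_one, mul_assoc]
  have e2 : (e * H * J + f) * H' = e * H + f * H' := by
    rw [add_mul, mul_assoc (e * H), j2, mul_one]
  have t1 : e * H * (J * H * eᴴ) = 0 := by
    calc e * H * (J * H * eᴴ) = e * H * (J * (H * eᴴ)) := by simp only [mul_assoc]
      _ = e * H * (J * f) * H := by rw [← hH]; simp only [mul_assoc]
      _ = e * (H * eᴴ) * J * H := by rw [← f3]; simp only [mul_assoc]
      _ = e * f * H * J * H := by rw [← hH]; simp only [mul_assoc]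
      _ = 0 := by rw [f1]; simp only [zero_mul]
  have t2 : e * H * (1 - eᴴ) = e * H := by
    rw [mul_sub, mul_one, mul_assoc, ← hH, ← mul_assoc, f1, zero_mul, sub_zero]
  have t3 : f * H' * (J * H * eᴴ) = f * H := by
    calc f * H' * (J * H * eᴴ) = f * (H' * J) * (H * eᴴ) := by simp only [mul_assoc]
      _ = f * (f * H) := by rw [j1, mul_one, hH]
      _ = _ := by rw [← mul_assoc, f2]
  have t4 : f * H' * (1 - eᴴ) = 0 := by
    rw [mul_sub, mul_one, mul_assoc, ← hH', ← mul_assoc, f2, sub_self]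
  rw [e1, e2, mul_add, add_mul, add_mul, t1, t2, t3, t4, zero_add, add_zero, hf, sub_mul, one_mul]
  abel

/-- The determinants of two hermitian matrices with `H y = yᴴ H`. -/
theorem det_class [StarRing L] {n : ℕ} {δ₁ δ₂ : L} (hδ₁ : star δ₁ = -δ₁)
    (hδ₂ : star δ₂ = -δ₂) (h₁0 : δ₁ ≠ 0) (h₂0 : δ₂ ≠ 0) {y₁ y₂ H₁ H₂ : Matrix (Fin n) (Fin n) L}
    (hy₁ : y₁ * y₁ = Matrix.scalar _ (δ₁ * δ₁)) (hy₂ : y₂ * y₂ = Matrix.scalar _ (δ₂ * δ₂))
    (ty₁ : ∃ a : Matrix (Fin n) (Fin n) L, IsUnit a ∧ a * y₁ = -(y₁ * a))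
    (ty₂ : ∃ a : Matrix (Fin n) (Fin n) L, IsUnit a ∧ a * y₂ = -(y₂ * a))
    (hs₁ : H₁ᴴ = H₁) (hs₂ : H₂ᴴ = H₂)
    (hH₁ : H₁ * y₁ = y₁ᴴ * H₁) (hH₂ : H₂ * y₂ = y₂ᴴ * H₂) (hu : IsUnit H₂) :
    ∃ p : L, H₁.det = p * star p * H₂.det := by
  have h22 : (2 : L)⁻¹ * 2 = 1 := inv_mul_cancel₀ h2
  have hsq : ∀ {δ : L} {y : Matrix (Fin n) (Fin n) L}, δ ≠ 0 → y * y = Matrix.scalar _ (δ * δ) →
      (δ⁻¹ • y) * (δ⁻¹ • y) = 1 := by
    intro δ y h0 h
    rw [smul_mul_smul_comm, h, Matrix.scalar_apply, ← Matrix.smul_one_eq_diagonal, smul_smul]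
    have : δ⁻¹ * δ⁻¹ * (δ * δ) = 1 := by field_simp
    rw [this, one_smul]
  have hst : ∀ {δ : L} {y H : Matrix (Fin n) (Fin n) L}, star δ = -δ → H * y = yᴴ * H →
      H * (δ⁻¹ • y) = -((δ⁻¹ • y)ᴴ * H) := by
    intro δ y H h1 h2
    rw [Matrix.conjTranspose_smul, star_inv₀, h1, inv_neg, neg_smul, neg_mul, neg_neg,
      mul_smul_comm, smul_mul_assoc, h2]
  have han : ∀ {δ : L} {y : Matrix (Fin n) (Fin n) L},
      (∃ a : Matrix (Fin n) (Fin n) L, IsUnit a ∧ a * y = -(y * a)) →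
      ∃ a : Matrix (Fin n) (Fin n) L, IsUnit a ∧ a * (δ⁻¹ • y) = -((δ⁻¹ • y) * a) := by
    rintro δ y ⟨a, ha, h⟩
    refine ⟨a, ha, ?_⟩
    rw [mul_smul_comm, smul_mul_assoc, h, smul_neg]
  obtain ⟨x₁, hx₁⟩ : ∃ x, x = δ₁⁻¹ • y₁ := ⟨_, rfl⟩
  obtain ⟨x₂, hx₂⟩ : ∃ x, x = δ₂⁻¹ • y₂ := ⟨_, rfl⟩
  have q₁ := hsq h₁0 hy₁
  have q₂ := hsq h₂0 hy₂
  have r₁ := hst hδ₁ hH₁
  have r₂ := hst hδ₂ hH₂
  have a₁ := han (δ := δ₁) ty₁
  have a₂ := han (δ := δ₂) ty₂
  rw [← hx₁] at q₁ r₁ a₁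
  rw [← hx₂] at q₂ r₂ a₂
  obtain ⟨P, hP, hPx⟩ := conj_invol h2 q₁ q₂ a₁ a₂
  have hK : Pᴴ * H₂ * P * x₁ = -(x₁ᴴ * (Pᴴ * H₂ * P)) := by
    calc Pᴴ * H₂ * P * x₁ = Pᴴ * (H₂ * x₂) * P := by
          rw [mul_assoc, hPx]; simp only [mul_assoc]
      _ = -((x₂ * P)ᴴ * H₂ * P) := by
          rw [r₂, Matrix.conjTranspose_mul, mul_neg, neg_mul]; simp only [mul_assoc]
      _ = _ := by rw [← hPx, Matrix.conjTranspose_mul]; simp only [mul_assoc]
  -- the idempotent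
  obtain ⟨e, he⟩ : ∃ e, e = ((2 : L)⁻¹ • (1 + x₁))ᴴ := ⟨_, rfl⟩
  have h2s : star (2 : L)⁻¹ = (2 : L)⁻¹ := by rw [star_inv₀, star_ofNat]
  have he1 : e = (2 : L)⁻¹ • (1 + x₁ᴴ) := by
    rw [he, Matrix.conjTranspose_smul, h2s, Matrix.conjTranspose_add, Matrix.conjTranspose_one]
  have he2 : eᴴ = (2 : L)⁻¹ • (1 + x₁) := by
    rw [he, Matrix.conjTranspose_conjTranspose]
  have hee : e * e = e := by
    have h3 : x₁ᴴ * x₁ᴴ = 1 := by rw [← Matrix.conjTranspose_mul, q₁, Matrix.conjTranspose_one]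
    have h4 : (1 + x₁ᴴ) * (1 + x₁ᴴ) = (2 : L) • (1 + x₁ᴴ) := by
      rw [add_mul, mul_add, mul_add, one_mul, one_mul, mul_one, h3, two_smul, add_comm x₁ᴴ 1]
    rw [he1, smul_mul_smul_comm, h4, smul_smul, mul_assoc, h22, mul_one]
  have hHe : ∀ H : Matrix (Fin n) (Fin n) L, H * x₁ = -(x₁ᴴ * H) → (1 - e) * H = H * eᴴ := by
    intro H hH
    have h3 : (1 : Matrix (Fin n) (Fin n) L) - e = (2 : L)⁻¹ • (1 - x₁ᴴ) := by
      have h5 : (1 : Matrix (Fin n) (Fin n) L) = (2 : L)⁻¹ • (1 + 1) := by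
        rw [← two_smul L (1 : Matrix (Fin n) (Fin n) L), smul_smul, h22, one_smul]
      rw [he1]
      nth_rewrite 1 [h5]
      rw [← smul_sub]
      congr 1
      abel
    rw [h3, he2, smul_mul_assoc, mul_smul_comm, mul_add, mul_one, hH, sub_mul, one_mul,
      ← sub_eq_add_neg]
  have hsK : (Pᴴ * H₂ * P)ᴴ = Pᴴ * H₂ * P := by
    rw [Matrix.conjTranspose_mul, Matrix.conjTranspose_mul, Matrix.conjTranspose_conjTranspose,
      hs₂, mul_assoc]
  have huK : IsUnit (Pᴴ * H₂ * P) := by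
    refine (IsUnit.mul ?_ hu).mul hP
    exact hP.star
  obtain ⟨t, ht⟩ := herm_conj hee hs₁ hsK (hHe _ r₁) (hHe _ hK) huK
  refine ⟨t.det * star P.det, ?_⟩
  rw [ht, Matrix.det_mul, Matrix.det_mul, Matrix.det_mul, Matrix.det_mul,
    Matrix.det_conjTranspose, Matrix.det_conjTranspose, star_mul', star_star]
  ring

end lin

theorem exists_antiF {K D : Type} [Field K] [DivisionRing D] [Algebra K D] [Algebra.IsCentral K D]
    {Y : D} {c : D} (hc : ∀ x, c * x = x * c) (hY : Y * Y = c) (hK : ∀ c : K, algebraMap K D c ≠ Y) :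
    ∃ z : D, z ≠ 0 ∧ z * Y = -(Y * z) := by
  by_cases h : ∀ x, Y * x = x * Y
  · have h1 : Y ∈ Subalgebra.center K D := by
      rw [Subalgebra.mem_center_iff]
      exact fun x => (h x).symm
    have h2 := Algebra.IsCentral.out h1
    rw [Algebra.mem_bot] at h2
    obtain ⟨a, ha⟩ := h2
    exact absurd ha (hK a)
  · push Not at h
    obtain ⟨x, hx⟩ := h
    refine ⟨Y * x - x * Y, sub_ne_zero.mpr hx, ?_⟩
    rw [sub_mul, mul_sub, neg_sub, mul_assoc x, hY, ← mul_assoc Y Y, hY, ← mul_assoc Y x Y, hc]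

variable {k K D : Type} [Field k] [GFF k] [Field K] [StarRing K]
    [DivisionRing D] [StarRing D] [Algebra k K] [Algebra k D] [Algebra K D] [IsScalarTower k K D]
    {d : kˣ} {s : K} {n : ℕ}

/-- **The class of the symmetric elements `g` with `g * Y = star Y * g`**, where `Y ^ 2 = b` and
`b * d` is a local square at the nonsplit place `v`. -/
theorem mat_lemmaF (hS : SetF k K D d s) (hdeg : finrank K D = n ^ 2) {Ω : Type}
    [Field Ω] [Algebra K Ω] (f : D →ₐ[K] Matrix (Fin n) (Fin n) Ω) {v : Place k}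
    (hv : d ∉ LSF v) {b₁ b₂ : kˣ} {Y₁ Y₂ g₁ g₂ : D}
    (hY₁ : Y₁ * Y₁ = algebraMap k D b₁) (hY₂ : Y₂ * Y₂ = algebraMap k D b₂)
    (hK₁ : ∀ c : K, algebraMap K D c ≠ Y₁) (hK₂ : ∀ c : K, algebraMap K D c ≠ Y₂)
    (hb₁ : b₁ * d ∈ LSF v) (hb₂ : b₂ * d ∈ LSF v)
    (hg₁ : star g₁ = g₁) (hg₂ : star g₂ = g₂) (h0₂ : g₂ ≠ 0)
    (h₁ : g₁ * Y₁ = star Y₁ * g₁) (h₂ : g₂ * Y₂ = star Y₂ * g₂) {ν₁ ν₂ : kˣ}
    (hν₁ : (f g₁).det = algebraMap K Ω (algebraMap k K ν₁))
    (hν₂ : (f g₂).det = algebraMap K Ω (algebraMap k K ν₂)) :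
    ν₁ * ν₂ ∈ NF d ⊔ LSF v := by
  have := hS.fin
  have := hS.cen
  have h2k : (2 : k) ≠ 0 := hS.two_ne
  obtain ⟨L, _, _, _, ρ, G, i, hGu, hGs, hG, hik, hi, hQ⟩ := exists_model hS hdeg v hv
  have hσ : ∀ x, hS.sig x = star x := fun x => rfl
  have h2L : (2 : L) ≠ 0 := by
    rw [← map_ofNat (algebraMap v.comp L) 2]
    exact (_root_.map_ne_zero _).mpr (H63.FB.two_ne_comp v h2k)
  obtain ⟨gg, hgg, hgi⟩ := exists_emb ρ i (fun c => hi c)
  have hGg : ∀ x, G * gg (star x) = (gg x)ᴴ * G := by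
    intro x
    have h := hG ((1 : v.comp) ⊗ₜ x)
    rw [LinearMap.baseChange_tmul, hσ] at h
    rw [hgg, hgg]
    exact h
  have hunit : ∀ c : D, c ≠ 0 → IsUnit (gg c) := fun c hc => (IsUnit.mk0 c hc).map gg
  -- the square roots
  obtain ⟨θ, hθ0, hθs, hθd⟩ := hQ.gen
  have hroot : ∀ b : kˣ, b * d ∈ LSF v → ∃ δ : L, star δ = -δ ∧ δ ≠ 0 ∧
      δ * δ = algebraMap v.comp L (algebraMap k v.comp (b : k)) := by
    intro b hb
    obtain ⟨c, hc⟩ := hb
    have hc0 : c ≠ 0 := by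
      rintro rfl
      rw [mul_zero] at hc
      exact (_root_.map_ne_zero (algebraMap k v.comp)).mpr (b * d : kˣ).ne_zero hc
    refine ⟨algebraMap v.comp L c * θ⁻¹, ?_, mul_ne_zero ((_root_.map_ne_zero _).mpr hc0)
      (inv_ne_zero hθ0), ?_⟩
    · rw [star_mul', hQ.fix', star_inv₀, hθs, inv_neg, mul_neg]
    · have h1 : algebraMap v.comp L c * algebraMap v.comp L c =
          algebraMap v.comp L (algebraMap k v.comp (b : k)) * θ ^ 2 := by
        rw [hθd, ← map_mul, ← hc, Units.val_mul, map_mul, map_mul]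
        rfl
      have h2 : algebraMap v.comp L c * θ⁻¹ * (algebraMap v.comp L c * θ⁻¹) =
          algebraMap v.comp L c * algebraMap v.comp L c * (θ ^ 2)⁻¹ := by
        rw [pow_two, mul_inv]; ring
      rw [h2, h1, mul_assoc, mul_inv_cancel₀ (pow_ne_zero 2 hθ0), mul_one]
  have hsq : ∀ {b : kˣ} {Y : D}, Y * Y = algebraMap k D b →
      gg Y * gg Y = Matrix.scalar _ (algebraMap v.comp L (algebraMap k v.comp (b : k))) := by
    intro b Y hY
    rw [← map_mul, hY, IsScalarTower.algebraMap_apply k K D, hgg, hi, hik]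
  have htr : ∀ {b : kˣ} {Y : D}, Y * Y = algebraMap k D b → (∀ c : K, algebraMap K D c ≠ Y) →
      ∃ a : Matrix (Fin n) (Fin n) L, IsUnit a ∧ a * gg Y = -(gg Y * a) := by
    intro b Y hY hK
    obtain ⟨z, hz0, hz⟩ := exists_antiF (fun x => Algebra.commutes (b : k) x) hY hK
    refine ⟨gg z, hunit z hz0, ?_⟩
    rw [← map_mul, hz, map_neg, map_mul]
  have hherm : ∀ {g : D}, star g = g → (G * gg g)ᴴ = G * gg g := by
    intro g hg
    rw [Matrix.conjTranspose_mul, hGs, ← hGg, hg]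
  have hint : ∀ {g Y : D}, g * Y = star Y * g → G * gg g * gg Y = (gg Y)ᴴ * (G * gg g) := by
    intro g Y h
    rw [mul_assoc, ← map_mul, h, map_mul, ← mul_assoc, hGg, mul_assoc]
  obtain ⟨δ₁, e1, e2, e3⟩ := hroot b₁ hb₁
  obtain ⟨δ₂, e4, e5, e6⟩ := hroot b₂ hb₂
  obtain ⟨p, hp⟩ := det_class h2L e1 e4 e2 e5 (by rw [hsq hY₁, e3]) (by rw [hsq hY₂, e6])
    (htr hY₁ hK₁) (htr hY₂ hK₂) (hherm hg₁) (hherm hg₂) (hint h₁) (hint h₂)
    (hGu.mul (hunit g₂ h0₂))
  have hd1 : (gg g₁).det = algebraMap v.comp L (algebraMap k v.comp (ν₁ : k)) := by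
    rw [det_model hS hdeg f i gg hgi hν₁]
    exact hik _
  have hd2 : (gg g₂).det = algebraMap v.comp L (algebraMap k v.comp (ν₂ : k)) := by
    rw [det_model hS hdeg f i gg hgi hν₂]
    exact hik _
  have hGd : G.det ≠ 0 := ((Matrix.isUnit_iff_isUnit_det G).mp hGu).ne_zero
  rw [Matrix.det_mul, Matrix.det_mul, hd1, hd2] at hp
  have hp1 : algebraMap v.comp L (algebraMap k v.comp (ν₁ : k)) =
      p * star p * algebraMap v.comp L (algebraMap k v.comp (ν₂ : k)) := by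
    apply mul_left_cancel₀ hGd
    rw [hp]; ring
  have hν0 : ∀ ν : kˣ, algebraMap v.comp L (algebraMap k v.comp (ν : k)) ≠ 0 := fun ν =>
    (_root_.map_ne_zero _).mpr ((_root_.map_ne_zero _).mpr ν.ne_zero)
  have hp0 : p ≠ 0 := by
    rintro rfl
    rw [zero_mul, zero_mul] at hp1
    exact hν0 ν₁ hp1
  obtain ⟨ν, hν, hνN⟩ := norm_mem_LN h2L hQ hp0
  rw [← mem_LN_iff v h2k]
  refine sq_mul_mem_LN hνN ⟨iuF v ν₂, ?_⟩
  apply Units.ext
  apply (algebraMap v.comp L).injective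
  have e7 : algebraMap v.comp L ((ν : v.comp) * (algebraMap k v.comp (ν₂ : k)) ^ 2) =
      p * star p * (algebraMap v.comp L (algebraMap k v.comp (ν₂ : k))) ^ 2 := by
    rw [map_mul, map_pow]
    exact congrArg (· * _) hν
  refine Eq.trans ?_ e7.symm
  change algebraMap v.comp L (algebraMap k v.comp ((ν₁ * ν₂ : kˣ) : k)) = _
  rw [Units.val_mul, map_mul, map_mul, hp1]
  ring

end Vale.Agent.P011.H511.SX
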