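import Vale.Agent.P011.H511.Line
import Vale.Agent.P011.H14.Open

/-!
The line step.
-/

open Module NumberField IsDedekindDomain

namespace Vale.Agent.P011.H511

open Vale.Agent.P011.Arith Vale.Agent.P011.Even Vale.Agent.P011.H775 Vale.Agent.P011.H948
  Vale.Agent.P011.H182 Vale.Agent.P011.H929 Vale.Agent.P011.H748

variable {k K D : Type} [Field k] [NumberField k] [Field K] [StarRing K]
  [DivisionRing D] [StarRing D] [Algebra k K] [Algebra k D] [Algebra K D] [IsScalarTower k K D]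
  {d : kˣ} {s : K} {N : ℕ}

/-- **The line step.** -/
theorem line_step (hS : Setting k K D d s) (C : Cub K D) (h9 : finrank K D = 3 ^ 2)
    (B : Basis (Fin N) k D) {x u : D} (hx : x * star x = 1) (hxN : C.N x = 1)
    (hx3 : C.T x ≠ 3) (hu : u * star u = 1) (hT : C.T ((x - 1) * u) = 0)
    {P : Set (Pl k)} (hP : P.Finite) (ξ : Pl k → D)
    (hξ : ∀ p ∈ P, star (ξ p) = ξ p ∧ be C ((x - 1) * u) (ξ p) ≠ 0) {ε : ℝ} (hε : 0 < ε) :
    ∃ w : D, w * star w = 1 ∧ C.T ((x - 1) * w) = 0 ∧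
      (∀ p ∈ P, na B (plAbv p) (w - u * star (be C ((x - 1) * u) (ξ p)) *
        (be C ((x - 1) * u) (ξ p))⁻¹) < ε) ∧
      ∀ v : HeightOneSpectrum (𝓞 k), (Sum.inl v : Pl k) ∉ P → d ∉ LS (v.valuation k) →
        GoodInt B v u (x * u) → GoodInt B v w (x * w) :=
  line_step_of hS C h9 B hx hxN hx3 hu hT
    (fun v _ hw1 h => H14.goodInt_open hS h9 C B v hw1 h) hP ξ hξ hε

end Vale.Agent.P011.H511
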