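import Vale.Agent.P011.H511.MatF
import Vale.Agent.P011.H167.StAF
import Vale.Agent.P011.H167.LandF
import Vale.Agent.P011.H167.CnB
import Vale.Agent.P011.H948.SubF
import Vale.Agent.P011.H279.PncF
import Vale.Agent.P011.H279.TernF
import Vale.Agent.P011.H124.R4a
import Vale.Agent.P011.H279.SqrtC

/-!
Symmetric square roots from square roots, in a division algebra with involution over a global
function field.
-/

open Module Matrix Polynomial

set_option linter.unusedSectionVars false

namespace Vale.Agent.P011.H511.SX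

open Vale.Agent.P011.H738 Vale.Agent.P011.H271 Vale.Agent.P011.H305
open Vale.Agent.P011.H167.Cn (exists_isCentF Xa_ne)
open Vale.Agent.P011.H167.Lf (exists_nrd_unit landF)
open Vale.Agent.P011.H872.FF (XaF IsCentF)
open Vale.Agent.P011.H63.FB
open Vale.Agent.P011.Arith (NF)
open Vale.Agent.P011.H271.S3 (Ab)
open Vale.Agent.P011.H279.RB (CtrlF exists_ctrlF pnc_abF ternaryF neg_mem_NF sup_eq_top unit_normF)

theorem isGlobal_of_gff (k : Type) [Field k] [h : GFF k] : IsGlobalFunctionField k := by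
  obtain ⟨F, i1, i2, φ, hφ⟩ := h.out
  exact ⟨F, i1, i2, φ.toAlgebra, hφ.1⟩

section field

variable {k K D : Type} [Field k] [Field K] [StarRing K]
    [DivisionRing D] [StarRing D] [Algebra k K] [Algebra k D] [Algebra K D] [IsScalarTower k K D]
    {d : kˣ} {s : K} {n : ℕ}

theorem alg_s_ne (hS : SetF k K D d s) : algebraMap K D s ≠ 0 :=
  (_root_.map_ne_zero _).mpr hS.s_ne

theorem alg_s_star (hS : SetF k K D d s) :
    star (algebraMap K D s) = -algebraMap K D s := by
  rw [Algebra.algebraMap_eq_smul_one, hS.star_smul, hS.star_s, star_one, neg_smul]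

theorem star_algk' (hS : SetF k K D d s) (c : k) :
    star (algebraMap k D c) = algebraMap k D c := by
  rw [IsScalarTower.algebraMap_apply k K D, Algebra.algebraMap_eq_smul_one, hS.star_smul,
    hS.star_algebraMap, star_one]

/-- An element anticommuting with `Y` and symmetric for the involution twisted by `g`. -/
theorem exists_twistF (hS : SetF k K D d s) {b : kˣ} {Y g : D} (hY : Y * Y = algebraMap k D b)
    (hK : ∀ c : K, algebraMap K D c ≠ Y) (hg : star g = g) (hg0 : g ≠ 0)
    (h : g * Y = star Y * g) : ∃ j : D, j ≠ 0 ∧ j * Y = -(Y * j) ∧ star j * g = g * j := by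
  have := hS.cen
  obtain ⟨z, hz0, hz⟩ := exists_antiF (fun x => Algebra.commutes (b : k) x) hY hK
  have hinv : Y * g⁻¹ = g⁻¹ * star Y := by
    apply mul_left_cancel₀ hg0
    rw [← mul_assoc, h, mul_assoc, mul_inv_cancel₀ hg0, mul_one, ← mul_assoc, mul_inv_cancel₀ hg0,
      one_mul]
  have e1 : g⁻¹ * star z * g * Y = -(Y * (g⁻¹ * star z * g)) := by
    calc g⁻¹ * star z * g * Y = g⁻¹ * (star z * star Y) * g := by
          rw [mul_assoc, h]; simp only [mul_assoc]
      _ = g⁻¹ * star (Y * z) * g := by rw [star_mul]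
      _ = -(g⁻¹ * star (z * Y) * g) := by rw [hz, star_neg, mul_neg, neg_mul, neg_neg]
      _ = _ := by
        rw [star_mul, ← mul_assoc g⁻¹, ← hinv]
        simp only [mul_assoc]
  have e2 : star (g⁻¹ * star z * g) * g = g * z := by
    rw [star_mul, star_mul, star_star, hg, star_inv₀, hg, mul_assoc, mul_assoc,
      inv_mul_cancel₀ hg0, mul_one]
  have e3 : star z * g = g * (g⁻¹ * star z * g) := by
    rw [← mul_assoc, ← mul_assoc, mul_inv_cancel₀ hg0, one_mul]
  by_cases h0 : z + g⁻¹ * star z * g = 0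
  · refine ⟨algebraMap K D s * z, mul_ne_zero (alg_s_ne hS) hz0, ?_, ?_⟩
    · rw [mul_assoc, hz, mul_neg, ← mul_assoc, ← mul_assoc, Algebra.commutes]
    · have h1 : g⁻¹ * star z * g = -z := (neg_eq_of_add_eq_zero_right h0).symm
      rw [star_mul, alg_s_star hS, mul_neg, neg_mul, ← Algebra.commutes, mul_assoc, e3, h1, mul_neg,
        mul_neg, neg_neg, ← mul_assoc, ← mul_assoc, Algebra.commutes]
  · refine ⟨z + g⁻¹ * star z * g, h0, ?_, ?_⟩
    · rw [add_mul, hz, e1, mul_add, neg_add]
    · rw [star_add, add_mul, e2, e3, mul_add, add_comm]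

/-- A square root of `a` is not in the centre. -/
theorem sqrt_neF (hS : SetF k K D d s) {a : kˣ} (ha : ¬ IsSquare (a : k))
    (had : ¬ IsSquare ((a * d : kˣ) : k)) {x : D} (hx : x * x = algebraMap k D a) (c : K) :
    algebraMap K D c ≠ x := by
  intro h
  have h1 : c * c = algebraMap k K a := by
    apply (algebraMap K D).injective
    rw [map_mul, h, hx, ← IsScalarTower.algebraMap_apply]
  have h2 : star c * star c = c * c := by
    rw [← star_mul, h1, (hS.fix _).mpr ⟨(a : k), rfl⟩]
  have h3 : (star c - c) * (star c + c) = 0 := by linear_combination h2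
  rcases mul_eq_zero.mp h3 with h4 | h4
  · obtain ⟨r, rfl⟩ := (hS.fix c).mp (sub_eq_zero.mp h4)
    exact ha ⟨r, (algebraMap k K).injective (by rw [← h1, map_mul])⟩
  · have h5 : star (c * s) = c * s := by
      rw [star_mul, hS.star_s, eq_neg_of_add_eq_zero_left h4]
      ring
    obtain ⟨r, hr⟩ := (hS.fix _).mp h5
    refine had ⟨r, (algebraMap k K).injective ?_⟩
    rw [map_mul, hr, Units.val_mul, map_mul, ← h1, ← hS.sq]
    ring

/-- A symmetric element `g` with `g * x = star x * g`. -/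
theorem exists_sigF (hS : SetF k K D d s) {a : kˣ} {x : D} (hx : x * x = algebraMap k D a)
    (hxK : ∀ c : K, algebraMap K D c ≠ x) :
    ∃ g : D, g ≠ 0 ∧ star g = g ∧ g * x = star x * g := by
  have := hS.cen
  have hx0 : x ≠ 0 := by
    rintro rfl
    exact hxK 0 (map_zero _)
  have hxs : star x * star x = algebraMap k D a := by
    rw [← star_mul, hx, star_algk' hS]
  -- for every `u`, the element `star x * u + u * x`
  have key : ∀ u : D, (star x * u + u * x) * x = star x * (star x * u + u * x) := by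
    intro u
    rw [add_mul, mul_add, mul_assoc u x x, hx, ← mul_assoc (star x) (star x) u, hxs,
      Algebra.commutes, mul_assoc, add_comm]
  have hsym : ∀ u : D, star u = u → star (star x * u + u * x) = star x * u + u * x := by
    intro u hu
    rw [star_add, star_mul, star_mul, star_star, hu, add_comm]
  by_contra hcon
  push Not at hcon
  have h0 : ∀ u : D, star u = u → star x * u + u * x = 0 := by
    intro u hu
    by_contra h
    exact hcon _ h (hsym u hu) (key u)
  have h1 : star x = -x := by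
    have := h0 1 (star_one D)
    rw [mul_one, one_mul] at this
    exact eq_neg_of_add_eq_zero_left this
  -- so `x` commutes with all the symmetric elements
  have h2 : ∀ u : D, star u = u → x * u = u * x := by
    intro u hu
    have h3 := h0 u hu
    rw [h1, neg_mul, neg_add_eq_zero] at h3
    exact h3
  have h2D : (2 : D) ≠ 0 := by
    rw [← map_ofNat (algebraMap k D) 2]
    exact (_root_.map_ne_zero _).mpr hS.two_ne
  have hs0 := alg_s_ne hS
  have h4 : ∀ y : D, x * y = y * x := by
    intro y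
    have e1 : x * (y + star y) = (y + star y) * x :=
      h2 _ (by rw [star_add, star_star, add_comm])
    have e2 : x * (algebraMap K D s * (y - star y)) = algebraMap K D s * (y - star y) * x :=
      h2 _ (by rw [star_mul, star_sub, star_star, alg_s_star hS, mul_neg, ← Algebra.commutes,
        ← mul_neg, neg_sub])
    have e3 : x * (y - star y) = (y - star y) * x := by
      apply mul_left_cancel₀ hs0
      rw [← mul_assoc, Algebra.commutes s x, mul_assoc x, e2, mul_assoc]
    have e4 : x * (2 * y) = 2 * y * x := by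
      have e5 : 2 * y = (y + star y) + (y - star y) := by rw [two_mul]; abel
      rw [e5, mul_add, add_mul, e1, e3]
    apply mul_left_cancel₀ h2D
    rw [← mul_assoc, (Commute.ofNat_left 2 x).eq, mul_assoc, e4, mul_assoc]
  have h5 : x ∈ Subalgebra.center K D := by
    rw [Subalgebra.mem_center_iff]
    exact fun b => (h4 b).symm
  have h6 := Algebra.IsCentral.out h5
  rw [Algebra.mem_bot] at h6
  obtain ⟨c, hc⟩ := h6
  exact hxK c hc

/-- The norm of a quadratic extension. -/
theorem norm_quadF {F E : Type} [Field F] [Field E] [Algebra F E] (h2 : finrank F E = 2) {a : F}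
    {T : E} (hT : T * T = algebraMap F E a) (hT' : ∀ c : F, algebraMap F E c ≠ T) (u v : F) :
    Algebra.norm F (algebraMap F E u + algebraMap F E v * T) = u ^ 2 - a * v ^ 2 := by
  have : FiniteDimensional F E := Module.finite_of_finrank_pos (by rw [h2]; exact two_pos)
  have hli : LinearIndependent F ![(1 : E), T] := by
    rw [LinearIndependent.pair_iff]
    intro x y hxy
    have hy : y = 0 := by
      by_contra hy
      apply hT' (-x / y)
      have hy' : algebraMap F E y ≠ 0 := (_root_.map_ne_zero _).mpr hy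
      rw [Algebra.smul_def, Algebra.smul_def, mul_one] at hxy
      rw [map_div₀, map_neg, div_eq_iff hy']
      linear_combination -hxy
    subst hy
    rw [zero_smul, add_zero, smul_eq_zero] at hxy
    exact ⟨hxy.resolve_right one_ne_zero, rfl⟩
  let b : Basis (Fin 2) F E := basisOfLinearIndependentOfCardEqFinrank hli (by simp [h2])
  have hb0 : b 0 = 1 := by simp [b]
  have hb1 : b 1 = T := by simp [b]
  have hrepr : ∀ x y : F, b.repr (algebraMap F E x + algebraMap F E y * T) 0 = x ∧
      b.repr (algebraMap F E x + algebraMap F E y * T) 1 = y := by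
    intro x y
    have h1 : algebraMap F E x + algebraMap F E y * T = x • b 0 + y • b 1 := by
      rw [hb0, hb1, Algebra.smul_def, Algebra.smul_def, mul_one]
    rw [h1, map_add, map_smul, map_smul, b.repr_self, b.repr_self]
    constructor <;> simp
  rw [Algebra.norm_eq_matrix_det b, Matrix.det_fin_two]
  simp only [Algebra.leftMulMatrix_eq_repr_mul, hb0, hb1, mul_one]
  have h3 : (algebraMap F E u + algebraMap F E v * T) * T =
      algebraMap F E (a * v) + algebraMap F E u * T := by
    rw [add_mul, mul_assoc, hT, map_mul]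
    ring
  rw [h3, (hrepr _ _).1, (hrepr _ _).2, (hrepr _ _).1, (hrepr _ _).2]
  ring

end field

section mu

/-- Units which are not local squares. -/
theorem unit_mulF {F : Type} [Field F] [GFF F] (h2 : (2 : F) ≠ 0) {v : Place F} {a b : Fˣ}
    (ha : v.abv (a : F) = 1) (hb : v.abv (b : F) = 1) (ha' : a ∉ LSF v) (hb' : b ∉ LSF v) :
    a * b ∈ LSF v := by
  have h := H929.E.unit_mul (H929.E.oddLoc h2 v) (u := algebraMap F v.comp a)
    (w := algebraMap F v.comp b) (by rw [norm_alg, ha]) (by rw [norm_alg, hb]) ha' hb'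
  rw [mem_LSF, Units.val_mul, map_mul]
  exact h

/-- An element of `k(√a)` whose norm is in the class of `ν` modulo the norms from `k(√d)`. -/
theorem exists_muF {k L : Type} [Field k] [GFF k] [Field L] [Algebra k L] (h2 : (2 : k) ≠ 0)
    {d a ν : kˣ} (hd : ¬ IsSquare (d : k)) {T : L} (hT : T * T = algebraMap k L a)
    (hT' : ∀ c : k, algebraMap k L c ≠ T) (hrk : Module.finrank k L = 2)
    (hfin : ∀ v : Place k, a * d ∈ LSF v → ν ∈ NF d ⊔ LSF v) :
    ∃ μ : Lˣ, nrmF k L μ * ν ∈ NF d := by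
  obtain ⟨y, p, q, hy, hpq⟩ := ternaryF h2 hd ν (a * d) (fun v hv h => hv (hfin v h))
  have hd0 : (d : k) ≠ 0 := d.ne_zero
  have hν0 : (ν : k) ≠ 0 := ν.ne_zero
  obtain ⟨n, hn⟩ : ∃ n : kˣ, (n : k) = p ^ 2 - d * q ^ 2 := ⟨Units.mk0 _ hpq, rfl⟩
  rw [Units.val_mul, ← hn] at hy
  have hya : y ^ 2 - a = -(ν * n) / d := by
    rw [eq_div_iff hd0]
    linear_combination -hy
  obtain ⟨z, hz⟩ : ∃ z : L, z = algebraMap k L y + algebraMap k L 1 * T := ⟨_, rfl⟩
  have hzn : Algebra.norm k z = y ^ 2 - a := by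
    rw [hz, norm_quadF hrk hT hT']
    ring
  have hn0 : Algebra.norm k z ≠ 0 := by
    rw [hzn, hya]
    exact div_ne_zero (neg_ne_zero.mpr (mul_ne_zero hν0 n.ne_zero)) hd0
  have hz0 : z ≠ 0 := by
    rintro rfl
    have hfd : FiniteDimensional k L := Module.finite_of_finrank_pos (by omega)
    exact hn0 (by rw [Algebra.norm_zero])
  refine ⟨Units.mk0 z hz0, ?_⟩
  have h1 : nrmF k L (Units.mk0 z hz0) * ν = (ν / d) ^ 2 * ((-d) * n) := by
    refine Units.ext ?_
    rw [Units.val_mul, H73.Sp.nrmF_val, Units.val_mk0, hzn, hya]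
    simp only [Units.val_mul, Units.val_pow_eq_pow_val, Units.val_div_eq_div_val, Units.val_neg]
    field_simp
  rw [h1]
  exact mul_mem (H279.RB.sq_mem_NF _ _) (mul_mem (neg_mem_NF _) ⟨p, q, hn⟩)

end mu

section main

variable {k K D : Type} [Field k] [GFF k] [Field K] [StarRing K]
    [DivisionRing D] [StarRing D] [Algebra k K] [Algebra k D] [Algebra K D] [IsScalarTower k K D]
    {d : kˣ} {s : K} {n : ℕ}

/-- **The class at almost all nonsplit places.** -/
theorem exists_refF (hS : SetF k K D d s) (hdeg : finrank K D = n ^ 2) {Ω : Type}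
    [Field Ω] [Algebra K Ω] (f : D →ₐ[K] Matrix (Fin n) (Fin n) Ω) :
    ∃ S : Set (Place k), S.Finite ∧ ∀ v ∉ S, d ∉ LSF v →
      ∀ (b : kˣ) (Y g : D), Y * Y = algebraMap k D b → (∀ c : K, algebraMap K D c ≠ Y) →
        b * d ∈ LSF v → star g = g → g ≠ 0 → g * Y = star Y * g → ∀ ν : kˣ,
        (f g).det = algebraMap K Ω (algebraMap k K ν) → ν ∈ NF d ⊔ LSF v := by
  have h2 : (2 : k) ≠ 0 := hS.two_ne
  by_cases hex : ∃ (b : kˣ) (Y g : D), Y * Y = algebraMap k D b ∧
      (∀ c : K, algebraMap K D c ≠ Y) ∧ star g = g ∧ g ≠ 0 ∧ g * Y = star Y * g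
  · obtain ⟨b₁, Y₁, g₁, hY₁, hK₁, hg₁, h0₁, h₁⟩ := hex
    obtain ⟨j, hj0, hjY, hjg⟩ := exists_twistF hS hY₁ hK₁ hg₁ h0₁ h₁
    have hs0 := alg_s_ne hS
    -- the second reference
    have hY₂ : algebraMap K D s * Y₁ * (algebraMap K D s * Y₁) =
        algebraMap k D ((d * b₁ : kˣ) : k) := by
      rw [mul_assoc, ← mul_assoc Y₁, ← Algebra.commutes s Y₁, mul_assoc, hY₁, ← mul_assoc,
        ← map_mul, ← pow_two, hS.sq, ← IsScalarTower.algebraMap_apply, Units.val_mul, map_mul]
    have hK₂ : ∀ c : K, algebraMap K D c ≠ algebraMap K D s * Y₁ := by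
      intro c hc
      apply hK₁ (s⁻¹ * c)
      rw [map_mul, hc, ← mul_assoc, ← map_mul, inv_mul_cancel₀ (fun h => hs0 (by
        rw [h, map_zero])), map_one, one_mul]
    have hg₂ : star (g₁ * j) = g₁ * j := by rw [star_mul, hg₁, hjg]
    have h0₂ : g₁ * j ≠ 0 := mul_ne_zero h0₁ hj0
    have h₂ : g₁ * j * (algebraMap K D s * Y₁) = star (algebraMap K D s * Y₁) * (g₁ * j) := by
      rw [star_mul, alg_s_star hS]
      calc g₁ * j * (algebraMap K D s * Y₁) = algebraMap K D s * (g₁ * (j * Y₁)) := by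
            rw [← mul_assoc (g₁ * j), ← Algebra.commutes s (g₁ * j)]; simp only [mul_assoc]
        _ = -(algebraMap K D s * (g₁ * Y₁) * j) := by
            rw [hjY, mul_neg, mul_neg]; simp only [mul_assoc]
        _ = _ := by
            rw [h₁, mul_neg, neg_mul, ← Algebra.commutes s (star Y₁)]; simp only [mul_assoc]
    obtain ⟨ν₁, hν₁⟩ := exists_nrd_unit hS hdeg f hg₁ h0₁
    obtain ⟨ν₂, hν₂⟩ := exists_nrd_unit hS hdeg f hg₂ h0₂
    refine ⟨{v | v.abv (d : k) ≠ 1} ∪ {v | v.abv (b₁ : k) ≠ 1} ∪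
      {v | v.abv (ν₁ : k) ≠ 1} ∪ {v | v.abv (ν₂ : k) ≠ 1},
      (((place_finite d.ne_zero).union (place_finite b₁.ne_zero)).union
        (place_finite ν₁.ne_zero)).union (place_finite ν₂.ne_zero), ?_⟩
    intro v hv hd b Y g hY hK hbd hg hg0 h ν hν
    simp only [Set.mem_union, not_or, Set.mem_ofPred_eq, not_not] at hv
    obtain ⟨⟨⟨vd, vb⟩, vν₁⟩, vν₂⟩ := hv
    by_cases hb₁ : b₁ * d ∈ LSF v
    · have h5 := mat_lemmaF hS hdeg f hd hY hY₁ hK hK₁ hbd hb₁ hg hg₁ h0₁ h h₁ hν hν₁
      have h6 := unit_normF h2 vd vν₁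
      exact (Subgroup.mul_mem_cancel_right _ h6).mp h5
    · have hb₁' : b₁ ∈ LSF v := by
        by_contra h7
        exact hb₁ (unit_mulF h2 vb vd h7 hd)
      have hb₂ : (d * b₁) * d ∈ LSF v := by
        have h8 : d * b₁ * d = b₁ * (d ^ 2) := by
          rw [pow_two]; exact Units.ext (by push_cast; ring)
        rw [h8]
        exact Subgroup.mul_mem _ hb₁' (sq_mem_LSF v d)
      have h5 := mat_lemmaF hS hdeg f hd hY hY₂ hK hK₂ hbd hb₂ hg hg₂ h0₂ h h₂ hν hν₂
      have h6 := unit_normF h2 vd vν₂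
      exact (Subgroup.mul_mem_cancel_right _ h6).mp h5
  · refine ⟨∅, Set.finite_empty, fun v _ _ b Y g hY hK _ hg hg0 h ν _ => ?_⟩
    exact (hex ⟨b, Y, g, hY, hK, hg, hg0, h⟩).elim

/-- Symmetric elements with a given class of reduced norms. -/
theorem exists_sym_class (hS : SetF k K D d s) (hn : 0 < n) (hdeg : finrank K D = n ^ 2)
    {Ω : Type} [Field Ω] [IsAlgClosed Ω] [Algebra K Ω] (f : D →ₐ[K] Matrix (Fin n) (Fin n) Ω)
    (a : kˣ) : ∃ (c : D) (N : kˣ), star c = c ∧ c ≠ 0 ∧
      (f c).det = algebraMap K Ω (algebraMap k K N) ∧ N * a ∈ NF d := by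
  rcases Nat.lt_or_ge n 2 with h1 | hn2
  · obtain rfl : n = 1 := by omega
    refine ⟨algebraMap k D a, a, star_algk' hS _, (_root_.map_ne_zero _).mpr a.ne_zero, ?_, ?_⟩
    · rw [IsScalarTower.algebraMap_apply k K D, f.commutes, Matrix.algebraMap_eq_diagonal,
        Matrix.det_fin_one]
      simp
    · rw [← pow_two]
      exact H279.RB.sq_mem_NF _ _
  · have := hS.fin
    have := hS.cen
    have h2 : (2 : k) ≠ 0 := hS.two_ne
    have hfkD : FiniteDimensional k D := H948.SB.fin_k hS
    obtain ⟨V, hV⟩ := exists_ctrlF h2 hS.ns a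
    have h10 : (1 : D) ≠ 0 := one_ne_zero
    obtain ⟨t, p, ht0, -, -, hnice⟩ := H167.stepAF (isGlobal_of_gff k) hS hn2 hdeg
      (b := 1) (m := 1) (r₀ := 1) (r₀' := 1) (star_one D) (star_one D) (star_one D) (star_one D)
      h10 h10 h10 h10 hV.fin hV.nonsplit hV.nonempty
    obtain ⟨hli, hsplit0⟩ := hnice
    obtain ⟨z, hzd⟩ : ∃ z, z = (1 : D)⁻¹ * (t * 1 * star t) := ⟨_, rfl⟩
    rw [← hzd] at hli hsplit0
    have hzt : z = t * star t := by rw [hzd, inv_one, one_mul, mul_one]
    have hzs : star z = z := by rw [hzt, star_mul, star_star]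
    have hz : star z = 1 * z * 1⁻¹ := by rw [inv_one, one_mul, mul_one, hzs]
    -- the field
    obtain ⟨E, _, _, _, _, j, g, hjg, hgen⟩ := H167.Lf.exists_gen (Module.finBasis k D) z
    obtain ⟨hmn, hmK⟩ := H948.SB.minpoly_map hS hn f h10 hz hli
    have hjinj : Function.Injective j := j.toRingHom.injective
    have hjp : ∀ p : k[X], j (aeval g p) = aeval z p := by
      intro p
      rw [← Polynomial.aeval_algHom_apply, hjg]
    have hgmin : minpoly k g = minpoly k z := by rw [← hjg, minpoly.algHom_eq j hjinj g]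
    have hfinE : FiniteDimensional k E := Module.Finite.of_injective j.toLinearMap hjinj
    have hE : finrank k E = n := by
      have h1 : IntermediateField.adjoin k {g} = ⊤ := by
        rw [eq_top_iff]
        intro l _
        obtain ⟨p, rfl⟩ := hgen l
        exact IntermediateField.algebra_adjoin_le_adjoin k {g} (by
          rw [Algebra.adjoin_singleton_eq_range_aeval]
          exact ⟨p, rfl⟩)
      have h2 : finrank k (IntermediateField.adjoin k {g}) = (minpoly k g).natDegree :=
        IntermediateField.adjoin.finrank (Algebra.IsIntegral.isIntegral g)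
      rw [h1, IntermediateField.finrank_top', hgmin, hmn] at h2
      exact h2
    have hstarj : ∀ x : E, star (j x) = j x := by
      intro x
      obtain ⟨p, rfl⟩ := hgen x
      rw [hjp]
      have := H948.SB.star_aeval' hS h10 hz p
      rwa [inv_one, one_mul, mul_one] at this
    -- the central element
    obtain ⟨S, hSdef⟩ : ∃ S, S = algebraMap K D s := ⟨_, rfl⟩
    have hSc : ∀ x : D, S * x = x * S := fun x => by rw [hSdef]; exact Algebra.commutes s x
    have hSs : star S = -S := by rw [hSdef, alg_s_star hS]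
    have hSS : S * S = algebraMap k D d := by
      rw [hSdef, ← map_mul, ← pow_two, hS.sq, ← IsScalarTower.algebraMap_apply]
    have hS0 : S ≠ 0 := by
      rw [hSdef]
      exact alg_s_ne hS
    have hD2 : (2 : D) ≠ 0 := by
      rw [← map_ofNat (algebraMap k D) 2]
      exact (_root_.map_ne_zero _).mpr h2
    have hSne : S ≠ -S := by
      intro h
      apply hS0
      have h1 : (2 : D) * S = 0 := by rw [two_mul]; nth_rewrite 1 [h]; exact neg_add_cancel S
      exact (mul_eq_zero.mp h1).resolve_left hD2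
    have hdE : ¬ IsSquare (algebraMap k E (d : k)) := by
      rintro ⟨r', hr'⟩
      have h1 : (j r' - S) * (j r' + S) = 0 := by
        have h2 : j r' * j r' = S * S := by
          rw [← map_mul, ← hr', AlgHom.commutes, hSS]
        rw [sub_mul, mul_add, mul_add, h2, hSc (j r')]
        abel
      have h3 : ∀ x : D, (x = S ∨ x = -S) → star x ≠ x := by
        rintro x (rfl | rfl)
        · rw [hSs]
          exact fun h => hSne h.symm
        · rw [star_neg, hSs, neg_neg]
          exact hSne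
      rcases mul_eq_zero.mp h1 with h | h
      · exact h3 _ (Or.inl (sub_eq_zero.mp h)) (hstarj r')
      · exact h3 _ (Or.inr (eq_neg_of_add_eq_zero_left h)) (hstarj r')
    choose ab hab using fun v : Place k => H73.Sp.exists_above (E := E) v
    have hsplit : ∀ v ∈ V, TotSplitF E v := fun v hv =>
      (hsplit0 v hv E g hE (by rw [hgmin]; exact hmn) (by rw [hgmin]; exact minpoly.aeval k z)).1
    have hsep : Algebra.IsSeparable k E := by
      obtain ⟨v, hv⟩ := hV.nonempty
      exact H73.Sp.isSeparable_of_totSplit (hsplit v hv)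
    obtain ⟨al, halN, -⟩ := pnc_abF (E := E) h2 hdE hV hsplit ab hab
    refine ⟨j al, nrmF k E al, hstarj _, (_root_.map_ne_zero j).mpr al.ne_zero, ?_, halN⟩
    obtain ⟨p', hp'⟩ := hgen (al : E)
    rw [hp', hjp, H948.SB.det_sub hS hn f h10 hz hli hE hgmin p', H73.Sp.nrmF_val, hp']

/-- Symmetric elements commuting with a symmetric square root, with a given class of reduced
norms. -/
theorem exists_torF (hS : SetF k K D d s) {m : ℕ} (hm : 0 < m) (hdeg : finrank K D = (2 * m) ^ 2)
    {Ω : Type} [Field Ω] [Algebra K Ω] (f : D →ₐ[K] Matrix (Fin (2 * m)) (Fin (2 * m)) Ω)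
    {a ν : kˣ} (ha : ¬ IsSquare (a : k)) (had : ¬ IsSquare ((a * d : kˣ) : k)) {t : D}
    (ht : t ∈ XaF D a) (hfin : ∀ v : Place k, a * d ∈ LSF v → ν ∈ NF d ⊔ LSF v) :
    ∃ (y : D) (N : kˣ), star y = y ∧ y ≠ 0 ∧ y * t = t * y ∧
      (f y).det = algebraMap K Ω (algebraMap k K N) ∧ N * ν ∈ NF d := by
  have i1 := hS.fin
  have i2 := hS.cen
  have h2 : (2 : k) ≠ 0 := hS.two_ne
  have hfk : FiniteDimensional k K := FiniteDimensional.of_finrank_pos (by
    rw [hS.rank]; norm_num)
  have hK : GFF K := Hey.H63.gff_of_finite (k := k)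
  have hKinf : Infinite K := Vale.Agent.P011.Hey.gff_infinite K
  have htK : ∀ c : K, algebraMap K D c ≠ t := Xa_ne hS ha ht
  obtain ⟨L, _, _, _, K', _, _, _, _, C, _, _, _, _, _, _, T, jc, hSC, hdC, h⟩ :=
    exists_isCentF hS ha had (m := m) hdeg ht
  have hT : ∀ c : k, algebraMap k L c ≠ T := fun c hc => ha ⟨c, (algebraMap k L).injective (by
      rw [← h.sqT, ← hc, map_mul])⟩
  obtain ⟨μ, hμ⟩ := exists_muF h2 hS.ns h.sqT hT h.rkL hfin
  have i3 := hSC.fin
  have i4 := hSC.cen
  obtain ⟨g'⟩ := H268.exists_split_sepClosed (K := K') (A := C) (E := AlgebraicClosure K') hdC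
  obtain ⟨c, N, hcs, hc0, hcN, hNμ⟩ := exists_sym_class hSC hm hdC g' μ
  have hT' : ∀ c : K, algebraMap K K' c ≠ algebraMap L K' T := fun c hc => htK c (by
    rw [← h.jK, hc, ← IsScalarTower.algebraMap_apply, h.jT])
  have hbc : ∀ l : L, Algebra.norm K (algebraMap L K' l) =
      algebraMap k K (Algebra.norm k l) := by
    intro l
    obtain ⟨u, v, rfl⟩ := h.repL l
    rw [norm_quadF h.rkL h.sqT hT, map_add, map_mul, ← h.comp, ← h.comp,
      norm_quadF h.rkK (a := algebraMap k K a) (by rw [← map_mul, h.sqT, ← h.comp]) hT']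
    simp only [map_sub, map_mul, map_pow]
  have hfL : FiniteDimensional k L := Module.finite_of_finrank_pos (by rw [h.rkL]; exact two_pos)
  refine ⟨jc c, nrmF k L N, ?_, ?_, h.comm c, ?_, ?_⟩
  · rw [← h.star c, hcs]
  · exact fun h0 => hc0 (h.inj (by rw [h0, map_zero]))
  · have h1 := H167.Cn.det_cent hdeg hdC (by rw [h.rkK]) jc h.jK f g' hcN
    rw [h1, hbc]
    rfl
  · have h1 := H73.Sp.nrm_mem_NF (F := k) (b := d) hNμ
    rw [map_mul] at h1
    have h2 := mul_mem h1 hμ
    have h3 : nrmF k L μ ^ 2 ∈ NF d := H279.RB.sq_mem_NF _ _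
    have h4 := mul_mem h2 (inv_mem h3)
    have h5 : nrmF k L N * nrmF k L μ * (nrmF k L μ * ν) * (nrmF k L μ ^ 2)⁻¹ =
        nrmF k L N * ν := by
      rw [pow_two, mul_inv]
      have : nrmF k L N * nrmF k L μ * (nrmF k L μ * ν) * ((nrmF k L μ)⁻¹ * (nrmF k L μ)⁻¹) =
        nrmF k L N * ν * (nrmF k L μ * (nrmF k L μ)⁻¹) * (nrmF k L μ * (nrmF k L μ)⁻¹) := by
        ac_rfl
      rw [this, mul_inv_cancel, mul_one, mul_one]
    rwa [h5] at h4

/-- **Symmetric square roots**: if `a` has a square root in a division algebra of even degree over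
a global function field, then it has a symmetric square root, as soon as it satisfies conditions
at finitely many nonsplit places. -/
theorem exists_symmF (hS : SetF k K D d s) {m : ℕ} (hm : 0 < m)
    (hdeg : finrank K D = (2 * m) ^ 2) :
    ∃ S : Set (Place k), S.Finite ∧ ∀ (a : kˣ) (x : D),
      x * x = algebraMap k D a → ¬ IsSquare (a : k) → ¬ IsSquare ((a * d : kˣ) : k) →
      (∀ v ∈ S, d ∉ LSF v → a * d ∉ LSF v) → ∃ σ, σ ∈ XaF D a := by
  have i1 := hS.fin
  have i2 := hS.cen
  have h2 : (2 : k) ≠ 0 := hS.two_ne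
  have hfk : FiniteDimensional k K := FiniteDimensional.of_finrank_pos (by
    rw [hS.rank]; norm_num)
  have hK : GFF K := Hey.H63.gff_of_finite (k := k)
  have hKinf : Infinite K := Vale.Agent.P011.Hey.gff_infinite K
  obtain ⟨f⟩ := H268.exists_split_sepClosed (K := K) (A := D) (E := AlgebraicClosure K) hdeg
  obtain ⟨S, hSf, hS2⟩ := exists_refF hS hdeg f
  refine ⟨S, hSf, fun a x hx ha had hcond => ?_⟩
  have hxK := sqrt_neF hS ha had hx
  obtain ⟨g, hg0, hg, hgx⟩ := exists_sigF hS hx hxK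
  obtain ⟨ν, hν⟩ := exists_nrd_unit hS hdeg f hg hg0
  have hfin : ∀ v : Place k, a * d ∈ LSF v → ν ∈ NF d ⊔ LSF v := by
    intro v hv
    by_cases hd : d ∈ LSF v
    · rw [sup_eq_top h2 hd]
      exact Subgroup.mem_top _
    · exact hS2 v (fun hvS => hcond v hvS hd hv) hd a x g hx hxK hv hg hg0 hgx ν hν
  -- the twisted involution
  have hg' : star g⁻¹ = g⁻¹ := by rw [star_inv₀, hg]
  have hg0' : g⁻¹ ≠ 0 := inv_ne_zero hg0
  have hx' : x ∈ @XaF k D _ _ (Vale.Agent.P011.Two.twistStar hg' hg0') _ a := by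
    refine ⟨?_, hx⟩
    change g⁻¹ * star x * g⁻¹⁻¹ = x
    rw [inv_inv, mul_assoc, ← hgx, ← mul_assoc, inv_mul_cancel₀ hg0, one_mul]
  obtain ⟨y, N, hys, hy0, hyx, hN, hNν⟩ :=
    @exists_torF k K D _ _ _ _ _ (Vale.Agent.P011.Two.twistStar hg' hg0') _ _ _ _ d s
      (H124.R4.setting_twistF hS hg' hg0') m hm hdeg _ _ _ f a ν ha had x hx' hfin
  change g⁻¹ * star y * g⁻¹⁻¹ = y at hys
  rw [inv_inv] at hys
  have hsy : star y = g * y * g⁻¹ := by
    have h1 : g * (g⁻¹ * star y * g) * g⁻¹ = star y := by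
      rw [mul_assoc g⁻¹, mul_inv_cancel_left₀ hg0, mul_assoc, mul_inv_cancel₀ hg0, mul_one]
    rw [← h1, hys]
  obtain ⟨c, hc⟩ : ∃ c, c = g * y := ⟨_, rfl⟩
  have hcs : star c = c := by
    rw [hc, star_mul, hsy, hg, mul_assoc, inv_mul_cancel₀ hg0, mul_one]
  have hc0 : c ≠ 0 := by rw [hc]; exact mul_ne_zero hg0 hy0
  have hcx : c * x = star x * c := by
    rw [hc, mul_assoc, hyx, ← mul_assoc, hgx, mul_assoc]
  obtain ⟨t, ht0, ht⟩ := landF hS hdeg f (c := 1) (e := c) (star_one D) hcs one_ne_zero hc0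
    (ν := 1) (ν' := ν * N) (by rw [map_one, Matrix.det_one, Units.val_one, map_one, map_one])
    (by rw [hc, map_mul, Matrix.det_mul, hν, hN, ← map_mul, ← map_mul, Units.val_mul])
    (by rw [one_mul, mul_comm]; exact hNν)
  rw [mul_one] at ht
  have hst0 : star t ≠ 0 := star_ne_zero.mpr ht0
  refine ⟨star t * x * (star t)⁻¹, ?_, ?_⟩
  · have h1 : star (star t * x * (star t)⁻¹) = t⁻¹ * (star x * t) := by
      rw [star_mul, star_mul, star_inv₀, star_star]
    have h2 : star x * t * star t = t * (star t * x) := by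
      rw [mul_assoc, ← ht, ← hcx, ht, mul_assoc]
    rw [h1, eq_mul_inv_iff_mul_eq₀ hst0, mul_assoc, h2, ← mul_assoc, inv_mul_cancel₀ ht0, one_mul]
  · calc star t * x * (star t)⁻¹ * (star t * x * (star t)⁻¹) =
        star t * x * ((star t)⁻¹ * star t) * (x * (star t)⁻¹) := by simp only [mul_assoc]
      _ = star t * (x * x) * (star t)⁻¹ := by
        rw [inv_mul_cancel₀ hst0, mul_one]
        simp only [mul_assoc]
      _ = algebraMap k D a := by
        rw [hx, ← Algebra.commutes, mul_assoc, mul_inv_cancel₀ hst0, mul_one]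

/-- **(X)** Symmetric square roots exist in every even degree. -/
theorem exists_tF (hS : SetF k K D d s) {m : ℕ} (hm : 0 < m)
    (hdeg : finrank K D = (2 * m) ^ 2) :
    ∃ (a : kˣ) (t : D), t ∈ XaF D a ∧ ¬ IsSquare (a : k) ∧ ¬ IsSquare ((a * d : kˣ) : k) := by
  have h2 : (2 : k) ≠ 0 := hS.two_ne
  obtain ⟨S, hSf, h⟩ := exists_symmF hS hm hdeg
  obtain ⟨a, x, hx, ha, had, hclose⟩ := H279.Sq.exists_sqrtF hS hdeg hm hSf.toFinset
    (fun _ => 1) one_pos
  rw [← IsScalarTower.algebraMap_apply] at hx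
  obtain ⟨t, ht⟩ := h a x hx ha had (fun v hv hd hcon => by
    have h1 := hclose v (hSf.mem_toFinset.mpr hv) hd
    have h3 : a ∈ LSF v := LSF_of_near_one v h2 h1
    apply hd
    have h4 := mul_mem (inv_mem h3) hcon
    rwa [inv_mul_cancel_left] at h4)
  exact ⟨a, t, ht, ha, had⟩

end main

end Vale.Agent.P011.H511.SX
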