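import Vale.Agent.P011.H511.AbAll
import Vale.Agent.P011.H872.GF.GoodE
import Vale.Agent.P011.H976.FF.NearTwoF

/-!
# The doubling step over function fields, closed

The elements close to one of the centralizers of the symmetric square roots belong to every normal
subgroup of finite index which contains the norm one elements of quaternion algebras: every degree
`2 m` with `2 ≤ m`, from the statement in degree `m` when `3 ≤ m`.
-/

open Module Polynomial

set_option linter.unusedSectionVars false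

namespace Vale.Agent.P011.H511.Ab

open Vale.Agent.P011.H738 Vale.Agent.P011.H271 Vale.Agent.P011.H271.S3
open Vale.Agent.P011.H305 Vale.Agent.P011.H182
open Vale.Agent.P011.H872.FF (XaF IsCentF kk om)
open Vale.Agent.P011.H698 (NearA Sm)
open Vale.Agent.P011.H732D (AbAtF ImF)

/-- The good skew elements exist in every degree. -/
theorem goodE {m : ℕ} (hm : 0 < m) : GoodE m :=
  fun _ _ _ _ _ _ _ _ _ _ _ _ _ _ _ _ _ hS hdeg ht ha had =>
    H872.GF.exists_goodE hS hm hdeg ht ha had

/-- The elements of the centralizers in degree four. -/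
theorem abF_two : H974.R8.AbF 2 := by
  intro k K D _ _ _ _ _ _ _ _ _ _ d s hS hdeg a t ht ha had Ω _ _ f N B Q hQn hi T0 ε0 hε0 hQ
  classical
  obtain ⟨L, _, _, _, K', _, _, _, _, C, _, _, _, _, _, _, T, jC, hSC, hdC, h⟩ :=
    H167.Cn.exists_isCentF hS ha had (m := 2) hdeg ht
  have i3 := hSC.fin
  have i4 := hSC.cen
  have i5 : StarModule K' C := hSC.starModule
  have hd : ∀ x ∈ ImF Q, ∀ y ∈ ImF Q, x * y⁻¹ ∈ ImF Q := H872.FF.imF_div Q
  have h1Q : (1 : D) ∈ ImF Q := ⟨1, Q.one_mem, rfl⟩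
  have hQi : ∀ x ∈ ImF Q, x⁻¹ ∈ ImF Q := fun x hx => by
    have := hd 1 h1Q x hx
    rwa [one_mul] at this
  have hQm : ∀ x ∈ ImF Q, ∀ y ∈ ImF Q, x * y ∈ ImF Q := fun x hx y hy => by
    have := hd x hx _ (hQi y hy)
    rwa [inv_inv] at this
  have hQ' : H732D.HQ1F B (ImF Q) T0 ε0 := fun F _ _ _ ι' α β i j p₀ p₁ p₂ p₃ u hu h1 h2 =>
    hQ F ι' α β i j p₀ p₁ p₂ p₃ u hu h2 fun v hv l => h1 v hv l
  exact H976.FF.abAt_of_y_two hS.two_ne hS hdeg hSC hdC h f B Q hε0 hQ' fun ε hε S0 =>
    exists_y (goodE two_pos) hS hdeg hSC h hdC ht ha had B h1Q hQm hQi hε0 hQ hε S0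

/-- **The elements of the centralizers of the symmetric square roots over function fields.** -/
theorem abF {m : ℕ} (hm : 2 ≤ m) (hMP : 3 ≤ m → H974.R8.MPF m) : H974.R8.AbF m := by
  rcases eq_or_lt_of_le hm with rfl | h3
  · exact abF_two
  · exact abF_of (goodE (by omega)) (hMP h3)

/-- **Doubling the degree over function fields.** -/
theorem mpf_dbl {m : ℕ} (hm : 2 ≤ m) (hMP : 3 ≤ m → H974.R8.MPF m) : H974.R8.MPF (2 * m) :=
  H974.R8.mpf_double hm (exTF (by omega)) (abF hm hMP)

/-- **Degree four over function fields.** -/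
theorem mpf_four : H974.R8.MPF (2 * 2) := mpf_dbl le_rfl fun h => absurd h (by norm_num)

/-- **The powers of two** over function fields. -/
theorem mpf_two_pow : ∀ e : ℕ, H974.R8.MPF (2 ^ (e + 2)) := by
  intro e
  induction e with
  | zero => exact mpf_four
  | succ e ih =>
    have h1 : 2 ^ (e + 1 + 2) = 2 * 2 ^ (e + 2) := by ring
    rw [h1]
    have h2 : 2 ^ 2 ≤ 2 ^ (e + 2) := Nat.pow_le_pow_right two_pos (by omega)
    exact mpf_dbl (by omega) fun _ => ih

/-- **The multiples by powers of two**: from degree `m` to the degrees `2 ^ e m`. -/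
theorem mpf_pow_mul {m : ℕ} (hm : 3 ≤ m) (hMP : H974.R8.MPF m) :
    ∀ e : ℕ, H974.R8.MPF (2 ^ e * m) := by
  intro e
  induction e with
  | zero => rwa [pow_zero, one_mul]
  | succ e ih =>
    have h1 : 2 ^ (e + 1) * m = 2 * (2 ^ e * m) := by ring
    rw [h1]
    have h2 : 0 < 2 ^ e := pow_pos two_pos e
    have h3 : m ≤ 2 ^ e * m := Nat.le_mul_of_pos_left m h2
    exact mpf_dbl (by omega) fun _ => ih

end Vale.Agent.P011.H511.Ab
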