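import Vale.Agent.P011.H511.HM5
import Vale.Agent.P011.H511.CSpl
import Vale.Agent.P011.H775.M3
import Vale.Agent.P011.Even.Defs

/-!
The quadratic space `V0`: symmetric `r` with `T r = T (g r) = T (g g r) = 0`, with the form
`T (g p p r^#)`, `p = 3 + g⁻¹`.  It is isotropic as soon as it is indefinite at the real places.
-/

open Module Polynomial Matrix NumberField

set_option linter.unusedSectionVars false
set_option linter.unusedVariables false

namespace Vale.Agent.P011.H511

open Vale.Agent.P011.H775 Vale.Agent.P011.H948 Vale.Agent.P011.Even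

variable {k K D : Type} [Field k] [NumberField k] [Field K] [StarRing K]
  [DivisionRing D] [StarRing D] [Algebra k K] [Algebra k D] [Algebra K D] [IsScalarTower k K D]
  {d : kˣ} {s : K}

theorem star_smul_k (hS : Setting k K D d s) (c : k) (x : D) : star (c • x) = c • star x := by
  rw [← algebraMap_smul K c x, hS.star_smul, (hS.fix _).mpr ⟨c, rfl⟩, algebraMap_smul]

theorem char0K (hS : Setting k K D d s) : CharZero K :=
  charZero_of_injective_algebraMap (algebraMap k K).injective

theorem scub (hS : Setting k K D d s) (hdeg : finrank K D = 3 ^ 2) (C : Cub K D) : SCub C := by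
  have := hS.fin
  have := hS.cen
  exact sCub_of C hdeg hS.star_smul

theorem T_smul_k (C : Cub K D) (c : k) (x : D) : C.T (c • x) = algebraMap k K c * C.T x := by
  rw [← algebraMap_smul K c x, map_smul, smul_eq_mul]

theorem s_ne_zero (hS : Setting k K D d s) : s ≠ 0 := by
  rintro rfl
  have h := hS.sq
  rw [zero_pow two_ne_zero] at h
  exact d.ne_zero ((map_eq_zero (algebraMap k K)).mp h.symm)

theorem rk_eq (hS : Setting k K D d s) {c : K} (hc : star c = c) :
    algebraMap k K (rk k c) = c := by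
  obtain ⟨c, rfl⟩ := (hS.fix _).mp hc
  rw [rk, LinearMap.smul_apply, Algebra.trace_algebraMap, hS.rank, nsmul_eq_mul, smul_eq_mul]
  congr 1
  field_simp
  norm_num

/-- The symmetric elements. -/
def J0 (hS : Setting k K D d s) : Submodule k D where
  carrier := {r | star r = r}
  add_mem' := fun {a b} ha hb => by
    change star (a + b) = a + b
    rw [star_add, ha, hb]
  zero_mem' := star_zero D
  smul_mem' := fun c x hx => by
    change star (c • x) = c • x
    rw [star_smul_k hS, hx]

theorem mem_J0 (hS : Setting k K D d s) {r : D} : r ∈ J0 hS ↔ star r = r := Iff.rfl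

theorem finite_kD (hS : Setting k K D d s) : FiniteDimensional k D := by
  have := hS.fin
  have : FiniteDimensional k K := FiniteDimensional.of_finrank_pos (by rw [hS.rank]; norm_num)
  exact FiniteDimensional.trans k K D

/-- The symmetric elements have dimension nine. -/
theorem finrank_J0 (hS : Setting k K D d s) (hdeg : finrank K D = 3 ^ 2) :
    finrank k (J0 hS) = 9 := by
  have h1 := hS.fin
  have h2 : FiniteDimensional k K := FiniteDimensional.of_finrank_pos (by rw [hS.rank]; norm_num)
  have h3 : FiniteDimensional k D := finite_kD hS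
  have hK := char0K hS
  have h4 : finrank k D = 18 := by
    rw [← Module.finrank_mul_finrank k K D, hS.rank, hdeg]
    norm_num
  let ms : D →ₗ[k] D :=
    { toFun := fun x => s • x
      map_add' := fun x y => smul_add s x y
      map_smul' := fun c x => smul_comm s c x }
  let L : (J0 hS × J0 hS) →ₗ[k] D :=
    ((J0 hS).subtype.comp (LinearMap.fst k _ _)) +
      ms.comp ((J0 hS).subtype.comp (LinearMap.snd k _ _))
  have hL : ∀ z, L z = (z.1 : D) + s • (z.2 : D) := fun z => rfl
  have hs0 := s_ne_zero hS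
  have hinj : Function.Injective L := by
    rw [← LinearMap.ker_eq_bot, LinearMap.ker_eq_bot']
    rintro ⟨⟨a, ha⟩, ⟨b, hb⟩⟩ h0
    rw [hL] at h0
    rw [mem_J0] at ha hb
    have e1 : a + s • b = 0 := h0
    have e2 : a - s • b = 0 := by
      have := congrArg star e1
      rwa [star_add, hS.star_smul, hS.star_s, ha, hb, star_zero, neg_smul, ← sub_eq_add_neg]
        at this
    have e3 : (2 : K) • a = 0 := by
      have : (2 : K) • a = (a + s • b) + (a - s • b) := by
        rw [two_smul]
        abel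
      rw [this, e1, e2, add_zero]
    have ha0 : a = 0 := (smul_eq_zero.mp e3).resolve_left two_ne_zero
    rw [ha0, zero_add] at e1
    have hb0 : b = 0 := (smul_eq_zero.mp e1).resolve_left hs0
    subst ha0 hb0
    rfl
  have hsurj : Function.Surjective L := by
    intro x
    have hm1 : star ((2 : K)⁻¹ • (x + star x)) = (2 : K)⁻¹ • (x + star x) := by
      rw [hS.star_smul, star_inv₀, star_ofNat, star_add, star_star, add_comm]
    have hm2 : star ((2 * s)⁻¹ • (x - star x)) = (2 * s)⁻¹ • (x - star x) := by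
      rw [hS.star_smul, star_inv₀, star_mul', star_ofNat, hS.star_s, star_sub, star_star,
        mul_neg, inv_neg, neg_smul, ← smul_neg, neg_sub]
    refine ⟨(⟨_, hm1⟩, ⟨_, hm2⟩), ?_⟩
    rw [hL]
    change (2 : K)⁻¹ • (x + star x) + s • ((2 * s)⁻¹ • (x - star x)) = x
    rw [smul_smul, mul_inv, mul_comm (2 : K)⁻¹ s⁻¹, ← mul_assoc, mul_inv_cancel₀ hs0, one_mul,
      ← smul_add]
    have : x + star x + (x - star x) = (2 : K) • x := by
      rw [two_smul]
      abel
    rw [this, smul_smul, inv_mul_cancel₀ two_ne_zero, one_smul]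
  have h5 := (LinearEquiv.ofBijective L ⟨hinj, hsurj⟩).finrank_eq
  rw [Module.finrank_prod, h4] at h5
  omega

/-- The element `g p p`. -/
def ga (g : D) : D := g * pp g * pp g

/-- The space `V0`. -/
def V0 (hS : Setting k K D d s) (C : Cub K D) (g : D) : Submodule k D where
  carrier := {r | star r = r ∧ C.T r = 0 ∧ C.T (g * r) = 0 ∧ C.T (g * g * r) = 0}
  add_mem' := fun {a b} ha hb => by
    refine ⟨?_, ?_, ?_, ?_⟩
    · rw [star_add, ha.1, hb.1]
    · rw [map_add, ha.2.1, hb.2.1, add_zero]
    · rw [mul_add, map_add, ha.2.2.1, hb.2.2.1, add_zero]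
    · rw [mul_add, map_add, ha.2.2.2, hb.2.2.2, add_zero]
  zero_mem' := ⟨star_zero D, map_zero _, by rw [mul_zero, map_zero], by rw [mul_zero, map_zero]⟩
  smul_mem' := fun c x hx => by
    refine ⟨?_, ?_, ?_, ?_⟩
    · rw [star_smul_k hS, hx.1]
    · rw [T_smul_k, hx.2.1, mul_zero]
    · rw [mul_smul_comm, T_smul_k, hx.2.2.1, mul_zero]
    · rw [mul_smul_comm, T_smul_k, hx.2.2.2, mul_zero]

theorem mem_V0 (hS : Setting k K D d s) (C : Cub K D) (g : D) {r : D} :
    r ∈ V0 hS C g ↔ star r = r ∧ C.T r = 0 ∧ C.T (g * r) = 0 ∧ C.T (g * g * r) = 0 := Iff.rfl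

/-- The dimension of `V0` is at least six. -/
theorem finrank_V0 (hS : Setting k K D d s) (hdeg : finrank K D = 3 ^ 2) (C : Cub K D) {g : D}
    (hg : star g = g) : 6 ≤ finrank k (V0 hS C g) := by
  have h3 : FiniteDimensional k D := finite_kD hS
  have h := scub hS hdeg C
  let mg : D → (D →ₗ[k] D) := fun a => LinearMap.mulLeft k a
  let Tk : D →ₗ[k] k := (rk k).comp (C.T.restrictScalars k)
  let F : J0 hS →ₗ[k] (Fin 3 → k) := LinearMap.pi
    ![Tk.comp (J0 hS).subtype, (Tk.comp (mg g)).comp (J0 hS).subtype,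
      (Tk.comp (mg (g * g))).comp (J0 hS).subtype]
  have h1 : ∀ a : D, star a = a → a * g = g * a → ∀ r : D, star r = r → rk k (C.T (a * r)) = 0 →
      C.T (a * r) = 0 := by
    intro a ha hag r hr h0
    rw [← rk_eq hS (h.T_mul_symm ha hr), h0, map_zero]
  have h2 : (LinearMap.ker F).map (J0 hS).subtype ≤ V0 hS C g := by
    rintro _ ⟨⟨r, hr⟩, hrF, rfl⟩
    rw [mem_J0] at hr
    have e := LinearMap.mem_ker.mp hrF
    have e0 := congrFun e 0
    have e1 := congrFun e 1
    have e2 := congrFun e 2
    refine ⟨hr, ?_, ?_, ?_⟩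
    · have := h1 1 (star_one D) (by rw [one_mul, mul_one]) r hr (by rw [one_mul]; exact e0)
      rwa [one_mul] at this
    · exact h1 g hg rfl r hr e1
    · exact h1 (g * g) (by rw [star_mul, hg]) (mul_assoc g g g) r hr e2
  have h4 := Submodule.finrank_mono h2
  rw [← (LinearEquiv.finrank_eq (Submodule.equivMapOfInjective (J0 hS).subtype
    (Submodule.injective_subtype _) (LinearMap.ker F)))] at h4
  have h5 := LinearMap.finrank_range_add_finrank_ker F
  have h6 : finrank k (LinearMap.range F) ≤ 3 := by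
    refine (Submodule.finrank_le _).trans ?_
    rw [Module.finrank_fin_fun]
  rw [finrank_J0 hS hdeg] at h5
  omega

/-- The quadratic form `T (g p p r^#)` on `V0`. -/
noncomputable def qV (hS : Setting k K D d s) (C : Cub K D) (g : D) :
    QuadraticForm k (V0 hS C g) :=
  LinearMap.BilinMap.toQuadraticMap (LinearMap.mk₂ k
    (fun r r' : V0 hS C g => (2 : k)⁻¹ * rk k (C.T (ga g * C.cr (r : D) (r' : D))))
    (fun r₁ r₂ r' => by
      rw [Submodule.coe_add, C.cr_add_left, mul_add, map_add, map_add, mul_add])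
    (fun c r r' => by
      rw [Submodule.coe_smul, ← algebraMap_smul K c (r : D), C.cr_smul_left, mul_smul_comm,
        map_smul, algebraMap_smul, map_smul, smul_eq_mul, smul_eq_mul]
      ring)
    (fun r r₁ r₂ => by
      rw [Submodule.coe_add, C.cr_add_right, mul_add, map_add, map_add, mul_add])
    (fun c r r' => by
      rw [Submodule.coe_smul, ← algebraMap_smul K c (r' : D), C.cr_smul_right, mul_smul_comm,
        map_smul, algebraMap_smul, map_smul, smul_eq_mul, smul_eq_mul]
      ring))

theorem qV_def (hS : Setting k K D d s) (C : Cub K D) (g : D) (r : V0 hS C g) :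
    qV hS C g r = rk k (C.T (ga g * C.adj (r : D))) := by
  rw [qV, LinearMap.BilinMap.toQuadraticMap_apply, LinearMap.mk₂_apply, C.cr_self,
    mul_smul_comm, map_smul]
  have h2 : (2 : K) • C.T (ga g * C.adj (r : D)) = (2 : k) • C.T (ga g * C.adj (r : D)) := by
    rw [← algebraMap_smul K (2 : k), map_ofNat]
  rw [h2, map_smul, smul_eq_mul, ← mul_assoc, inv_mul_cancel₀ two_ne_zero, one_mul]

/-- The polar form of `qV`. -/
theorem qV_polar (hS : Setting k K D d s) (C : Cub K D) (g : D) (r r' : V0 hS C g) :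
    QuadraticMap.polar (qV hS C g) r r' = rk k (C.T (ga g * C.cr (r : D) (r' : D))) := by
  rw [QuadraticMap.polar, qV_def, qV_def, qV_def, Submodule.coe_add, C.adj_add, mul_add, mul_add,
    map_add, map_add, map_add, map_add]
  ring

theorem ga_symm {g : D} (hg : star g = g) : star (ga g) = ga g := by
  have hp : star (pp g) = pp g := by rw [pp, star_add, star_inv₀, hg, star_ofNat]
  have hc : Commute g (pp g) := pp_comm
  rw [ga, star_mul, star_mul, hg, hp, mul_assoc g, (hc.mul_right hc).eq, ← hc.eq, mul_assoc, hc.eq]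

theorem qV_apply (hS : Setting k K D d s) (hdeg : finrank K D = 3 ^ 2) (C : Cub K D) {g : D}
    (hg : star g = g) (r : V0 hS C g) :
    algebraMap k K (qV hS C g r) = C.T (g * pp g * pp g * C.adj (r : D)) := by
  have h := scub hS hdeg C
  rw [qV_def, rk_eq hS (h.T_mul_symm (ga_symm hg) (h.adj_symm r.2.1)), ga]

theorem qV_polar_eq (hS : Setting k K D d s) (hdeg : finrank K D = 3 ^ 2) (C : Cub K D) {g : D}
    (hg : star g = g) (r r' : V0 hS C g) :
    algebraMap k K (QuadraticMap.polar (qV hS C g) r r') =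
      C.T (g * pp g * pp g * C.cr (r : D) (r' : D)) := by
  have h := scub hS hdeg C
  rw [qV_polar, rk_eq hS (h.T_mul_symm (ga_symm hg) (h.cr_symm r.2.1 r'.2.1)), ga]

/-- `c` is the value of the quadratic form at `r`. -/
def Val (C : Cub K D) (g r : D) (c : k) : Prop :=
  star r = r ∧ C.T r = 0 ∧ C.T (g * r) = 0 ∧ C.T (g * g * r) = 0 ∧
    C.T (g * pp g * pp g * C.adj r) = algebraMap k K c

/-- The quadratic form takes both signs at the real place `φ`. -/
def RealOK (C : Cub K D) (φ : k →+* ℝ) (g : D) : Prop :=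
  (∃ (r : D) (c : k), Val C g r c ∧ 0 < φ c) ∧ ∃ (r : D) (c : k), Val C g r c ∧ φ c < 0

/-- **Existence of the isotropic element `r`.** -/
theorem exists_r (hS : Setting k K D d s) (hdeg : finrank K D = 3 ^ 2) (C : Cub K D) {g : D}
    (hg : star g = g) (hr : ∀ φ : k →+* ℝ, RealOK C φ g) :
    ∃ r : D, r ≠ 0 ∧ Val C g r (0 : k) := by
  have h3 : FiniteDimensional k D := finite_kD hS
  have key : ∀ (r : D) (c : k), Val C g r c → ∃ x : V0 hS C g, qV hS C g x = c := by
    intro r c hv
    refine ⟨⟨r, hv.1, hv.2.1, hv.2.2.1, hv.2.2.2.1⟩, ?_⟩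
    apply (algebraMap k K).injective
    rw [qV_apply hS hdeg C hg]
    exact hv.2.2.2.2
  obtain ⟨x, hx0, hx⟩ := hm5 (qV hS C g) ((by norm_num : 5 ≤ 6).trans (finrank_V0 hS hdeg C hg))
    (fun φ => by
      obtain ⟨⟨r, c, h1, h2⟩, ⟨r', c', h1', h2'⟩⟩ := hr φ
      obtain ⟨x, hx⟩ := key r c h1
      obtain ⟨x', hx'⟩ := key r' c' h1'
      exact ⟨⟨x, by rw [hx]; exact h2⟩, ⟨x', by rw [hx']; exact h2'⟩⟩)
  refine ⟨x, fun h0 => hx0 (Subtype.ext h0), x.2.1, x.2.2.1, x.2.2.2.1, x.2.2.2.2, ?_⟩
  rw [← qV_apply hS hdeg C hg, hx]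

end Vale.Agent.P011.H511
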