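import Vale.Agent.P011.H511.RPart
import Vale.Agent.P011.H929.DP
import Vale.Agent.P011.H321.PartIof

/-!
The statement `M4` at the real places, from `T ((x0 - 1) w0) = 0` and `x0 w0 ≠ w0 x0`.
-/

open Module NumberField

set_option linter.unusedSectionVars false
set_option linter.unusedVariables false

namespace Vale.Agent.P011.H511

open Vale.Agent.P011.H775 Vale.Agent.P011.H948 Vale.Agent.P011.Even

/-- Two elements which commute with a non central element commute. -/
theorem commute_of_commute {K D : Type} [Field K] [DivisionRing D] [Algebra K D]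
    [FiniteDimensional K D] [Algebra.IsCentral K D] (h9 : finrank K D = 3 ^ 2) {q x w : D}
    (hq : q ∉ Set.range (algebraMap K D)) (hx : x * q = q * x) (hw : w * q = q * w) :
    x * w = w * x := by
  by_cases hwK : w ∈ Set.range (algebraMap K D)
  · obtain ⟨c, rfl⟩ := hwK
    exact (Algebra.commutes c x).symm
  · have h1 : x ∈ Algebra.adjoin K {w} :=
      H929.centralizer_eq_adjoin (by norm_num : (3 : ℕ).Prime) h9 hq hwK hw hx
    have h2 : Algebra.adjoin K {w} ≤ Subalgebra.centralizer K {w} := by
      refine Algebra.adjoin_le ?_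
      rintro _ rfl
      rw [SetLike.mem_coe, Subalgebra.mem_centralizer_iff]
      rintro _ rfl
      rfl
    have h3 := Subalgebra.mem_centralizer_iff K |>.mp (h2 h1) w rfl
    exact h3.symm

/-- A quadratic element is central. -/
theorem mem_of_quad {K D : Type} [Field K] [DivisionRing D] [Algebra K D]
    [FiniteDimensional K D] [Algebra.IsCentral K D] (h9 : finrank K D = 3 ^ 2) {w : D} (t n : K)
    (hww : w * w = t • w - n • (1 : D)) : w ∈ Set.range (algebraMap K D) := by
  by_contra hw
  have hA : Algebra.adjoin K {w} ≠ ⊥ := by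
    intro h1
    have : w ∈ Algebra.adjoin K {w} := Algebra.self_mem_adjoin_singleton K w
    rw [h1] at this
    exact hw (Algebra.mem_bot.mp this)
  have hA2 : Algebra.adjoin K {w} ≠ ⊤ := by
    intro h1
    apply hw
    refine Algebra.mem_bot.mp (Algebra.IsCentral.out (K := K) ?_)
    rw [Subalgebra.mem_center_iff]
    intro x
    have hx : x ∈ Algebra.adjoin K {w} := h1 ▸ Algebra.mem_top
    have hle : Algebra.adjoin K {w} ≤ Subalgebra.centralizer K {w} :=
      Algebra.adjoin_le (by
        rintro _ rfl
        exact (Subalgebra.mem_centralizer_iff K).mpr (by rintro _ rfl; rfl))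
    exact ((Subalgebra.mem_centralizer_iff K).mp (hle hx) w rfl).symm
  have h3 := H929.finrank_eq_of_ne Nat.prime_three h9 hA hA2
  have hsub : Subalgebra.toSubmodule (Algebra.adjoin K {w}) ≤ Submodule.span K {1, w} := by
    intro x hx
    have hx' : x ∈ Algebra.adjoin K {w} := hx
    clear hx
    induction hx' using Algebra.adjoin_induction with
    | mem x hx =>
      rw [Set.mem_singleton_iff] at hx
      subst hx
      exact Submodule.subset_span (by simp)
    | algebraMap c =>
      rw [Algebra.algebraMap_eq_smul_one]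
      exact Submodule.smul_mem _ _ (Submodule.subset_span (by simp))
    | add x y hx1 hy1 hx2 hy2 => exact add_mem hx2 hy2
    | mul x y hx1 hy1 hx2 hy2 =>
      obtain ⟨a, b, hab⟩ := Submodule.mem_span_pair.mp hx2
      obtain ⟨a', b', hab'⟩ := Submodule.mem_span_pair.mp hy2
      have e : x * y = (a * a' - b * b' * n) • (1 : D) +
          (a * b' + b * a' + b * b' * t) • w := by
        have e0 : x * y = (a * a') • (1 : D) + (a * b' + b * a') • w + (b * b') • (w * w) := by
          rw [← hab, ← hab']
          simp only [add_mul, mul_add, smul_mul_assoc, mul_smul_comm, one_mul, mul_one]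
          module
        rw [e0, hww]
        module
      rw [e]
      exact Submodule.mem_span_pair.mpr ⟨_, _, rfl⟩
  have h8 : finrank K (Algebra.adjoin K {w}) ≤ finrank K (Submodule.span K ({1, w} : Set D)) :=
    Submodule.finrank_mono hsub
  have h9 : finrank K (Submodule.span K ({1, w} : Set D)) ≤ 2 := by
    classical
    have h10 := finrank_span_finset_le_card (R := K) (M := D) ({1, w} : Finset D)
    rw [Finset.coe_insert, Finset.coe_singleton] at h10
    exact h10.trans Finset.card_le_two
  omega

variable {k K D : Type} [Field k] [NumberField k] [Field K] [NumberField K] [StarRing K]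
  [DivisionRing D] [StarRing D] [Algebra k K] [Algebra k D] [Algebra K D] [IsScalarTower k K D]
  {d : kˣ} {s : K}

/-- If `x w ≠ w x` then `(x - 1) w` and its conjugate are independent over `K`. -/
theorem indep_of_N1 (hS : Setting k K D d s) (hdeg : finrank K D = 3 ^ 2) {x w : D}
    (hx : x * star x = 1) (hw : w * star w = 1) (hN : x * w ≠ w * x) (a b : K)
    (hab : a • ((x - 1) * w) + b • star ((x - 1) * w) = 0) : a = 0 ∧ b = 0 := by
  have hfin := hS.fin
  have hcen := hS.cen
  have hw0 : w ≠ 0 := by
    rintro rfl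
    rw [zero_mul] at hw
    exact zero_ne_one hw
  have hx1 : x - 1 ≠ 0 := by
    intro h0
    apply hN
    rw [sub_eq_zero.mp h0, one_mul, mul_one]
  have hm0 : (x - 1) * w ≠ 0 := mul_ne_zero hx1 hw0
  have hws : star w * w = 1 := mul_eq_one_comm.mp hw
  have hxs : star x * x = 1 := mul_eq_one_comm.mp hx
  by_contra hcon
  -- `m` and `star m` commute
  have hcomm : (x - 1) * w * star ((x - 1) * w) = star ((x - 1) * w) * ((x - 1) * w) := by
    obtain ⟨m, hm⟩ : ∃ m, m = (x - 1) * w := ⟨_, rfl⟩
    rw [← hm] at hab hm0 ⊢
    by_cases ha : a = 0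
    · rw [ha, zero_smul, zero_add] at hab
      rcases smul_eq_zero.mp hab with hb | hb
      · exact absurd ⟨ha, hb⟩ hcon
      · exact absurd ((star_eq_zero).mp hb) hm0
    · have h1 : m = (-(a⁻¹ * b)) • star m := by
        have h2 : a⁻¹ • (a • m + b • star m) = 0 := by rw [hab, smul_zero]
        rw [smul_add, smul_smul, smul_smul, inv_mul_cancel₀ ha, one_smul] at h2
        rw [neg_smul]
        exact eq_neg_of_add_eq_zero_left h2
      have h3 : Commute ((-(a⁻¹ * b)) • star m) (star m) :=
        (Commute.refl (star m)).smul_left _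
      rw [← h1] at h3
      exact h3.eq
  have e1 : (x - 1) * w * star ((x - 1) * w) = 2 - (x + star x) := by
    rw [star_mul, star_sub, star_one, ← mul_assoc, mul_assoc (x - 1) w, hw, mul_one, mul_sub,
      sub_mul, hx, one_mul, mul_one, ← one_add_one_eq_two]
    abel
  have e2 : star ((x - 1) * w) * ((x - 1) * w) = star w * (2 - (x + star x)) * w := by
    rw [star_mul, star_sub, star_one, ← mul_assoc, mul_assoc (star w)]
    congr 2
    rw [sub_mul, mul_sub, hxs, one_mul, mul_one, ← one_add_one_eq_two]
    abel
  have e3 : w * (x + star x) = (x + star x) * w := by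
    rw [e1, e2] at hcomm
    have h1 := congrArg (fun z => w * z) hcomm
    beta_reduce at h1
    rw [mul_assoc (star w), ← mul_assoc w (star w), hw, one_mul, mul_sub, sub_mul] at h1
    have h2 : w * 2 = 2 * w := by
      rw [mul_two, two_mul]
    rw [h2] at h1
    exact sub_right_injective h1
  have e4 : x * (x + star x) = (x + star x) * x := by
    rw [mul_add, add_mul, hx, hxs]
  by_cases hq : x + star x ∈ Set.range (algebraMap K D)
  · -- `x` is a root of a quadratic polynomial over `K`
    obtain ⟨c, hc⟩ := hq
    have h1 : x * x = c • x - (1 : K) • (1 : D) := by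
      have h2 : x * (x + star x) = c • x := by
        rw [← hc, ← Algebra.commutes, Algebra.smul_def]
      rw [mul_add, hx] at h2
      rw [one_smul, ← h2, add_sub_cancel_right]
    obtain ⟨e, he⟩ := mem_of_quad hdeg _ _ h1
    exact hN (by rw [← he]; exact Algebra.commutes e w)
  · exact hN (commute_of_commute hdeg hq e4 e3)

/-- **The statement at the real places.** -/
theorem m4 (hS : Setting k K D d s) (hdeg : finrank K D = 3 ^ 2) (C : Cub K D) {N : ℕ}
    (B : Basis (Fin N) k D) {x₀ w₀ : D} (hx₀ : x₀ * star x₀ = 1) (hw₀ : w₀ * star w₀ = 1)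
    (hT₀ : C.T ((x₀ - 1) * w₀) = 0) (hN : x₀ * w₀ ≠ w₀ * x₀) : H321.PartI.M4 C B s x₀ := by
  obtain ⟨u₀, hu₀, -, ε, hε, h⟩ := real_part hS hdeg C B hw₀ hT₀
    (indep_of_N1 hS hdeg hx₀ hw₀ hN)
  exact ⟨u₀, hu₀, ε, hε, fun x u _ _ hxR huR hT g y hch hgc φ =>
    h x u hxR huR hT g y hch.hg hch.hy hch.eq hgc φ⟩

end Vale.Agent.P011.H511
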