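import Vale.Agent.P011.H511.PGen
import Vale.Agent.P011.H511.M4
import Vale.Agent.P011.H321.M8b
import Vale.Agent.P011.H321.NdV0

/-!
The limit directions: `gs = κ m + star (κ m)`, `ys = s⁻¹ (κ m - star (κ m))` with
`m = (x₀ - 1) w₀`, and an exact isotropic element `r` of `k(gs)^⊥` for the form `T (gs r^#)` with
`T (ys r) ≠ 0`.
-/

open Module Polynomial Matrix NumberField

set_option linter.unusedSectionVars false
set_option linter.unusedVariables false

namespace Vale.Agent.P011.H511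

open Vale.Agent.P011.H775 Vale.Agent.P011.H948 Vale.Agent.P011.Even Vale.Agent.P011.RP

section base

variable {k K D : Type} [Field k] [NumberField k] [Field K] [StarRing K]
  [DivisionRing D] [StarRing D] [Algebra k K] [Algebra k D] [Algebra K D] [IsScalarTower k K D]
  {d : kˣ} {s : K}

/-- **Non-degeneracy of the form `r ↦ T (g adj r)` on `k(g)^⊥`.** -/
theorem nondeg1 (hS : Setting k K D d s) (hdeg : finrank K D = 3 ^ 2) (C : Cub K D) {g : D}
    (hg : star g = g) (hgc : ∀ c : K, g ≠ c • (1 : D)) {r : D} (hr : r ∈ V0 hS C g)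
    (hr0 : r ≠ 0) : ∃ r' ∈ V0 hS C g, C.T (g * C.cr r r') ≠ 0 := by
  obtain ⟨E, _, _, _, φ, σ, _, _, hσ, H, hsp⟩ := H321.NdV0.exists_cfd hS hdeg C hg hgc
  have hg0 : g ≠ 0 := fun h0 => hgc 0 (by rw [h0, zero_smul])
  have hσ0 : σ ≠ 0 := by
    rintro rfl
    exact hg0 (by rw [← hσ, map_zero])
  obtain ⟨r', hr', h⟩ := H321.NdV0.nondeg_of_cfd H hσ0
    ((H321.NdV0.inV_iff H hσ hsp hr.1).2 hr.2) hr0
  have hr's : star r' = r' := by
    have : 1 * star r' = r' * 1 := hr'.sy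
    rwa [one_mul, mul_one] at this
  exact ⟨r', ⟨hr's, (H321.NdV0.inV_iff H hσ hsp hr's).1 hr'⟩, by rw [← hσ]; exact h⟩

/-- A linear form which is not zero on `k(g)^⊥`. -/
theorem exists_ell (hS : Setting k K D d s) (hdeg : finrank K D = 3 ^ 2) (C : Cub K D) {g y : D}
    (hg : star g = g) (hgc : ∀ c : K, g ≠ c • (1 : D)) (hy : star y = y)
    (hyg : y * g ≠ g * y) : ∃ r ∈ V0 hS C g, C.T (y * r) ≠ 0 := by
  obtain ⟨E, _, _, _, φ, σ, _, _, hσ, H, hsp⟩ := H321.NdV0.exists_cfd hS hdeg C hg hgc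
  obtain ⟨w, hw⟩ : ∃ w : E, w = pr C φ y := ⟨_, rfl⟩
  have hys : Sy 1 y := by
    change 1 * star y = y * 1
    rw [hy, one_mul, mul_one]
  have hprφ : pr C φ (φ w) = w := by
    have h4 : ∀ x : E, Algebra.trace k E (x * (pr C φ (φ w) - w)) = 0 := fun x => by
      have h5 := H.T_mul_pr (H.hφ w) x
      rw [← map_mul, H.T_φ] at h5
      rw [mul_sub, map_sub, sub_eq_zero]
      exact ((algebraMap k K).injective h5).symm
    exact sub_eq_zero.1 ((traceForm_nondegenerate k E).2 _ (fun x => h4 x))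
  have hv : InV C φ 1 (y - φ w) := ⟨hys.sub (H.hφ w), by rw [map_sub, hprφ, hw, sub_self]⟩
  have hv0 : y - φ w ≠ 0 := fun h0 => hyg (by
    rw [sub_eq_zero.mp h0, ← hσ, ← map_mul, ← map_mul, mul_comm])
  obtain ⟨r, hr, hT⟩ := H321.NdV0.exists_T_ne H hv hv0
  have hrs : star r = r := by
    have : 1 * star r = r * 1 := hr.sy
    rwa [one_mul, mul_one] at this
  refine ⟨r, ⟨hrs, (H321.NdV0.inV_iff H hσ hsp hrs).1 hr⟩, ?_⟩
  have h1 : C.T (φ w * r) = 0 := by
    rw [H.T_mul_pr hr.sy, hr.pr0, mul_zero, map_zero, map_zero]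
  rw [sub_mul, map_sub, h1, sub_zero] at hT
  exact hT

/-- The quadratic form `T (c r^#)` on `V0`. -/
noncomputable def qC (hS : Setting k K D d s) (C : Cub K D) (g c : D) :
    QuadraticForm k (V0 hS C g) :=
  LinearMap.BilinMap.toQuadraticMap (LinearMap.mk₂ k
    (fun r r' : V0 hS C g => (2 : k)⁻¹ * rk k (C.T (c * C.cr (r : D) (r' : D))))
    (fun r₁ r₂ r' => by
      rw [Submodule.coe_add, C.cr_add_left, mul_add, map_add, map_add, mul_add])
    (fun e r r' => by
      rw [Submodule.coe_smul, ← algebraMap_smul K e (r : D), C.cr_smul_left, mul_smul_comm,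
        map_smul, algebraMap_smul, map_smul, smul_eq_mul, smul_eq_mul]
      ring)
    (fun r r₁ r₂ => by
      rw [Submodule.coe_add, C.cr_add_right, mul_add, map_add, map_add, mul_add])
    (fun e r r' => by
      rw [Submodule.coe_smul, ← algebraMap_smul K e (r' : D), C.cr_smul_right, mul_smul_comm,
        map_smul, algebraMap_smul, map_smul, smul_eq_mul, smul_eq_mul]
      ring))

theorem qC_def (hS : Setting k K D d s) (C : Cub K D) (g c : D) (r : V0 hS C g) :
    qC hS C g c r = rk k (C.T (c * C.adj (r : D))) := by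
  rw [qC, LinearMap.BilinMap.toQuadraticMap_apply, LinearMap.mk₂_apply, C.cr_self,
    mul_smul_comm, map_smul]
  have h2 : (2 : K) • C.T (c * C.adj (r : D)) = (2 : k) • C.T (c * C.adj (r : D)) := by
    rw [← algebraMap_smul K (2 : k), map_ofNat]
  rw [h2, map_smul, smul_eq_mul, ← mul_assoc, inv_mul_cancel₀ two_ne_zero, one_mul]

/-- The polar form of `qC`. -/
theorem qC_polar (hS : Setting k K D d s) (C : Cub K D) (g c : D) (r r' : V0 hS C g) :
    QuadraticMap.polar (qC hS C g c) r r' = rk k (C.T (c * C.cr (r : D) (r' : D))) := by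
  rw [QuadraticMap.polar, qC_def, qC_def, qC_def, Submodule.coe_add, C.adj_add, mul_add, mul_add,
    map_add, map_add, map_add, map_add]
  ring

theorem qC_apply (hS : Setting k K D d s) (hdeg : finrank K D = 3 ^ 2) (C : Cub K D) {g c : D}
    (hc : star c = c) (r : V0 hS C g) :
    algebraMap k K (qC hS C g c r) = C.T (c * C.adj (r : D)) := by
  have h := scub hS hdeg C
  rw [qC_def, rk_eq hS (h.T_mul_symm hc (h.adj_symm r.2.1))]

theorem qC_polar_eq (hS : Setting k K D d s) (hdeg : finrank K D = 3 ^ 2) (C : Cub K D)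
    {g c : D} (hc : star c = c) (r r' : V0 hS C g) :
    algebraMap k K (QuadraticMap.polar (qC hS C g c) r r') =
      C.T (c * C.cr (r : D) (r' : D)) := by
  have h := scub hS hdeg C
  rw [qC_polar, rk_eq hS (h.T_mul_symm hc (h.cr_symm r.2.1 r'.2.1))]

/-- From an isotropic element to one which is not orthogonal to `y`. -/
theorem exists_isotropic (hS : Setting k K D d s) (hdeg : finrank K D = 3 ^ 2) (C : Cub K D)
    {g y : D} (hg : star g = g) (hgc : ∀ c : K, g ≠ c • (1 : D)) (hy : star y = y)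
    (hyg : y * g ≠ g * y) {r₁ : V0 hS C g} (hr₁ : r₁ ≠ 0) (hq : qC hS C g g r₁ = 0) :
    ∃ r : V0 hS C g, qC hS C g g r = 0 ∧ C.T (y * (r : D)) ≠ 0 := by
  by_cases h1 : C.T (y * (r₁ : D)) = 0
  swap
  · exact ⟨r₁, hq, h1⟩
  obtain ⟨a, ha, hTa⟩ := exists_ell hS hdeg C hg hgc hy hyg
  obtain ⟨b, hb, hTb⟩ := nondeg1 hS hdeg C hg hgc r₁.2 (fun h0 => hr₁ (Subtype.ext h0))
  obtain ⟨r', hr', hT1, hT2⟩ : ∃ r' ∈ V0 hS C g, C.T (y * r') ≠ 0 ∧
      C.T (g * C.cr (r₁ : D) r') ≠ 0 := by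
    by_cases h2 : C.T (g * C.cr (r₁ : D) a) = 0
    swap
    · exact ⟨a, ha, hTa, h2⟩
    by_cases h3 : C.T (y * b) = 0
    swap
    · exact ⟨b, hb, h3, hTb⟩
    refine ⟨a + b, add_mem ha hb, ?_, ?_⟩
    · rw [mul_add, map_add, h3, add_zero]
      exact hTa
    · rw [C.cr_add_right, mul_add, map_add, h2, zero_add]
      exact hTb
  obtain ⟨z, hz⟩ : ∃ z : V0 hS C g, z = ⟨r', hr'⟩ := ⟨_, rfl⟩
  have hP : QuadraticMap.polar (qC hS C g g) r₁ z ≠ 0 := by
    intro h0
    apply hT2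
    rw [show r' = (z : D) by rw [hz], ← qC_polar_eq hS hdeg C hg, h0, map_zero]
  obtain ⟨t, ht⟩ : ∃ t : k, t = -(qC hS C g g z / QuadraticMap.polar (qC hS C g g) r₁ z) :=
    ⟨_, rfl⟩
  refine ⟨z + t • r₁, ?_, ?_⟩
  · have h2 : qC hS C g g (z + t • r₁) = qC hS C g g z + qC hS C g g (t • r₁) +
        QuadraticMap.polar (qC hS C g g) z (t • r₁) := by
      rw [QuadraticMap.polar]
      ring
    rw [h2, QuadraticMap.map_smul, hq, QuadraticMap.polar_smul_right, QuadraticMap.polar_comm,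
      ht, smul_eq_mul, smul_eq_mul]
    field_simp
    ring
  · rw [Submodule.coe_add, Submodule.coe_smul, mul_add, map_add, mul_smul_comm, T_smul_k, h1,
      mul_zero, add_zero, hz]
    exact hT1

end base

variable {k K D : Type} [Field k] [NumberField k] [Field K] [NumberField K] [StarRing K]
  [DivisionRing D] [StarRing D] [Algebra k K] [Algebra k D] [Algebra K D] [IsScalarTower k K D]
  {d : kˣ} {s : K}

/-- If `x w ≠ w x` then `(x - 1) w` and its conjugate do not commute. -/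
theorem not_comm_of_N1 (hS : Setting k K D d s) (hdeg : finrank K D = 3 ^ 2) {x w : D}
    (hx : x * star x = 1) (hw : w * star w = 1) (hN : x * w ≠ w * x) :
    (x - 1) * w * star ((x - 1) * w) ≠ star ((x - 1) * w) * ((x - 1) * w) := by
  have hfin := hS.fin
  have hcen := hS.cen
  have hxs : star x * x = 1 := mul_eq_one_comm.mp hx
  intro hcomm
  have e1 : (x - 1) * w * star ((x - 1) * w) = 2 - (x + star x) := by
    rw [star_mul, star_sub, star_one, ← mul_assoc, mul_assoc (x - 1) w, hw, mul_one, mul_sub,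
      sub_mul, hx, one_mul, mul_one, ← one_add_one_eq_two]
    abel
  have e2 : star ((x - 1) * w) * ((x - 1) * w) = star w * (2 - (x + star x)) * w := by
    rw [star_mul, star_sub, star_one, ← mul_assoc, mul_assoc (star w)]
    congr 2
    rw [sub_mul, mul_sub, hxs, one_mul, mul_one, ← one_add_one_eq_two]
    abel
  have e3 : w * (x + star x) = (x + star x) * w := by
    rw [e1, e2] at hcomm
    have h1 := congrArg (fun z => w * z) hcomm
    beta_reduce at h1
    rw [mul_assoc (star w), ← mul_assoc w (star w), hw, one_mul, mul_sub, sub_mul] at h1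
    have h2 : w * 2 = 2 * w := by
      rw [mul_two, two_mul]
    rw [h2] at h1
    exact sub_right_injective h1
  have e4 : x * (x + star x) = (x + star x) * x := by
    rw [mul_add, add_mul, hx, hxs]
  by_cases hq : x + star x ∈ Set.range (algebraMap K D)
  · obtain ⟨c, hc⟩ := hq
    have h1 : x * x = c • x - (1 : K) • (1 : D) := by
      have h2 : x * (x + star x) = c • x := by
        rw [← hc, ← Algebra.commutes, Algebra.smul_def]
      rw [mul_add, hx] at h2
      rw [one_smul, ← h2, add_sub_cancel_right]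
    obtain ⟨e, he⟩ := mem_of_quad hdeg _ _ h1
    exact hN (by rw [← he]; exact Algebra.commutes e w)
  · exact hN (commute_of_commute hdeg hq e4 e3)

/-- The hermitian form of `κ m + star (κ m)`. -/
theorem hv_gs (R : RData K D 3) (κ : K) (m : D) (v : Fin 3 → ℂ) :
    hv (R.f (κ • m + star (κ • m)) * R.A) v =
      2 * (R.s κ * (star v ⬝ᵥ ((R.f m * R.A) *ᵥ v))).re := by
  have h1 : R.f (star (κ • m)) * R.A = R.A * (R.f (κ • m))ᴴ := R.star_f _
  have h2 : star v ⬝ᵥ ((R.f (star (κ • m)) * R.A) *ᵥ v) =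
      star (star v ⬝ᵥ ((R.f (κ • m) * R.A) *ᵥ v)) := by
    rw [← Matrix.star_dotProduct, Matrix.star_mulVec, ← Matrix.dotProduct_mulVec,
      Matrix.conjTranspose_mul, R.hA, h1]
  have h3 : star v ⬝ᵥ ((R.f (κ • m) * R.A) *ᵥ v) =
      R.s κ * (star v ⬝ᵥ ((R.f m * R.A) *ᵥ v)) := by
    rw [R_smul, Matrix.smul_mul, Matrix.smul_mulVec, dotProduct_smul, smul_eq_mul]
  rw [hv, map_add, add_mul, Matrix.add_mulVec, dotProduct_add, h2, h3, Complex.add_re,
    Complex.star_def, Complex.conj_re]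
  ring

/-- The second coefficient on a line. -/
theorem S_line (C : Cub K D) (a b : D) (t : K) :
    C.S (a + t • b) = C.S a + t * C.T (C.cr a b) + t ^ 2 * C.S b := by
  rw [Cub.S, C.adj_add, C.adj_smul, C.cr_smul_right, map_add, map_add, map_smul, map_smul,
    smul_eq_mul, smul_eq_mul]
  change C.S a + t ^ 2 * C.S b + t * C.T (C.cr a b) = _
  ring

/-- The choice of `κ`. -/
theorem exists_kappa (hS : Setting k K D d s) (hdeg : finrank K D = 3 ^ 2) (C : Cub K D)
    {x₀ w₀ : D} (hx₀ : x₀ * star x₀ = 1) (hw₀ : w₀ * star w₀ = 1)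
    (hT₀ : C.T ((x₀ - 1) * w₀) = 0) (hN : x₀ * w₀ ≠ w₀ * x₀)
    (hN3 : C.T x₀ + C.T (star x₀) ≠ 6)
    (R : ∀ φ : k →+* ℝ, φ d < 0 → RData K D 3)
    (hR : ∀ φ hφ, ∀ c : k, (R φ hφ).s (algebraMap k K c) = (φ c : ℂ)) :
    ∃ κ : K, C.S (κ • ((x₀ - 1) * w₀) + star (κ • ((x₀ - 1) * w₀))) ≠ 0 ∧ ∀ φ hφ,
      Ind (R φ hφ) (κ • ((x₀ - 1) * w₀) + star (κ • ((x₀ - 1) * w₀))) := by
  have hfin := hS.fin
  have hcen := hS.cen
  have hK := char0K hS
  have hind := indep_of_N1 hS hdeg hx₀ hw₀ hN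
  obtain ⟨κ₁, hκ₁, hSκ⟩ := H321.M8a.exists_kap hS hdeg C hx₀ hw₀ hT₀ hN3
  obtain ⟨m, hm⟩ : ∃ m, m = (x₀ - 1) * w₀ := ⟨_, rfl⟩
  rw [← hm] at hT₀ hind hSκ ⊢
  have hstep : ∀ (φ : k →+* ℝ) (hφ : φ d < 0), ∃ (v₁ v₂ : Fin 3 → ℂ) (μ : ℂ),
      0 < (star μ * (star v₁ ⬝ᵥ (((R φ hφ).f m * (R φ hφ).A) *ᵥ v₁))).re ∧
      (star μ * (star v₂ ⬝ᵥ (((R φ hφ).f m * (R φ hφ).A) *ᵥ v₂))).re < 0 := by
    intro φ hφ
    refine exists_mu (M' := (R φ hφ).f (star m)) (R φ hφ).unit (R φ hφ).hA ((R φ hφ).star_f m) ?_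
    intro a b hab
    let _ : Algebra K ℂ := (R φ hφ).s.toAlgebra
    let f : D →ₐ[K] Matrix (Fin 3) (Fin 3) ℂ := { (R φ hφ).f with
      commutes' := fun c => by
        change (R φ hφ).f (algebraMap K D c) = _
        rw [(R φ hφ).hf, Matrix.algebraMap_eq_diagonal]
        rfl }
    have hli : LinearIndependent K ![m, star m] := by
      rw [LinearIndependent.pair_iff]
      exact hind
    have h1 := Vale.Agent.P011S.SF.split_indep (by norm_num) f ![m, star m] hli
    have h2 : (fun i => f (![m, star m] i)) = ![f m, f (star m)] := by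
      ext i
      fin_cases i <;> rfl
    rw [h2, LinearIndependent.pair_iff] at h1
    exact h1 a b hab
  choose v₁ v₂ μ hμ₁ hμ₂ using hstep
  obtain ⟨ν, hν0, hν⟩ := exists_nu hS R hR _ _ μ hμ₁ hμ₂
  let κ : ℕ → K := fun n => star ν + algebraMap k K (1 / ((n : k) + 1)) * κ₁
  have htend : Filter.Tendsto (fun n : ℕ => 1 / ((n : ℝ) + 1)) Filter.atTop (nhds 0) :=
    tendsto_one_div_add_atTop_nhds_zero_nat
  have hln : ∀ (φ : k →+* ℝ) (n : ℕ), φ (1 / ((n : k) + 1)) = 1 / ((n : ℝ) + 1) := by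
    intro φ n
    rw [map_div₀, map_one, map_add, map_natCast, map_one]
  have hA : ∀ (φ : k →+* ℝ), ∀ᶠ n : ℕ in Filter.atTop, ∀ hφ : φ d < 0,
      Ind (R φ hφ) (κ n • m + star (κ n • m)) := by
    intro φ
    by_cases hφ : φ d < 0
    swap
    · exact Filter.Eventually.of_forall fun n h => (hφ h).elim
    have hval : ∀ (n : ℕ) (v : Fin 3 → ℂ),
        hv ((R φ hφ).f (κ n • m + star (κ n • m)) * (R φ hφ).A) v =
        2 * ((star ((R φ hφ).s ν) * (star v ⬝ᵥ (((R φ hφ).f m * (R φ hφ).A) *ᵥ v))).re +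
          (1 / ((n : ℝ) + 1)) *
          ((R φ hφ).s κ₁ * (star v ⬝ᵥ (((R φ hφ).f m * (R φ hφ).A) *ᵥ v))).re) := by
      intro n v
      rw [hv_gs]
      have h1 : (R φ hφ).s (κ n) = star ((R φ hφ).s ν) +
          ((1 / ((n : ℝ) + 1) : ℝ) : ℂ) * (R φ hφ).s κ₁ := by
        change (R φ hφ).s (star ν + algebraMap k K (1 / ((n : k) + 1)) * κ₁) = _
        rw [map_add, map_mul, hR, hln, (R φ hφ).hs]
      rw [h1, add_mul, Complex.add_re, mul_assoc, Complex.re_ofReal_mul]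
    have hlim : ∀ a b : ℝ, Filter.Tendsto (fun n : ℕ => a + (1 / ((n : ℝ) + 1)) * b)
        Filter.atTop (nhds a) := by
      intro a b
      have := (htend.mul_const b).const_add a
      rwa [zero_mul, add_zero] at this
    obtain ⟨h1, h2⟩ := hν φ hφ
    filter_upwards [(hlim _ ((R φ hφ).s κ₁ * (star (v₁ φ hφ) ⬝ᵥ
        (((R φ hφ).f m * (R φ hφ).A) *ᵥ (v₁ φ hφ)))).re).eventually (lt_mem_nhds h1),
      (hlim _ ((R φ hφ).s κ₁ * (star (v₂ φ hφ) ⬝ᵥ
        (((R φ hφ).f m * (R φ hφ).A) *ᵥ (v₂ φ hφ)))).re).eventually (gt_mem_nhds h2)]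
      with n hn1 hn2
    intro _
    refine ⟨⟨v₁ φ hφ, ?_⟩, ⟨v₂ φ hφ, ?_⟩⟩
    · rw [hval]
      linarith
    · rw [hval]
      linarith
  have hA' : ∀ᶠ n : ℕ in Filter.atTop, ∀ φ : k →+* ℝ, ∀ hφ : φ d < 0,
      Ind (R φ hφ) (κ n • m + star (κ n • m)) := Filter.eventually_all.mpr hA
  have hB : ∀ᶠ n : ℕ in Filter.atTop, C.S (κ n • m + star (κ n • m)) ≠ 0 := by
    obtain ⟨a, ha⟩ : ∃ a, a = star ν • m + star (star ν • m) := ⟨_, rfl⟩
    obtain ⟨b, hb⟩ : ∃ b, b = κ₁ • m + star (κ₁ • m) := ⟨_, rfl⟩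
    rw [← hb] at hSκ
    have e1 : ∀ n, κ n • m + star (κ n • m) = a + (algebraMap k K (1 / ((n : k) + 1))) • b := by
      intro n
      change (star ν + algebraMap k K (1 / ((n : k) + 1)) * κ₁) • m +
        star ((star ν + algebraMap k K (1 / ((n : k) + 1)) * κ₁) • m) = _
      rw [add_smul, star_add, mul_smul, ha, hb, hS.star_smul (algebraMap k K _) (κ₁ • m),
        (hS.fix _).mpr ⟨_, rfl⟩, smul_add]
      abel
    let p : Polynomial K := Polynomial.C (C.S b) * X ^ 2 + Polynomial.C (C.T (C.cr a b)) * X +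
      Polynomial.C (C.S a)
    have hp : p ≠ 0 := by
      intro h0
      apply hSκ
      have := congrArg (fun q => Polynomial.coeff q 2) h0
      simpa [p, Polynomial.coeff_X, Polynomial.coeff_C] using this
    have hinj : Function.Injective fun n : ℕ => algebraMap k K (1 / ((n : k) + 1)) := by
      intro i j hij
      have h1 := (algebraMap k K).injective hij
      have hi : (i : k) + 1 ≠ 0 := Nat.cast_add_one_ne_zero i
      have hj : (j : k) + 1 ≠ 0 := Nat.cast_add_one_ne_zero j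
      rw [div_eq_div_iff hi hj, one_mul, one_mul] at h1
      have h2 := add_right_cancel h1
      exact (Nat.cast_injective h2).symm
    have hfinp : {n : ℕ | algebraMap k K (1 / ((n : k) + 1)) ∈ p.rootSet K}.Finite :=
      (p.rootSet_finite K).preimage hinj.injOn
    rw [← Nat.cofinite_eq_atTop]
    refine Filter.eventually_cofinite.mpr (hfinp.subset ?_)
    intro n hn
    have hn' : C.S (κ n • m + star (κ n • m)) = 0 := by
      by_contra h0
      exact hn h0
    rw [e1, S_line] at hn'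
    rw [Set.mem_ofPred_eq, Polynomial.mem_rootSet]
    refine ⟨hp, ?_⟩
    simp only [p, map_add, map_mul, Polynomial.aeval_X, Polynomial.aeval_C, map_pow,
      Algebra.algebraMap_self, RingHom.id_apply]
    linear_combination hn'
  obtain ⟨n, hn1, hn2⟩ := (hA'.and hB).exists
  exact ⟨κ n, hn2, hn1⟩

/-- **The limit data.** -/
theorem exists_star (hS : Setting k K D d s) (hdeg : finrank K D = 3 ^ 2) (C : Cub K D)
    {x₀ w₀ : D} (hx₀ : x₀ * star x₀ = 1) (hw₀ : w₀ * star w₀ = 1)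
    (hT₀ : C.T ((x₀ - 1) * w₀) = 0) (hN : x₀ * w₀ ≠ w₀ * x₀)
    (hN3 : C.T x₀ + C.T (star x₀) ≠ 6) :
    ∃ κ : K, κ ≠ 0 ∧ ∀ m gs ys : D, m = (x₀ - 1) * w₀ → gs = κ • m + star (κ • m) →
      ys = s⁻¹ • (κ • m - star (κ • m)) → (∀ c : K, gs ≠ c • (1 : D)) ∧ C.S gs ≠ 0 ∧
      ∃ r : D, star r = r ∧ r ≠ 0 ∧ C.T r = 0 ∧ C.T (gs * r) = 0 ∧ C.T (gs * gs * r) = 0 ∧
        C.T (gs * C.adj r) = 0 ∧ C.T (ys * r) ≠ 0 := by
  have hfin := hS.fin
  have hcen := hS.cen
  have hK := char0K hS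
  have h := scub hS hdeg C
  have hs0 := s_ne_zero hS
  choose R hR using fun (φ : k →+* ℝ) (hφ : φ d < 0) => exists_R hS hdeg φ hφ
  obtain ⟨κ, hSκ, hI⟩ := exists_kappa hS hdeg C hx₀ hw₀ hT₀ hN hN3 R hR
  have hκ : κ ≠ 0 := by
    rintro rfl
    apply hSκ
    rw [zero_smul, star_zero, add_zero, Cub.S, C.adj_zero, map_zero]
  refine ⟨κ, hκ, ?_⟩
  intro m gs ys hm hgs hys
  have hind := indep_of_N1 hS hdeg hx₀ hw₀ hN
  have hnc := not_comm_of_N1 hS hdeg hx₀ hw₀ hN
  rw [← hm] at hSκ hI hT₀ hind hnc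
  rw [← hgs] at hSκ hI
  have hg : star gs = gs := by
    rw [hgs, star_add, star_star, add_comm]
  have hy : star ys = ys := by
    rw [hys, hS.star_smul, star_inv₀, hS.star_s, star_sub, star_star, inv_neg, neg_smul,
      ← smul_neg, neg_sub]
  have hgc : ∀ c : K, gs ≠ c • (1 : D) := by
    rw [hgs]
    exact H321.M8a.gstar_noncentral hS hdeg C hT₀ hind hκ
  have hyg : ys * gs ≠ gs * ys := by
    intro h0
    apply hnc
    obtain ⟨a, ha⟩ : ∃ a, a = κ • m := ⟨_, rfl⟩
    rw [hys, hgs, ← ha, smul_mul_assoc, mul_smul_comm] at h0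
    have h1 : (a - star a) * (a + star a) = (a + star a) * (a - star a) :=
      (smul_right_injective D (inv_ne_zero hs0)) h0
    have h2 : (2 : K) • (a * star a - star a * a) = 0 := by
      have : (2 : K) • (a * star a - star a * a) =
          (a - star a) * (a + star a) - (a + star a) * (a - star a) := by
        rw [two_smul]
        noncomm_ring
      rw [this, h1, sub_self]
    have h3 : a * star a = star a * a :=
      sub_eq_zero.mp ((smul_eq_zero.mp h2).resolve_left two_ne_zero)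
    rw [ha, hS.star_smul, smul_mul_smul_comm, smul_mul_smul_comm, mul_comm (star κ) κ] at h3
    exact (smul_right_injective D (mul_ne_zero hκ ((star_ne_zero).mpr hκ))) h3
  refine ⟨hgc, hSκ, ?_⟩
  -- the real places
  have hreal : ∀ φ : k →+* ℝ, RealOKP C φ gs 1 := by
    intro φ
    rcases lt_trichotomy (φ d) 0 with hφ | hφ | hφ
    · exact realOKP_nonsplit hS hdeg C hg hgc (star_one D) (by rw [mul_one, one_mul])
        one_ne_zero φ (R φ hφ) (hR φ hφ) (hI φ hφ)
    · exact absurd ((map_eq_zero φ).mp hφ) d.ne_zero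
    · exact realOKP_split hS hdeg C hg hgc (star_one D) (by rw [mul_one, one_mul])
        one_ne_zero φ hφ
  have h3 : FiniteDimensional k D := finite_kD hS
  have key : ∀ (r : D) (c : k), ValP C gs 1 r c → ∃ x : V0 hS C gs, qC hS C gs gs x = c := by
    intro r c hv
    refine ⟨⟨r, hv.1, hv.2.1, hv.2.2.1, hv.2.2.2.1⟩, ?_⟩
    apply (algebraMap k K).injective
    have h5 := hv.2.2.2.2
    rw [mul_one, mul_one] at h5
    rw [qC_apply hS hdeg C hg]
    exact h5
  obtain ⟨r₁, hr0, hr1⟩ := hm5 (qC hS C gs gs)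
    ((by norm_num : 5 ≤ 6).trans (finrank_V0 hS hdeg C hg))
    (fun φ => by
      obtain ⟨⟨r, c, h1, h2⟩, ⟨r', c', h1', h2'⟩⟩ := hreal φ
      obtain ⟨x, hx⟩ := key r c h1
      obtain ⟨x', hx'⟩ := key r' c' h1'
      exact ⟨⟨x, by rw [hx]; exact h2⟩, ⟨x', by rw [hx']; exact h2'⟩⟩)
  obtain ⟨r, hr, hT⟩ := exists_isotropic hS hdeg C hg hgc hy hyg hr0 hr1
  refine ⟨r, r.2.1, ?_, r.2.2.1, r.2.2.2.1, r.2.2.2.2, ?_, hT⟩
  · intro h0
    apply hT
    rw [h0, mul_zero, map_zero]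
  · rw [← qC_apply hS hdeg C hg, hr, map_zero]

end Vale.Agent.P011.H511
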