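import Vale.Agent.P011.H373.CubicNorm

/-!
The Hasse norm theorem for extensions of odd prime degree of number fields, with approximation:
an element of norm `b` which is close to `1` at finitely many places if `b` is.
-/

open NumberField IsDedekindDomain Polynomial Module

namespace Vale.Agent.P011.H511

open Vale.Agent.P011.Arith (Z0 ov exists_above exists_below below_unique ov_finite
  val_above val_le_one_iff val_lt_val_iff exists_conj approxVal)
open Vale.Agent.P011.ArP Vale.Agent.P011.H373

theorem exists_ub {ι : Type} (s : Finset ι) (f : ι → Z0) : ∃ m : Z0, m ≠ 0 ∧ ∀ i ∈ s, f i ≤ m := by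
  classical
  induction s using Finset.induction_on with
  | empty => exact ⟨1, one_ne_zero, by simp⟩
  | insert a s _ ih =>
    obtain ⟨m, hm, h⟩ := ih
    refine ⟨max m (f a), fun h0 => hm (le_antisymm ((le_max_left _ _).trans h0.le) zero_le), ?_⟩
    intro i hi
    rcases Finset.mem_insert.mp hi with rfl | hi
    · exact le_max_right _ _
    · exact (h i hi).trans (le_max_left _ _)

theorem exists_lb {ι : Type} (s : Finset ι) (f : ι → Z0) (hf : ∀ i ∈ s, f i ≠ 0) :
    ∃ m : Z0, m ≠ 0 ∧ ∀ i ∈ s, m ≤ f i := by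
  obtain ⟨m, hm, h⟩ := exists_ub s fun i => (f i)⁻¹
  refine ⟨m⁻¹, inv_ne_zero hm, fun i hi => ?_⟩
  have h1 := h i hi
  rw [inv_le_comm₀ (zero_lt_iff.mpr hm) (zero_lt_iff.mpr (hf i hi))]
  exact h1

section kd

variable {p : ℕ} {F : Type} [Field F] [NumberField F] {E : Type} [Field E] [NumberField E]
  [Algebra F E] {M : Mu p F} {a : Fˣ} {θ : E} {σ : E ≃ₐ[F] E}

/-- The partial norms. -/
noncomputable def pn (σ : E ≃ₐ[F] E) (e : E) (i : ℕ) : E := ∏ j ∈ Finset.range i, (σ ^ j) e

/-- The resolvent. -/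
noncomputable def rs (p : ℕ) (σ : E ≃ₐ[F] E) (e c : E) : E :=
  ∑ i ∈ Finset.range p, pn σ e i * (σ ^ i) c

omit [NumberField F] [NumberField E] in
theorem pn_zero (e : E) : pn σ e 0 = 1 := by rw [pn, Finset.range_zero, Finset.prod_empty]

omit [NumberField F] [NumberField E] in
theorem pn_succ' (e : E) (i : ℕ) : e * σ (pn σ e i) = pn σ e (i + 1) := by
  rw [pn, pn, Finset.prod_range_succ', map_prod, mul_comm, pow_zero]
  have h : ∀ x : ℕ, σ ((σ ^ x) e) = (σ ^ (x + 1)) e := fun x => by
    rw [pow_succ']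
    rfl
  rw [Finset.prod_congr rfl fun x _ => h x]
  rfl

omit [NumberField F] [NumberField E] in
theorem pn_ne {e : E} (he : e ≠ 0) (i : ℕ) : pn σ e i ≠ 0 := by
  rw [pn, Finset.prod_ne_zero_iff]
  intro j _
  exact (_root_.map_ne_zero (σ ^ j : E ≃ₐ[F] E)).mpr he

/-- The resolvent is an approximate solution of `e σ f = f`. -/
theorem rs_rel (Q : KD M a E θ σ) (e c : E) :
    e * σ (rs p σ e c) = rs p σ e c + (algebraMap F E (Algebra.norm F e) - 1) * c := by
  have h1 : e * σ (rs p σ e c) = ∑ i ∈ Finset.range p, pn σ e (i + 1) * (σ ^ (i + 1)) c := by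
    rw [rs, map_sum, Finset.mul_sum]
    refine Finset.sum_congr rfl fun i _ => ?_
    rw [map_mul, ← mul_assoc, pn_succ', pow_succ']
    rfl
  have h2 := Finset.sum_range_succ' (fun i => pn σ e i * (σ ^ i) c) p
  have h3 := Finset.sum_range_succ (fun i => pn σ e i * (σ ^ i) c) p
  rw [h3] at h2
  have h4 : pn σ e p = algebraMap F E (Algebra.norm F e) := (Q.norm_eq e).symm
  rw [h1, h4.symm]
  have h5 : (σ ^ 0) c = c := rfl
  rw [pn_zero, h5, Q.sigma_pow] at h2
  have h6 : rs p σ e c = ∑ x ∈ Finset.range p, pn σ e x * (σ ^ x) c := rfl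
  rw [← h6] at h2
  linear_combination -h2

/-- Some power of the Kummer generator has a large resolvent. -/
theorem exists_pow_rs (Q : KD M a E θ σ) (e : E) (w : Valuation E Z0) :
    ∃ j : ℕ, w (p : E) * w (θ ^ j) ≤ w (rs p σ e (θ ^ j)) := by
  by_contra hcon
  push Not at hcon
  have hθ := Q.theta_ne
  have h1 : ∀ j, w ((θ ^ j)⁻¹ * rs p σ e (θ ^ j)) < w (p : E) := by
    intro j
    have h2 : w (θ ^ j) ≠ 0 := (Valuation.ne_zero_iff _).mpr (pow_ne_zero j hθ)
    have h3 := hcon j
    rw [map_mul, map_inv₀, mul_comm, ← div_eq_mul_inv, div_lt_iff₀ (zero_lt_iff.mpr h2)]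
    exact h3
  have h2 : ∀ j, (θ ^ j)⁻¹ * rs p σ e (θ ^ j) =
      ∑ i ∈ Finset.range p, pn σ e i * (algebraMap F E (M.ζ ^ i)) ^ j := by
    intro j
    rw [rs, Finset.mul_sum]
    refine Finset.sum_congr rfl fun i _ => ?_
    rw [map_pow, Q.sig_theta, mul_pow]
    field_simp
  have h3 : ∑ j ∈ Finset.range p, (θ ^ j)⁻¹ * rs p σ e (θ ^ j) = (p : E) := by
    rw [Finset.sum_congr rfl fun j _ => h2 j, Finset.sum_comm]
    have h4 : ∀ i ∈ Finset.range p, i ≠ 0 →
        ∑ j ∈ Finset.range p, pn σ e i * (algebraMap F E (M.ζ ^ i)) ^ j = 0 := by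
      intro i hi hi0
      rw [← Finset.mul_sum]
      have h5 : (algebraMap F E (M.ζ ^ i) - 1) *
          ∑ j ∈ Finset.range p, (algebraMap F E (M.ζ ^ i)) ^ j = 0 := by
        rw [mul_geom_sum, ← map_pow, ← pow_mul, mul_comm i, pow_mul, M.zeta_pow, one_pow,
          map_one, sub_self]
      rcases mul_eq_zero.mp h5 with h | h
      · exfalso
        have h6 : M.ζ ^ i = 1 := by
          apply (algebraMap F E).injective
          rw [map_one]
          exact sub_eq_zero.mp h
        have h7 := (M.prim.pow_eq_one_iff_dvd i).mp h6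
        exact absurd (Nat.le_of_dvd (Nat.pos_of_ne_zero hi0) h7)
          (not_le.mpr (Finset.mem_range.mp hi))
      · rw [h, mul_zero]
    rw [Finset.sum_eq_single_of_mem 0 (Finset.mem_range.mpr M.prime.pos) h4]
    simp [pn_zero]
  have hp0 : w (p : E) ≠ 0 := (Valuation.ne_zero_iff _).mpr Q.p_ne
  have h4 : w (∑ j ∈ Finset.range p, (θ ^ j)⁻¹ * rs p σ e (θ ^ j)) < w (p : E) :=
    Valuation.map_sum_lt _ hp0 fun j _ => h1 j
  rw [h3] at h4
  exact lt_irrefl _ h4

/-- The local form of the element `c`. -/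
theorem local_res (Q : KD M a E θ σ) {e : E} (he : e ≠ 0) {v : HeightOneSpectrum (𝓞 F)}
    {w0 : HeightOneSpectrum (𝓞 E)}
    (h0 : w0.asIdeal.comap (algebraMap (𝓞 F) (𝓞 E)) = v.asIdeal) :
    ∃ (t : E) (γ : Z0), γ ≠ 0 ∧ ∀ c : E, w0.valuation E (c - t) < γ →
      (∀ w : HeightOneSpectrum (𝓞 E), w.asIdeal.comap (algebraMap (𝓞 F) (𝓞 E)) = v.asIdeal →
        w ≠ w0 → w.valuation E c < γ) →
      ∀ w : HeightOneSpectrum (𝓞 E), w.asIdeal.comap (algebraMap (𝓞 F) (𝓞 E)) = v.asIdeal →
        w.valuation E (p : E) * w.valuation E c ≤ w.valuation E (rs p σ e c) ∧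
          rs p σ e c ≠ 0 := by
  classical
  have hp1 : ∀ w : HeightOneSpectrum (𝓞 E), w.valuation E (p : E) ≤ 1 := fun w => by
    have := w.valuation_le_one (K := E) (p : 𝓞 E)
    simpa using this
  by_cases hfix : ∀ z, w0.valuation E (σ z) = w0.valuation E z
  · -- only one place
    have hfix' : ∀ i : ℕ, ∀ z, w0.valuation E ((σ ^ i) z) = w0.valuation E z := by
      intro i
      induction i with
      | zero => intro z; rfl
      | succ i ih =>
        intro z
        rw [pow_succ', AlgEquiv.mul_apply, hfix, ih]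
    have hone : ∀ w : HeightOneSpectrum (𝓞 E),
        w.asIdeal.comap (algebraMap (𝓞 F) (𝓞 E)) = v.asIdeal → w = w0 := by
      intro w hw
      obtain ⟨i, hi⟩ := Q.transitive h0 hw
      exact spec_ext fun z => (hi z).trans (hfix' i z)
    obtain ⟨j, hj⟩ := exists_pow_rs Q e (w0.valuation E)
    set r := w0.valuation E (rs p σ e (θ ^ j)) with hr
    have hθj : w0.valuation E (θ ^ j) ≠ 0 :=
      (Valuation.ne_zero_iff _).mpr (pow_ne_zero j Q.theta_ne)
    have hp0 : w0.valuation E (p : E) ≠ 0 := (Valuation.ne_zero_iff _).mpr Q.p_ne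
    have hr0 : r ≠ 0 := by
      intro h
      rw [h] at hj
      exact mul_ne_zero hp0 hθj (le_antisymm hj zero_le)
    obtain ⟨m, hm0, hm⟩ := exists_ub (Finset.range p) fun i => w0.valuation E (pn σ e i)
    refine ⟨θ ^ j, min (w0.valuation E (θ ^ j)) (r / m), ?_, fun c hc _ w hw => ?_⟩
    · intro h
      rcases min_choice (w0.valuation E (θ ^ j)) (r / m) with h1 | h1
      · exact hθj (h1.symm.trans h)
      · exact div_ne_zero hr0 hm0 (h1.symm.trans h)
    · obtain rfl := hone w hw
      have hc1 : w.valuation E c = w.valuation E (θ ^ j) := by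
        have h1 : w.valuation E (c - θ ^ j) < w.valuation E (θ ^ j) := hc.trans_le (min_le_left _ _)
        have h2 : c = θ ^ j + (c - θ ^ j) := by ring
        rw [h2]
        exact (w.valuation E).map_add_eq_of_lt_left h1
      have hc2 : w.valuation E (rs p σ e c - rs p σ e (θ ^ j)) < r := by
        have e1 : rs p σ e c - rs p σ e (θ ^ j) =
            ∑ i ∈ Finset.range p, pn σ e i * (σ ^ i) (c - θ ^ j) := by
          rw [rs, rs, ← Finset.sum_sub_distrib]
          refine Finset.sum_congr rfl fun i _ => ?_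
          rw [map_sub, mul_sub]
        rw [e1]
        refine Valuation.map_sum_lt _ hr0 fun i hi => ?_
        rw [map_mul, hfix' i]
        have h1 : w.valuation E (c - θ ^ j) < r / m := hc.trans_le (min_le_right _ _)
        rw [lt_div_iff₀ (zero_lt_iff.mpr hm0)] at h1
        refine lt_of_le_of_lt ?_ h1
        rw [mul_comm]
        exact mul_le_mul' le_rfl (hm i hi)
      have hc3 : w.valuation E (rs p σ e c) = r := by
        have h2 : rs p σ e c = rs p σ e (θ ^ j) + (rs p σ e c - rs p σ e (θ ^ j)) := by ring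
        rw [h2]
        exact (w.valuation E).map_add_eq_of_lt_left hc2
      refine ⟨?_, fun h => ?_⟩
      · rw [hc3, hc1]
        exact hj
      · rw [h, map_zero] at hc3
        exact hr0 hc3.symm
  · -- the split case
    obtain ⟨γ1, hγ1, hm⟩ := exists_ub ((Finset.range p) ×ˢ (Finset.range p))
      fun x => w0.valuation E ((σ ^ x.1) (pn σ e x.2))
    obtain ⟨γ2, hγ2, hl⟩ := exists_lb ((Finset.range p) ×ˢ (Finset.range p))
      (fun x => w0.valuation E ((σ ^ x.1) (pn σ e x.2))) (by
        intro x _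
        refine (Valuation.ne_zero_iff _).mpr ?_
        exact (_root_.map_ne_zero (σ ^ x.1 : E ≃ₐ[F] E)).mpr (pn_ne he _))
    refine ⟨1, min 1 (min γ2 (γ2 / γ1)), ?_, fun c hc hcw w hw => ?_⟩
    · intro h
      rcases min_choice 1 (min γ2 (γ2 / γ1)) with h1 | h1
      · exact one_ne_zero (h1.symm.trans h)
      · rcases min_choice γ2 (γ2 / γ1) with h2 | h2
        · exact hγ2 (h2.symm.trans (h1.symm.trans h))
        · exact div_ne_zero hγ2 hγ1 (h2.symm.trans (h1.symm.trans h))
    · set γ := min 1 (min γ2 (γ2 / γ1)) with hγdef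
      have hγ1' : γ ≤ 1 := min_le_left _ _
      have hγ2' : γ ≤ γ2 := (min_le_right _ _).trans (min_le_left _ _)
      have hγ3' : γ ≤ γ2 / γ1 := (min_le_right _ _).trans (min_le_right _ _)
      have hc1 : w0.valuation E c = 1 := by
        have h1 : w0.valuation E (c - 1) < w0.valuation E (1 : E) := by
          rw [map_one]
          exact hc.trans_le hγ1'
        have h2 : c = 1 + (c - 1) := by ring
        rw [h2, (w0.valuation E).map_add_eq_of_lt_left h1, map_one]
      have hcn : ∀ n : ℕ, ¬ p ∣ n → w0.valuation E ((σ ^ n) c) < γ := by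
        intro n hn
        obtain ⟨w', hw', hw2⟩ := exists_conj_pow σ w0 n
        rw [← hw']
        refine hcw w' ((hw2 v).mp h0) ?_
        rintro rfl
        exact hfix fun z => Q.val_fix_of_pow w' hn (fun z => (hw' z).symm) z
      obtain ⟨m0, hm0⟩ := Q.transitive h0 hw
      obtain ⟨m, hmp, hmw⟩ : ∃ m, m < p ∧ ∀ z, w.valuation E z = w0.valuation E ((σ ^ m) z) := by
        refine ⟨m0 % p, Nat.mod_lt _ M.prime.pos, fun z => ?_⟩
        rw [hm0 z]
        have : σ ^ m0 = σ ^ (m0 % p) := by
          conv_lhs => rw [← Nat.div_add_mod m0 p, pow_add, pow_mul, Q.sigma_pow_eq, one_pow, one_mul]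
        rw [this]
      obtain ⟨l, hlp, hml⟩ : ∃ l, l < p ∧ p ∣ m + l := by
        rcases Nat.eq_zero_or_pos m with rfl | hm1
        · exact ⟨0, M.prime.pos, by simp⟩
        · exact ⟨p - m, by omega, by rw [Nat.add_sub_cancel' hmp.le]⟩
      have hdiv : ∀ n, p ∣ n → (σ ^ n) c = c := by
        rintro _ ⟨q, rfl⟩
        rw [pow_mul, Q.sigma_pow_eq, one_pow]
        rfl
      have hmain : w.valuation E (rs p σ e c) = w0.valuation E ((σ ^ m) (pn σ e l)) := by
        rw [hmw, rs, map_sum, ← Finset.add_sum_erase _ _ (Finset.mem_range.mpr hlp)]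
        have e1 : ∀ i, (σ ^ m) (pn σ e i * (σ ^ i) c) = (σ ^ m) (pn σ e i) * (σ ^ (m + i)) c := by
          intro i
          rw [map_mul, pow_add]
          rfl
        have h1 : w0.valuation E ((σ ^ m) (pn σ e l * (σ ^ l) c)) =
            w0.valuation E ((σ ^ m) (pn σ e l)) := by
          rw [e1, hdiv _ hml, map_mul, hc1, mul_one]
        have hne : w0.valuation E ((σ ^ m) (pn σ e l)) ≠ 0 := by
          refine (Valuation.ne_zero_iff _).mpr ?_
          exact (_root_.map_ne_zero (σ ^ m : E ≃ₐ[F] E)).mpr (pn_ne he _)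
        rw [← h1]
        refine (w0.valuation E).map_add_eq_of_lt_left ?_
        rw [h1]
        refine Valuation.map_sum_lt _ hne fun i hi => ?_
        obtain ⟨hil, hip⟩ := Finset.mem_erase.mp hi
        rw [Finset.mem_range] at hip
        have h2 : ¬ p ∣ m + i := by
          intro hd
          have h3 : p ∣ (m + l) - (m + i) := Nat.dvd_sub hml hd
          have h4 : p ∣ (m + i) - (m + l) := Nat.dvd_sub hd hml
          rcases Nat.lt_or_gt_of_ne hil with h5 | h5
          · have := Nat.le_of_dvd (by omega) h3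
            omega
          · have := Nat.le_of_dvd (by omega) h4
            omega
        rw [e1, map_mul]
        have h3 := hcn _ h2
        have h4 : w0.valuation E ((σ ^ m) (pn σ e i)) ≤ γ1 :=
          hm (m, i) (Finset.mk_mem_product (Finset.mem_range.mpr hmp) (Finset.mem_range.mpr hip))
        have h5 : γ2 ≤ w0.valuation E ((σ ^ m) (pn σ e l)) :=
          hl (m, l) (Finset.mk_mem_product (Finset.mem_range.mpr hmp) (Finset.mem_range.mpr hlp))
        have h6 := h3.trans_le hγ3'
        rw [lt_div_iff₀ (zero_lt_iff.mpr hγ1)] at h6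
        refine lt_of_le_of_lt ?_ (h6.trans_le h5)
        rw [mul_comm]
        exact mul_le_mul' le_rfl h4
      have hne : w0.valuation E ((σ ^ m) (pn σ e l)) ≠ 0 := by
        refine (Valuation.ne_zero_iff _).mpr ?_
        exact (_root_.map_ne_zero (σ ^ m : E ≃ₐ[F] E)).mpr (pn_ne he _)
      refine ⟨?_, fun h => ?_⟩
      · rw [hmain]
        rcases Nat.eq_zero_or_pos m with rfl | hm1
        · have hl0 : l = 0 := by
            rw [zero_add] at hml
            exact Nat.eq_zero_of_dvd_of_lt hml hlp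
          subst hl0
          have h1 : w.valuation E c = 1 := by
            rw [hmw, ← hc1]
            rfl
          rw [h1, mul_one, pn_zero, map_one, map_one]
          exact hp1 w
        · have h1 : ¬ p ∣ m := fun h => absurd (Nat.le_of_dvd hm1 h) (not_le.mpr hmp)
          have h2 := hcn m h1
          rw [← hmw] at h2
          have h5 : γ2 ≤ w0.valuation E ((σ ^ m) (pn σ e l)) :=
            hl (m, l) (Finset.mk_mem_product (Finset.mem_range.mpr hmp) (Finset.mem_range.mpr hlp))
          refine (mul_le_of_le_one_left' (hp1 w)).trans ?_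
          exact (h2.le.trans hγ2').trans h5
      · rw [h, map_zero] at hmain
        exact hne hmain.symm

/-- **Norms near `1` are norms of elements near `1`**, in a Kummer extension. -/
theorem kd_approx (Q : KD M a E θ σ) {e : E} (he : e ≠ 0) {S : Set (HeightOneSpectrum (𝓞 F))}
    (hS : S.Finite) :
    ∃ e1 : E, Algebra.norm F e1 = Algebra.norm F e ∧ ∀ v ∈ S, ∀ w : HeightOneSpectrum (𝓞 E),
      w.asIdeal.comap (algebraMap (𝓞 F) (𝓞 E)) = v.asIdeal →
        w.valuation E (p : E) * w.valuation E (e1 - 1) ≤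
          w.valuation E (algebraMap F E (Algebra.norm F e - 1)) := by
  classical
  have hfd := Q.fd
  choose w0 hw0 using fun v : HeightOneSpectrum (𝓞 F) => exists_above (E := E) v
  choose t γ hγ hloc using fun v : HeightOneSpectrum (𝓞 F) => local_res Q he (hw0 v)
  choose be hbe using fun w : HeightOneSpectrum (𝓞 E) => exists_below (F := F) w
  obtain ⟨c, hc, -⟩ := approxVal (F := E) (ov_finite (E := E) hS).toFinset
    (fun w => if w = w0 (be w) then t (be w) else 0) (fun w => γ (be w)) (fun w _ => hγ _)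
    (fun _ => 0) (ε := 1) one_pos
  have hbe' : ∀ {v : HeightOneSpectrum (𝓞 F)} {w : HeightOneSpectrum (𝓞 E)},
      w.asIdeal.comap (algebraMap (𝓞 F) (𝓞 E)) = v.asIdeal → be w = v := fun h =>
    below_unique (hbe _) h
  have hkey : ∀ v ∈ S, ∀ w : HeightOneSpectrum (𝓞 E),
      w.asIdeal.comap (algebraMap (𝓞 F) (𝓞 E)) = v.asIdeal →
        w.valuation E (p : E) * w.valuation E c ≤ w.valuation E (rs p σ e c) ∧
          rs p σ e c ≠ 0 := by
    intro v hv
    refine hloc v c ?_ ?_
    · have h1 := hc (w0 v) ((ov_finite (E := E) hS).mem_toFinset.mpr ⟨v, hv, hw0 v⟩)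
      rw [hbe' (hw0 v), if_pos rfl] at h1
      exact h1
    · intro w hw hne
      have h1 := hc w ((ov_finite (E := E) hS).mem_toFinset.mpr ⟨v, hv, hw⟩)
      rw [hbe' hw, if_neg hne, sub_zero] at h1
      exact h1
  by_cases hf : rs p σ e c = 0
  · refine ⟨e, rfl, fun v hv w hw => ?_⟩
    exact absurd hf (hkey v hv w hw).2
  · refine ⟨e * σ (rs p σ e c) / rs p σ e c, ?_, fun v hv w hw => ?_⟩
    · have h1 : Algebra.norm F (rs p σ e c) ≠ 0 := Algebra.norm_ne_zero_iff.mpr hf
      have h2 : Algebra.norm F (e * σ (rs p σ e c) / rs p σ e c) *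
          Algebra.norm F (rs p σ e c) = Algebra.norm F e * Algebra.norm F (rs p σ e c) := by
        rw [← map_mul, div_mul_cancel₀ _ hf, map_mul, Algebra.norm_eq_of_algEquiv]
      exact mul_right_cancel₀ h1 h2
    · have hwf : w.valuation E (rs p σ e c) ≠ 0 := (Valuation.ne_zero_iff _).mpr hf
      have e1 : e * σ (rs p σ e c) / rs p σ e c - 1 =
          algebraMap F E (Algebra.norm F e - 1) * c / rs p σ e c := by
        rw [rs_rel Q, map_sub, map_one]
        field_simp
        ring
      rw [e1, map_div₀, map_mul, ← mul_div_assoc, div_le_iff₀ (zero_lt_iff.mpr hwf)]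
      have h2 := (hkey v hv w hw).1
      calc w.valuation E (p : E) * (w.valuation E (algebraMap F E (Algebra.norm F e - 1)) *
            w.valuation E c) = w.valuation E (algebraMap F E (Algebra.norm F e - 1)) *
            (w.valuation E (p : E) * w.valuation E c) := by
              rw [mul_left_comm]
        _ ≤ _ := mul_le_mul' le_rfl h2

end kd

section close

variable {R : Type} [Field R] (w : Valuation R Z0) {γ : Z0}

theorem one_of_close (hγ : γ ≤ 1) {x : R} (h : w (x - 1) < γ) : w x = 1 := by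
  have h1 : w (x - 1) < w (1 : R) := by
    rw [map_one]
    exact h.trans_le hγ
  have h2 : x = 1 + (x - 1) := by ring
  rw [h2, w.map_add_eq_of_lt_left h1, map_one]

theorem close_mul (hγ : γ ≤ 1) {x y : R} (hx : w (x - 1) < γ) (hy : w (y - 1) < γ) :
    w (x * y - 1) < γ := by
  have e : x * y - 1 = x * (y - 1) + (x - 1) := by ring
  rw [e]
  refine w.map_add_lt ?_ hx
  rw [map_mul, one_of_close w hγ hx, one_mul]
  exact hy

theorem close_inv (hγ : γ ≤ 1) {x : R} (hx : w (x - 1) < γ) : w (x⁻¹ - 1) < γ := by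
  have h1 := one_of_close w hγ hx
  have h0 : x ≠ 0 := by
    rintro rfl
    rw [map_zero] at h1
    exact zero_ne_one h1
  have e : x⁻¹ - 1 = -(x⁻¹ * (x - 1)) := by
    field_simp
    ring
  rw [e, Valuation.map_neg, map_mul, map_inv₀, h1, inv_one, one_mul]
  exact hx

theorem close_pow (hγ : γ ≤ 1) {x : R} (hx : w (x - 1) < γ) (n : ℕ) : w (x ^ n - 1) < γ := by
  induction n with
  | zero =>
    rw [pow_zero, sub_self, map_zero]
    exact lt_of_le_of_lt zero_le hx
  | succ n ih =>
    rw [pow_succ]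
    exact close_mul w hγ ih hx

theorem close_zpow (hγ : γ ≤ 1) {x : R} (hx : w (x - 1) < γ) (n : ℤ) : w (x ^ n - 1) < γ := by
  rcases n with n | n
  · rw [Int.ofNat_eq_natCast, zpow_natCast]
    exact close_pow w hγ hx n
  · rw [zpow_negSucc]
    exact close_inv w hγ (close_pow w hγ hx (n + 1))

theorem close_prod (hγ : γ ≤ 1) (hγ0 : 0 < γ) {ι : Type} (s : Finset ι) (f : ι → R)
    (h : ∀ i ∈ s, w (f i - 1) < γ) : w (∏ i ∈ s, f i - 1) < γ := by
  classical
  induction s using Finset.induction_on with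
  | empty => rwa [Finset.prod_empty, sub_self, map_zero]
  | insert a s ha ih =>
    rw [Finset.prod_insert ha]
    exact close_mul w hγ (h a (Finset.mem_insert_self _ _))
      (ih fun i hi => h i (Finset.mem_insert_of_mem hi))

end close

/-- The norm of a Galois extension of an element close to `1`. -/
theorem norm_close {E N : Type} [Field E] [NumberField E] [Field N] [NumberField N] [Algebra E N]
    [FiniteDimensional E N] [IsGalois E N] {w : HeightOneSpectrum (𝓞 E)} {g : E}
    (hg0 : g ≠ 0) (hg : w.valuation E g ≤ 1) {x : N}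
    (h : ∀ W : HeightOneSpectrum (𝓞 N), W.asIdeal.comap (algebraMap (𝓞 E) (𝓞 N)) = w.asIdeal →
      W.valuation N (x - 1) < W.valuation N (algebraMap E N g)) :
    w.valuation E (Algebra.norm E x - 1) < w.valuation E g := by
  obtain ⟨W, hW⟩ := exists_above (F := E) (E := N) w
  rw [← val_lt_val_iff hW, map_sub, map_one, Algebra.norm_eq_prod_automorphisms]
  refine close_prod (W.valuation N) ((val_le_one_iff hW g).mpr hg) ?_ _ _ fun τ _ => ?_
  · exact zero_lt_iff.mpr ((Valuation.ne_zero_iff _).mpr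
      ((_root_.map_ne_zero (algebraMap E N)).mpr hg0))
  · obtain ⟨W', hW', hW2⟩ := exists_conj τ⁻¹ W
    have h1 := h W' ((hW2 w).mp hW)
    have h2 : ∀ z, W'.valuation N z = W.valuation N (τ z) := fun z => by
      rw [← hW']
      congr 1
      exact (AlgEquiv.symm_apply_apply τ z).symm
    rw [h2, h2, map_sub, map_one, AlgEquiv.commutes] at h1
    exact h1

theorem comap_tower {k A N : Type} [Field k] [NumberField k] [Field A] [NumberField A] [Field N]
    [NumberField N] [Algebra k A] [Algebra A N] [Algebra k N] [IsScalarTower k A N]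
    (I : Ideal (𝓞 N)) :
    Ideal.comap (algebraMap (𝓞 k) (𝓞 A)) (Ideal.comap (algebraMap (𝓞 A) (𝓞 N)) I) =
      Ideal.comap (algebraMap (𝓞 k) (𝓞 N)) I := by
  rw [Ideal.comap_comap]
  congr 1
  ext x
  have h1 : ((algebraMap (𝓞 k) (𝓞 N) x : 𝓞 N) : N) = algebraMap k N (x : k) := rfl
  have h2 : (((algebraMap (𝓞 A) (𝓞 N)).comp (algebraMap (𝓞 k) (𝓞 A)) x : 𝓞 N) : N) =
      algebraMap A N (algebraMap k A (x : k)) := rfl
  rw [h1, h2, ← IsScalarTower.algebraMap_apply]

/-- The tower of `exists_tower`, with the information that the top is Galois over the bottom. -/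
theorem exists_tower' {p : ℕ} (hp : p.Prime) (k E : Type) [Field k] [NumberField k] [Field E]
    [NumberField E] [Algebra k E] (hE : finrank k E = p) :
    ∃ (A N : Type) (_ : Field A) (_ : NumberField A) (_ : Field N) (_ : NumberField N)
      (_ : Algebra k A) (_ : Algebra A N) (_ : Algebra k N) (_ : IsScalarTower k A N)
      (φ : E →ₐ[k] N) (ζ : N),
      IsGalois k N ∧ IsGalois A N ∧ IsPrimitiveRoot ζ p ∧ finrank A N = p ∧
      (finrank k A).Coprime p ∧
      ∀ e : E, Algebra.norm A (φ e) = algebraMap k A (Algebra.norm k e) := by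
  have hpf : Fact p.Prime := ⟨hp⟩
  obtain ⟨N, _, _, _, φ, ζ, hgal, hζ, hn⟩ := exists_big hp k E hE
  have hpn : p ∣ finrank k N := by
    let _ := φ.toRingHom.toAlgebra
    have : IsScalarTower k E N := IsScalarTower.of_algebraMap_eq fun x => (φ.commutes x).symm
    rw [← finrank_mul_finrank k E N, hE]
    exact dvd_mul_right _ _
  have hcard : Nat.card (N ≃ₐ[k] N) = finrank k N := IsGalois.card_aut_eq_finrank k N
  obtain ⟨g, hg⟩ := exists_prime_orderOf_dvd_card' (G := N ≃ₐ[k] N) p (by rw [hcard]; exact hpn)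
  set S := Subgroup.zpowers g with hS
  set A := IntermediateField.fixedField S with hA
  have hAN : finrank A N = p := by
    rw [hA, IntermediateField.finrank_fixedField_eq_card, hS, Nat.card_zpowers, hg]
  have hmul : finrank k A * p = finrank k N := by
    rw [← hAN]; exact finrank_mul_finrank k A N
  have hcop : (finrank k A).Coprime p := by
    rw [Nat.coprime_comm]
    refine (Nat.Prime.coprime_iff_not_dvd hp).mpr fun h => hn ?_
    rw [← hmul, pow_two]
    exact mul_dvd_mul_right h p
  set B := φ.fieldRange with hB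
  have hBk : finrank k B = p := by
    rw [← hE]; exact φ.equivFieldRange.symm.toLinearEquiv.finrank_eq
  have hld : A.LinearDisjoint B := by
    apply IntermediateField.LinearDisjoint.of_finrank_coprime
    rw [hBk]; exact hcop
  have htop : A ⊔ B = ⊤ := by
    have h1 := hld.finrank_sup
    rw [hBk, hmul] at h1
    apply IntermediateField.eq_of_le_of_finrank_eq le_top
    rw [h1, IntermediateField.finrank_top']
  refine ⟨A, N, inferInstance, NumberField.of_module_finite k A, inferInstance, inferInstance,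
    inferInstance, inferInstance, inferInstance, inferInstance, φ, ζ, hgal, inferInstance, hζ, hAN,
    hcop, fun e => ?_⟩
  have h1 := hld.norm_algebraMap htop (φ.equivFieldRange e)
  rw [Algebra.norm_eq_of_algEquiv] at h1
  exact h1

/-- **The Hasse norm theorem with approximation**, for extensions of odd prime degree of number
fields: if `b` is a local norm everywhere and close to `1` at finitely many places, then it is the
norm of an element which is close to `1` at these places. -/
theorem norm_approx_prime {p : ℕ} (hp : p.Prime) (hp2 : p ≠ 2) {k E : Type} [Field k]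
    [NumberField k] [Field E] [NumberField E] [Algebra k E] (hE : finrank k E = p) {b : kˣ}
    {e0 : E} (he0 : Algebra.norm k e0 = b)
    {S : Set (HeightOneSpectrum (𝓞 k))} (hS : S.Finite) (c : HeightOneSpectrum (𝓞 k) → k)
    (hc : ∀ v ∈ S, c v ≠ 0 ∧ v.valuation k (c v) ≤ 1)
    (hb : ∀ v ∈ S, v.valuation k ((b : k) - 1) < v.valuation k ((p : k) * c v)) :
    ∃ e : E, Algebra.norm k e = b ∧ ∀ v ∈ S, ∀ w : HeightOneSpectrum (𝓞 E),
      Ideal.comap (algebraMap (𝓞 k) (𝓞 E)) w.asIdeal = v.asIdeal →
        w.valuation E (e - 1) < w.valuation E (algebraMap k E (c v)) := by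
  have hfd : FiniteDimensional k E := Module.finite_of_finrank_pos (by rw [hE]; exact hp.pos)
  obtain ⟨A, N, _, _, _, _, _, _, _, _, φ, ζ, hgal, hgal', hζ, hN, hcop, hnorm⟩ :=
    exists_tower' hp k E hE
  obtain ⟨M, a, θ, σ, Q, -⟩ := exists_kd hp hp2 hN hζ
  have hb0 : (b : k) ≠ 0 := b.ne_zero
  have he00 : e0 ≠ 0 := by
    rintro rfl
    rw [Algebra.norm_zero] at he0
    exact hb0 he0.symm
  have hφ0 : φ e0 ≠ 0 := (_root_.map_ne_zero φ).mpr he00
  obtain ⟨e1, he1, hclose⟩ := kd_approx Q hφ0 (ov_finite (E := A) hS)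
  rw [hnorm, he0] at he1
  have hfAN : FiniteDimensional A N := Q.fd
  have hfkA : FiniteDimensional k A := inferInstance
  have hfkN : FiniteDimensional k N := Module.Finite.trans A N
  let _ := φ.toRingHom.toAlgebra
  have htw : IsScalarTower k E N := IsScalarTower.of_algebraMap_eq fun x => (φ.commutes x).symm
  have hfEN : FiniteDimensional E N := Module.Finite.of_restrictScalars_finite k E N
  have hgE : IsGalois E N := IsGalois.tower_top_of_isGalois k E N
  -- `e1` is close to one
  have hp0 : ∀ v : HeightOneSpectrum (𝓞 k), v.valuation k (p : k) ≤ 1 := fun v => by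
    have := v.valuation_le_one (K := k) (p : 𝓞 k)
    simpa using this
  have hcl1 : ∀ v ∈ S, ∀ W : HeightOneSpectrum (𝓞 N),
      W.asIdeal.comap (algebraMap (𝓞 k) (𝓞 N)) = v.asIdeal →
      W.valuation N (e1 - 1) < W.valuation N (algebraMap k N (c v)) := by
    intro v hv W hW
    obtain ⟨V, hV⟩ := exists_below (F := A) W
    have hVv : V.asIdeal.comap (algebraMap (𝓞 k) (𝓞 A)) = v.asIdeal := by
      rw [← hV, comap_tower, hW]
    have h1 := hclose V ⟨v, hv, hVv⟩ W hV
    rw [hnorm, he0] at h1
    have h2 : W.valuation N (algebraMap A N (algebraMap k A (b : k) - 1)) <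
        W.valuation N ((p : N) * algebraMap k N (c v)) := by
      have h3 := (val_lt_val_iff hW _ _).mpr (hb v hv)
      have e1 : algebraMap k N ((b : k) - 1) = algebraMap A N (algebraMap k A (b : k) - 1) := by
        rw [map_sub, map_sub, map_one, map_one, ← IsScalarTower.algebraMap_apply]
      have e2 : algebraMap k N ((p : k) * c v) = (p : N) * algebraMap k N (c v) := by
        rw [map_mul, map_natCast]
      rw [e1, e2] at h3
      exact h3
    have h4 := h1.trans_lt h2
    rw [map_mul] at h4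
    have hpN : W.valuation N (p : N) ≠ 0 := (Valuation.ne_zero_iff _).mpr Q.p_ne
    exact lt_of_mul_lt_mul_left' h4
  set e2 := Algebra.norm E e1 with he2
  have hcl2 : ∀ v ∈ S, ∀ w : HeightOneSpectrum (𝓞 E),
      Ideal.comap (algebraMap (𝓞 k) (𝓞 E)) w.asIdeal = v.asIdeal →
        w.valuation E (e2 - 1) < w.valuation E (algebraMap k E (c v)) := by
    intro v hv w hw
    refine norm_close ((_root_.map_ne_zero _).mpr (hc v hv).1)
      ((val_le_one_iff hw _).mpr (hc v hv).2) fun W hW => ?_
    rw [← IsScalarTower.algebraMap_apply]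
    refine hcl1 v hv W ?_
    rw [← hw, ← hW, comap_tower]
  have he20 : e2 ≠ 0 := by
    rw [he2, Algebra.norm_ne_zero_iff]
    rintro rfl
    rw [Algebra.norm_zero] at he1
    exact (_root_.map_ne_zero (algebraMap k A)).mpr hb0 he1.symm
  have hn2 : Algebra.norm k e2 = (b : k) ^ finrank k A := by
    rw [he2, Algebra.norm_norm, ← Algebra.norm_norm (R := k) (S := A), he1]
    exact Algebra.norm_algebraMap (b : k)
  have hzp : ∀ (x : E) (n : ℤ), x ≠ 0 → Algebra.norm k (x ^ n) = (Algebra.norm k x) ^ n := by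
    intro x n hx
    have h1 : Algebra.norm k x ≠ 0 := Algebra.norm_ne_zero_iff.mpr hx
    rcases n with n | n
    · rw [Int.ofNat_eq_natCast, zpow_natCast, zpow_natCast, map_pow]
    · rw [zpow_negSucc, zpow_negSucc]
      apply eq_inv_of_mul_eq_one_left
      rw [← map_pow, ← map_mul, inv_mul_cancel₀ (pow_ne_zero _ hx), map_one]
  have hbE : algebraMap k E (b : k) ≠ 0 := (_root_.map_ne_zero _).mpr hb0
  refine ⟨e2 ^ (Nat.gcdA (finrank k A) p) * (algebraMap k E b) ^ (Nat.gcdB (finrank k A) p), ?_,
    fun v hv w hw => ?_⟩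
  · rw [map_mul, hzp _ _ he20, hzp _ _ hbE, hn2, Algebra.norm_algebraMap, hE, ← zpow_natCast,
      ← zpow_natCast, ← zpow_mul, ← zpow_mul, ← zpow_add₀ hb0, ← Nat.gcd_eq_gcd_ab, hcop,
      Nat.cast_one, zpow_one]
  · have hg1 : w.valuation E (algebraMap k E (c v)) ≤ 1 := (val_le_one_iff hw _).mpr (hc v hv).2
    refine close_mul _ hg1 (close_zpow _ hg1 (hcl2 v hv w hw) _) (close_zpow _ hg1 ?_ _)
    rw [← map_one (algebraMap k E), ← map_sub, val_lt_val_iff hw]
    refine (hb v hv).trans_le ?_
    rw [map_mul]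
    exact mul_le_of_le_one_left' (hp0 v)

/-- **(N)**: the Hasse norm theorem in odd prime degree with approximation. -/
theorem hasse_norm_approx {p : ℕ} (hp : p.Prime) (hp2 : p ≠ 2) {k E : Type} [Field k]
    [NumberField k] [Field E] [NumberField E] [Algebra k E] (hE : finrank k E = p) (b : kˣ)
    (h : ∀ v : HeightOneSpectrum (𝓞 k), ∃ e : E,
      v.valuation k ((b : k) / Algebra.norm k e - 1) < v.valuation k ((p : k) ^ 2))
    {S : Set (HeightOneSpectrum (𝓞 k))} (hS : S.Finite) (c : HeightOneSpectrum (𝓞 k) → k)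
    (hc : ∀ v ∈ S, c v ≠ 0 ∧ v.valuation k (c v) ≤ 1)
    (hb : ∀ v ∈ S, v.valuation k ((b : k) - 1) < v.valuation k ((p : k) * c v)) :
    ∃ e : E, Algebra.norm k e = b ∧ ∀ v ∈ S, ∀ w : HeightOneSpectrum (𝓞 E),
      Ideal.comap (algebraMap (𝓞 k) (𝓞 E)) w.asIdeal = v.asIdeal →
        w.valuation E (e - 1) < w.valuation E (algebraMap k E (c v)) := by
  obtain ⟨e0, he0⟩ := hasse_norm_prime hp hp2 hE b h
  exact norm_approx_prime hp hp2 hE he0 hS c hc hb

end Vale.Agent.P011.H511
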