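import Vale.Agent.P011.H738.Atl.Near
import Vale.Agent.P011.H424.Dbl.MFCore
import Vale.Agent.P011.H961.R5Nu
import Vale.Agent.P011.H496.NearValF
import Vale.Agent.P011.H872.FF.FrmF
import Vale.Agent.P011.W.HermEl
import Vale.Agent.P011.H732D.Spec

/-!
The doubling step over function fields, preparations: norms near one, the subgroup of the units of
`k(s t)` which the tower lemma uses, the minimal polynomial of the square of a skew element.
-/

open Module Polynomial

set_option linter.unusedSectionVars false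

namespace Vale.Agent.P011.H511.Ab

open Vale.Agent.P011.H738 Vale.Agent.P011.H271 Vale.Agent.P011.H271.S3
open Vale.Agent.P011.H305 Vale.Agent.P011.H182
open Vale.Agent.P011.H511.FF (exists_lb exists_below_ab av_of_ab above_finite ab_lt_iff)
open Vale.Agent.P011.H973.PF (Av')
open Vale.Agent.P011.H738.Atl (NrF)
open Vale.Agent.P011.H961.R5 (NN)
open Vale.Agent.P011.H872.FF (XaF IsCentF kk om)
open Vale.Agent.P011.W (HasNrd)
open Vale.Agent.P011.H63.FB (incF)

section near

variable {k D : Type} [Field k] [DivisionRing D] [StarRing D] [Algebra k D] {N : ℕ}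
  {B : Basis (Fin N) k D} {v : Place k} {n : D → ℝ} {C : ℝ}

/-- Products of elements close to one. -/
theorem nn_mul (h : NN B v n C) {ε : ℝ} (hε : ε ≤ 1) {x y : D} (hx : n (x - 1) < ε)
    (hy : n (y - 1) < ε) : n (x * y - 1) < ε := by
  have e : x * y - 1 = (x - 1) * (y - 1) + (x - 1) + (y - 1) := by
    rw [sub_mul, mul_sub, one_mul, mul_one]
    abel
  rw [e]
  refine h.add_lt (h.add_lt ?_ hx) hy
  refine (h.mul _ _).trans_lt ?_
  have h1 := h.nn (x - 1)
  have h2 := h.nn (y - 1)
  nlinarith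

/-- Inverses of elements close to one. -/
theorem nn_inv (h : NN B v n C) {ε : ℝ} (hε : ε ≤ 1) {x : D} (hx : n (x - 1) < ε) :
    n (x⁻¹ - 1) < ε := by
  have hx1 := hx.trans_le hε
  obtain ⟨hx0, -⟩ := h.inv_near' hx1
  have e : x⁻¹ - 1 = -((x - 1) + (x - 1) * (x⁻¹ - 1)) := by
    rw [mul_sub, sub_mul, mul_inv_cancel₀ hx0, one_mul, mul_one]
    abel
  by_contra hcon
  push Not at hcon
  have h1 : n (x⁻¹ - 1) ≤ max (n (x - 1)) (n (x - 1) * n (x⁻¹ - 1)) := by
    conv_lhs => rw [e]
    rw [h.neg]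
    exact (h.add _ _).trans (max_le_max le_rfl (h.mul _ _))
  have h2 := h.nn (x - 1)
  rcases le_max_iff.mp h1 with h3 | h3
  · exact absurd (h3.trans_lt hx) (not_lt.mpr hcon)
  · have h4 : 0 < n (x⁻¹ - 1) := by
      by_contra h5
      push Not at h5
      have h6 := h.nn (x⁻¹ - 1)
      have h7 : n (x⁻¹ - 1) = 0 := le_antisymm h5 h6
      rw [h7] at hcon
      linarith
    nlinarith

/-- Quotients `x / star x`. -/
theorem nn_quot (h : NN B v n C) {x : D} {η : ℝ} (hη : η ≤ 1) (hx : n (x - 1) < η)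
    (hx' : n (star x - 1) < η) : n (x * (star x)⁻¹ - 1) < η * n 1 := by
  obtain ⟨hx0, hx1⟩ := h.inv_near' (hx'.trans_le hη)
  have e : x * (star x)⁻¹ - 1 = ((x - 1) - (star x - 1)) * (star x)⁻¹ := by
    rw [sub_sub_sub_cancel_right, sub_mul, mul_inv_cancel₀ hx0]
  rw [e]
  have h1 := h.sub_lt hx hx'
  have h2 := h.nn ((x - 1) - (star x - 1))
  have h3 := h.one_le
  calc n (((x - 1) - (star x - 1)) * (star x)⁻¹) ≤
        n ((x - 1) - (star x - 1)) * n (star x)⁻¹ := h.mul _ _
    _ ≤ n ((x - 1) - (star x - 1)) * n 1 := mul_le_mul_of_nonneg_left hx1 h2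
    _ < η * n 1 := mul_lt_mul_of_pos_right h1 (by linarith)

end near

section small

variable {k D M : Type} [Field k] [GFF k] [DivisionRing D] [StarRing D] [Algebra k D] {N : ℕ}
  {B : Basis (Fin N) k D} {n : Place k → D → ℝ} {CC : Place k → ℝ} [Field M] [GFF M] [Algebra k M]
  [FiniteDimensional k M] [Algebra.IsSeparable k M]

/-- The image of an element which is close to one above the places of `S`. -/
theorem exists_near (hn : ∀ v, NN B v (n v) (CC v)) (φ : M →ₗ[k] D) (h1 : φ 1 = 1)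
    {S : Set (Place k)} (hS : S.Finite) {η : Place k → ℝ} (hη : ∀ v, 0 < η v) :
    ∃ ε : ℝ, 0 < ε ∧ ∀ y : M, NrF S ε y → ∀ v ∈ S, n v (φ y - 1) < η v := by
  classical
  have hC0 : ∀ v, 0 < CC v := fun v => (hn v).C0
  choose c hc0 hc using fun v : Place k =>
    H496.NF.near_of_valF B φ v (ε := η v / (2 * CC v)) (div_pos (hη v) (by
      have := hC0 v
      positivity))
  have hf : {w : Place M | ∃ v ∈ S, Av' w v}.Finite := above_finite hS
  choose be hbe using fun w : Place M => exists_below_ab (k := k) w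
  obtain ⟨m, hm, hml⟩ := exists_lb hf.toFinset
    (fun w => w.abv (algebraMap k M (c (be w)))) fun w _ =>
      w.abv.pos ((_root_.map_ne_zero _).2 (hc0 _))
  refine ⟨m, hm, fun y hy v hv => ?_⟩
  have h2 := hc v (y - 1) fun w hw => by
    have h3 : be w = v := below_unique (hbe w) hw
    have h4 := hml w (hf.mem_toFinset.2 ⟨v, hv, av_of_ab hw⟩)
    rw [h3] at h4
    exact (hy v hv w hw).trans_le h4
  rw [map_sub, h1] at h2
  have h3 : n v (φ y - 1) ≤ CC v * (η v / (2 * CC v)) := (hn v).up _ _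
    (div_nonneg (hη v).le (by
      have := hC0 v
      positivity)) fun i => (coord_le_na B v.abv _ i).trans h2.le
  refine h3.trans_lt ?_
  have h4 : CC v * (η v / (2 * CC v)) = η v / 2 := by
    have := (hC0 v).ne'
    field_simp
  rw [h4]
  exact half_lt_self (hη v)

end small

section cent

variable {k K D L K' C : Type} [Field k] [Field K] [StarRing K]
    [DivisionRing D] [StarRing D] [Algebra k K] [Algebra k D] [Algebra K D] [IsScalarTower k K D]
    [Field L] [Algebra k L] [Field K'] [StarRing K']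
    [Algebra K K'] [DivisionRing C] [StarRing C] [Algebra L K'] [Algebra L C] [Algebra K' C]
    [IsScalarTower L K' C] {d : kˣ} {s : K} {t : D} {a : kˣ} {T : L} {jC : C →+* D}

/-- **The minimal polynomial** of the square of a skew element anticommuting with `t`. -/
theorem minpoly_eq (hS : SetF k K D d s) (hSC : SetF L K' C (incF k L d) (algebraMap K K' s))
    (h : IsCentF k K D L K' C t a T jC) (ht : t ∈ XaF D a) {j : D} (hj0 : j ≠ 0)
    (hjs : star j = -j) (hjt : j * t = -(t * j)) {γ : C} (hγ : jC γ = j * j) :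
    IsIntegral K' γ ∧ (minpoly k (j * j)).map (kk k K K') = minpoly K' γ ∧
      (minpoly K' γ).natDegree = (minpoly k (j * j)).natDegree := by
  have i3 := hSC.fin
  have hγs : star γ = γ := by
    apply h.inj
    rw [h.star, hγ, star_mul, hjs, neg_mul_neg]
  have hγj : jC γ * j = j * jC γ := by rw [hγ, mul_assoc]
  obtain ⟨Θ, τ', hΘ, hΘτ, hτK, hτT⟩ := H872.FF.exists_theta h hj0 hjt
  have hco : ∀ i, ∃ e : k, (minpoly K' γ).coeff i = kk k K K' e := by
    intro i
    refine H872.FF.fix_k hS hSC h ht hτK hτT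
      (H424.Dbl.minpoly_star (fun c => H872.FF.star_algF hSC c) hγs i)
      (H424.Dbl.minpoly_conj jC h.inj hj0 τ' (fun c => ?_) hγj i)
    rw [← hΘτ, hΘ, inv_mul_cancel_right₀ hj0]
  have hint : IsIntegral K' γ := Algebra.IsIntegral.isIntegral γ
  have hev : ∀ Q : k[X], jC (aeval γ (Q.map (kk k K K'))) = aeval (j * j) Q := by
    intro Q
    induction Q using Polynomial.induction_on' with
    | add p q hp hq => rw [Polynomial.map_add, map_add, map_add, map_add, hp, hq]
    | monomial n c =>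
      rw [map_monomial, aeval_monomial, aeval_monomial, map_mul, map_pow, hγ, kk,
        RingHom.comp_apply, h.jK, ← IsScalarTower.algebraMap_apply]
  obtain ⟨P, hP⟩ : ∃ P : k[X], P.map (kk k K K') = minpoly K' γ := by
    rw [← mem_lifts, lifts_iff_coeff_lifts]
    intro i
    obtain ⟨e, he⟩ := hco i
    exact ⟨e, he.symm⟩
  have hPm : P.Monic := by
    have h1 := minpoly.monic hint
    rw [← hP] at h1
    exact monic_of_injective (kk k K K').injective h1
  have hP0 : aeval (j * j) P = 0 := by rw [← hev, hP, minpoly.aeval, map_zero]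
  have hi : IsIntegral k (j * j) := ⟨P, hPm, hP0⟩
  have h1 : minpoly k (j * j) ∣ P := minpoly.dvd k _ hP0
  have h2 : minpoly K' γ ∣ (minpoly k (j * j)).map (kk k K K') := by
    refine minpoly.dvd K' γ (h.inj ?_)
    rw [hev, minpoly.aeval, map_zero]
  have h3 : (minpoly k (j * j)).map (kk k K K') ∣ minpoly K' γ := by
    rw [← hP]
    exact Polynomial.map_dvd _ h1
  have h4 : (minpoly k (j * j)).map (kk k K K') = minpoly K' γ :=
    eq_of_monic_of_associated ((minpoly.monic hi).map _) (minpoly.monic hint)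
      (associated_of_dvd_dvd h3 h2)
  exact ⟨hint, h4, by rw [← h4, natDegree_map]⟩

/-- **The subgroup** of the units `b` such that `b / star b` is the reduced norm of a unitary
element of `C` which is close to one and belongs to `Q`. -/
theorem exists_W {P : Type} [Field P] [Algebra P K'] (m : ℕ) {N : ℕ} {B : Basis (Fin N) k D} {n : Place k → D → ℝ} {CC : Place k → ℝ}
    (hn : ∀ v, NN B v (n v) (CC v)) {Q : Set D} (h1Q : (1 : D) ∈ Q)
    (hQm : ∀ x ∈ Q, ∀ y ∈ Q, x * y ∈ Q) (hQi : ∀ x ∈ Q, x⁻¹ ∈ Q) (S0 : Set (Place k)) {ε : ℝ}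
    (hε : 0 < ε) (hε1 : ε ≤ 1) :
    ∃ W : Subgroup Pˣ, ∀ b : Pˣ, b ∈ W ↔ ∃ y : C, y * star y = 1 ∧
      HasNrd K' m y (algebraMap P K' b * (star (algebraMap P K' b))⁻¹) ∧ jC y ∈ Q ∧
      ∀ v ∈ S0, n v (jC y - 1) < ε := by
  have hb0 : ∀ b : Pˣ, algebraMap P K' b ≠ 0 := fun b => (_root_.map_ne_zero _).mpr b.ne_zero
  refine ⟨{ carrier := {b | ∃ y : C, y * star y = 1 ∧
      HasNrd K' m y (algebraMap P K' b * (star (algebraMap P K' b))⁻¹) ∧ jC y ∈ Q ∧
      ∀ v ∈ S0, n v (jC y - 1) < ε}, mul_mem' := ?_, one_mem' := ?_, inv_mem' := ?_ },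
      fun b => Iff.rfl⟩
  · rintro b b' ⟨y, h1, h2, h3, h4⟩ ⟨y', h1', h2', h3', h4'⟩
    refine ⟨y * y', ?_, ?_, ?_, fun v hv => ?_⟩
    · rw [star_mul, mul_assoc, ← mul_assoc y', h1', one_mul, h1]
    · have h5 := h2.mul h2'
      have h6 : algebraMap P K' ((b * b' : Pˣ) : P) * (star (algebraMap P K' ((b * b' : Pˣ) : P)))⁻¹ =
          algebraMap P K' b * (star (algebraMap P K' b))⁻¹ *
          (algebraMap P K' b' * (star (algebraMap P K' b'))⁻¹) := by
        rw [Units.val_mul, map_mul, star_mul', mul_inv]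
        ring
      rwa [h6]
    · rw [map_mul]
      exact hQm _ h3 _ h3'
    · rw [map_mul]
      exact nn_mul (hn v) hε1 (h4 v hv) (h4' v hv)
  · refine ⟨1, by rw [star_one, one_mul], ?_, by rwa [map_one], fun v _ => ?_⟩
    · rw [Units.val_one, map_one, star_one, inv_one, one_mul]
      intro Ω _ _ f
      rw [map_one, map_one, Matrix.det_one]
    · rw [map_one, sub_self, (hn v).zero]
      exact hε
  · rintro b ⟨y, h1, h2, h3, h4⟩
    have hy0 : y ≠ 0 := left_ne_zero_of_mul_eq_one h1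
    have hyi : y⁻¹ = star y := (eq_inv_of_mul_eq_one_right h1).symm
    refine ⟨y⁻¹, ?_, ?_, ?_, fun v hv => ?_⟩
    · rw [hyi, star_star, ← hyi, inv_mul_cancel₀ hy0]
    · have h5 := h2.inv hy0
      have h6 : algebraMap P K' ((b⁻¹ : Pˣ) : P) *
          (star (algebraMap P K' ((b⁻¹ : Pˣ) : P)))⁻¹ =
          (algebraMap P K' b * (star (algebraMap P K' b))⁻¹)⁻¹ := by
        rw [Units.val_inv_eq_inv_val, map_inv₀, star_inv₀, mul_inv]
      rwa [h6]
    · rw [map_inv₀]
      exact hQi _ h3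
    · rw [map_inv₀]
      exact nn_inv (hn v) hε1 (h4 v hv)

end cent

end Vale.Agent.P011.H511.Ab
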