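import Vale.Agent.P011.H167.CnA

/-!
Among the antisymmetric elements which anticommute with a symmetric square root `t` there is one
whose square is not in the base field, in degree `2 m` with `m` at least two: global function
fields.
-/

open Module

set_option linter.unusedSectionVars false

namespace Vale.Agent.P011.H511.FF

open Vale.Agent.P011.H271 Vale.Agent.P011.H305 Vale.Agent.P011.H167.Cn
open Vale.Agent.P011.H63.FB (incF)
open Vale.Agent.P011.H872.FF

variable {k K D : Type} [Field k] [Field K] [StarRing K] [DivisionRing D] [StarRing D]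
  [Algebra k K] [Algebra k D] [Algebra K D] [IsScalarTower k K D] {d : kˣ} {s : K}

theorem sqF_star_sD (hS : SetF k K D d s) : star (algebraMap K D s) = -algebraMap K D s := by
  rw [star_algF hS, hS.star_s, map_neg]

/-- A square root of a central element is conjugate to its opposite. -/
theorem sqF_anti (hS : SetF k K D d s) {a : kˣ} {x : D} (hx : x * x = algebraMap k D a)
    (hxK : ∀ c : K, algebraMap K D c ≠ x) : ∃ z : D, z ≠ 0 ∧ z * x = -(x * z) := by
  have := hS.cen
  by_contra hcon
  push Not at hcon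
  have h1 : ∀ y : D, x * y = y * x := by
    intro y
    by_contra hy
    refine hcon (x * y - y * x) (sub_ne_zero.mpr hy) ?_
    rw [sub_mul, mul_sub, ← mul_assoc x x, hx, mul_assoc y x x, hx, Algebra.commutes, mul_assoc,
      neg_sub]
  have h4 : x ∈ Subalgebra.center K D := by
    rw [Subalgebra.mem_center_iff]
    exact fun b => (h1 b).symm
  have h5 := Algebra.IsCentral.out h4
  rw [Algebra.mem_bot] at h5
  obtain ⟨c, hc⟩ := h5
  exact hxK c hc

/-- There is an antisymmetric element which anticommutes with `t`. -/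
theorem sqF_skew (hS : SetF k K D d s) {a : kˣ} {t : D} (ht : t ∈ XaF D a)
    (htK : ∀ c : K, algebraMap K D c ≠ t) :
    ∃ j : D, j ≠ 0 ∧ star j = -j ∧ j * t = -(t * j) := by
  obtain ⟨z, hz0, hz⟩ := sqF_anti hS ht.2 htK
  have hzs : star z * t = -(t * star z) := by
    have h1 := congrArg star hz
    rw [star_mul, star_neg, star_mul, ht.1] at h1
    rw [h1, neg_neg]
  by_cases h : z - star z = 0
  · have h1 : star z = z := (sub_eq_zero.mp h).symm
    have hs0 : algebraMap K D s ≠ 0 := (_root_.map_ne_zero _).mpr hS.s_ne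
    refine ⟨algebraMap K D s * z, mul_ne_zero hs0 hz0, ?_, ?_⟩
    · rw [star_mul, h1, sqF_star_sD hS, mul_neg, ← Algebra.commutes]
    · rw [mul_assoc, hz, mul_neg, ← mul_assoc, ← mul_assoc, Algebra.commutes s t]
  · refine ⟨z - star z, h, ?_, ?_⟩
    · rw [star_sub, star_star, neg_sub]
    · rw [sub_mul, mul_sub, hz, hzs]
      abel

/-- If all squares are in `k`, then `w j⁻¹` is of the form `p + u s t`. -/
theorem rep_of_sqF (hS : SetF k K D d s) {a : kˣ} {t : D} (ht : t ∈ XaF D a)
    (hsq : ∀ w : D, star w = -w → w * t = -(t * w) → ∃ c : k, algebraMap k D c = w * w)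
    {j : D} (hj0 : j ≠ 0) (hj : star j = -j) (hjt : j * t = -(t * j))
    {w : D} (hw : star w = -w) (hwt : w * t = -(t * w)) :
    ∃ p u : k, w * j⁻¹ = algebraMap k D p + algebraMap k D u * (algebraMap K D s * t) := by
  have h2k : (2 : k) ≠ 0 := hS.two_ne
  -- the sum
  have hsum : ∀ v : D, star v = -v → v * t = -(t * v) →
      ∃ c : k, algebraMap k D c = v * j + j * v := by
    intro v hv hvt
    obtain ⟨c1, h1⟩ := hsq v hv hvt
    obtain ⟨c2, h2⟩ := hsq j hj hjt
    obtain ⟨c3, h3⟩ := hsq (v + j) (by rw [star_add, hv, hj]; abel)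
      (by rw [add_mul, mul_add, hvt, hjt]; abel)
    refine ⟨c3 - c1 - c2, ?_⟩
    rw [map_sub, map_sub, h3, h1, h2]
    noncomm_ring
  obtain ⟨i, hi⟩ : ∃ i : D, i = algebraMap K D s * t := ⟨_, rfl⟩
  have hσc : ∀ y : D, algebraMap K D s * y = y * algebraMap K D s :=
    fun y => Algebra.commutes s y
  have hii : i * i = algebraMap k D ((a * d : kˣ) : k) := by
    rw [hi, mul_assoc, ← mul_assoc t, ← hσc t, mul_assoc, ht.2, ← mul_assoc, ← map_mul, ← pow_two,
      hS.sq, ← IsScalarTower.algebraMap_apply, ← map_mul, Units.val_mul, mul_comm]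
  have his : star i = -i := by
    rw [hi, star_mul, ht.1, sqF_star_sD hS, mul_neg, ← hσc]
  have hanti : ∀ y : D, y * t = -(t * y) → i * y = -(y * i) := by
    intro y hy
    rw [hi, ← mul_assoc y, ← hσc y, mul_assoc, mul_assoc, hy, mul_neg, neg_neg]
  have hit : i * t = t * i := by
    rw [hi, mul_assoc, ← mul_assoc t, ← Algebra.commutes s t, mul_assoc]
  have hiw : i * w = -(w * i) := hanti w hwt
  have hij : i * j = -(j * i) := hanti j hjt
  have had0 : ((a * d : kˣ) : k) ≠ 0 := (a * d).ne_zero
  obtain ⟨c1, h1⟩ := hsum w hw hwt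
  obtain ⟨c2, h2⟩ := hsum (i * w) (by rw [star_mul, hw, his, neg_mul_neg, hiw, neg_neg])
    (by rw [mul_assoc, hwt, mul_neg, ← mul_assoc, hit, mul_assoc])
  obtain ⟨c, hc⟩ := hsq j hj hjt
  have hc0 : c ≠ 0 := by
    rintro rfl
    rw [map_zero] at hc
    exact mul_ne_zero hj0 hj0 hc.symm
  have hjinv : j⁻¹ = algebraMap k D c⁻¹ * j := by
    refine inv_eq_of_mul_eq_one_left ?_
    rw [mul_assoc, ← hc, ← map_mul, inv_mul_cancel₀ hc0, map_one]
  -- `i (w j - j w) = c2`
  have h3 : i * (w * j - j * w) = algebraMap k D c2 := by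
    rw [h2, mul_sub]
    have e1 : i * (j * w) = -(j * (i * w)) := by
      rw [← mul_assoc, hij, neg_mul, mul_assoc]
    rw [e1, sub_neg_eq_add, mul_assoc]
  have h4 : w * j - j * w = algebraMap k D (c2 * ((a * d : kˣ) : k)⁻¹) * i := by
    have e1 : i * (i * (w * j - j * w)) = i * algebraMap k D c2 := by rw [h3]
    rw [← mul_assoc, hii] at e1
    have e2 : algebraMap k D (((a * d : kˣ) : k)⁻¹) *
        (algebraMap k D ((a * d : kˣ) : k) * (w * j - j * w)) = w * j - j * w := by
      rw [← mul_assoc, ← map_mul, inv_mul_cancel₀ had0, map_one, one_mul]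
    rw [← e2, e1, ← Algebra.commutes c2 i, ← mul_assoc, ← map_mul, mul_comm c2]
  have h5 : (2 : D) * (w * j) = algebraMap k D c1 + algebraMap k D (c2 * ((a * d : kˣ) : k)⁻¹) * i := by
    rw [h1, ← h4]
    noncomm_ring
  have h6 : w * j = algebraMap k D (2⁻¹ : k) *
      (algebraMap k D c1 + algebraMap k D (c2 * ((a * d : kˣ) : k)⁻¹) * i) := by
    rw [← h5, ← mul_assoc]
    have e1 : algebraMap k D (2⁻¹ : k) * 2 = 1 := by
      rw [← map_ofNat (algebraMap k D) 2, ← map_mul, inv_mul_cancel₀ h2k, map_one]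
    rw [e1, one_mul]
  refine ⟨c⁻¹ * (2⁻¹ * c1), c⁻¹ * (2⁻¹ * (c2 * ((a * d : kˣ) : k)⁻¹)), ?_⟩
  rw [hjinv, ← mul_assoc, ← Algebra.commutes c⁻¹ w, mul_assoc, h6, ← hi]
  simp only [map_mul, mul_add, mul_assoc]

/-- **(B0)** Some antisymmetric element anticommuting with `t` has a square outside `k`. -/
theorem exists_sqF [GFF k] (hS : SetF k K D d s) {m : ℕ} (hdeg : finrank K D = (2 * m) ^ 2)
    (hm : 2 ≤ m) {a : kˣ} {t : D} (ht : t ∈ XaF D a) (ha : ¬ IsSquare (a : k))
    (had : ¬ IsSquare ((a * d : kˣ) : k)) :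
    ∃ w : D, star w = -w ∧ w * t = -(t * w) ∧ ∀ c : k, algebraMap k D c ≠ w * w := by
  by_contra hcon
  push Not at hcon
  have hsq : ∀ w : D, star w = -w → w * t = -(t * w) → ∃ c : k, algebraMap k D c = w * w := hcon
  have htK : ∀ c : K, algebraMap K D c ≠ t := Xa_ne hS ha ht
  obtain ⟨j, hj0, hj, hjt⟩ := sqF_skew hS ht htK
  obtain ⟨L, _, _, _, K', _, _, _, _, C, _, _, _, _, _, _, T, jc, hSC, hdC, h⟩ :=
    exists_isCentF hS ha had (m := m) hdeg ht
  have h2K' : (2 : K') ≠ 0 := two_neK hSC
  obtain ⟨σ, hσ⟩ : ∃ σ : D, σ = algebraMap K D s := ⟨_, rfl⟩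
  have hσc : ∀ y : D, σ * y = y * σ := fun y => by rw [hσ]; exact Algebra.commutes s y
  have hσs : star σ = -σ := by rw [hσ]; exact sqF_star_sD hS
  have hσ2 : σ * σ = algebraMap k D (d : k) := by
    rw [hσ, ← map_mul, ← pow_two, hS.sq, ← IsScalarTower.algebraMap_apply]
  -- every element of the centralizer is in `k(s, t)`
  have key : ∀ x : D, x * t = t * x → ∃ p u q v : k,
      2 * x = algebraMap k D p + algebraMap k D u * (σ * t) + σ⁻¹ *
        (algebraMap k D q + algebraMap k D v * (σ * t)) := by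
    intro x hx
    have hxs : star x * t = t * star x := by
      have h1 := congrArg star hx
      rw [star_mul, star_mul, ht.1] at h1
      exact h1.symm
    have hgen : ∀ y : D, y * t = t * y → ∃ p u : k,
        y + j * star y * j⁻¹ = algebraMap k D p + algebraMap k D u * (σ * t) := by
      intro y hy
      have hys : star y * t = t * star y := by
        have h1 := congrArg star hy
        rw [star_mul, star_mul, ht.1] at h1
        exact h1.symm
      obtain ⟨p, u, hpu⟩ := rep_of_sqF hS ht hsq hj0 hj hjt (w := y * j + j * star y)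
        (by rw [star_add, star_mul, star_mul, star_star, hj]; noncomm_ring)
        (by
          have e1 : y * j * t = -(t * (y * j)) := by
            rw [mul_assoc, hjt, mul_neg, ← mul_assoc, hy, mul_assoc]
          have e2 : j * star y * t = -(t * (j * star y)) := by
            rw [mul_assoc, hys, ← mul_assoc, hjt, neg_mul, mul_assoc]
          rw [add_mul, mul_add, e1, e2]
          abel)
      refine ⟨p, u, ?_⟩
      rw [hσ, ← hpu, add_mul, mul_inv_cancel_right₀ hj0]
    obtain ⟨p, u, h1⟩ := hgen x hx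
    obtain ⟨q, v, h2⟩ := hgen (σ * x) (by rw [mul_assoc, hx, ← mul_assoc, hσc t, mul_assoc])
    refine ⟨p, u, q, v, ?_⟩
    have hσ0 : σ ≠ 0 := by
      intro h0
      rw [h0, mul_zero] at hσ2
      exact d.ne_zero ((algebraMap k D).injective (by rw [← hσ2, map_zero]))
    have h3 : σ * x + j * star (σ * x) * j⁻¹ = σ * (x - j * star x * j⁻¹) := by
      rw [star_mul, hσs, mul_sub, mul_neg, mul_neg, neg_mul, ← mul_assoc j, ← hσc (j * star x),
        mul_assoc σ, ← sub_eq_add_neg]
    rw [h3] at h2
    rw [← h1, ← h2, inv_mul_cancel_left₀ hσ0]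
    noncomm_ring
  -- so the centralizer is one dimensional over its centre
  have hone : ∀ x : C, ∃ c : K', algebraMap K' C c = x := by
    intro x
    obtain ⟨p, u, q, v, hx⟩ := key (jc x) ((h.range _).mpr ⟨x, rfl⟩)
    have i4 := hSC.cen
    have hT : jc (algebraMap K' C (algebraMap L K' T)) = t := by
      rw [← IsScalarTower.algebraMap_apply L K' C, h.jT]
    have hk : ∀ c : k, jc (algebraMap K' C (algebraMap K K' (algebraMap k K c))) =
        algebraMap k D c := fun c => by
      rw [h.jK, ← IsScalarTower.algebraMap_apply k K D]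
    have hs' : jc (algebraMap K' C (algebraMap K K' s)) = σ := by rw [h.jK, hσ]
    have h2D : jc (algebraMap K' C 2⁻¹) * 2 = 1 := by
      rw [← map_ofNat jc 2, ← map_mul, ← map_ofNat (algebraMap K' C) 2, ← map_mul,
        inv_mul_cancel₀ h2K', map_one, map_one]
    refine ⟨2⁻¹ * (algebraMap K K' (algebraMap k K p) + algebraMap K K' (algebraMap k K u) *
      (algebraMap K K' s * algebraMap L K' T) + (algebraMap K K' s)⁻¹ *
        (algebraMap K K' (algebraMap k K q) + algebraMap K K' (algebraMap k K v) *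
          (algebraMap K K' s * algebraMap L K' T))), ?_⟩
    apply h.inj
    have e1 : jc (algebraMap K' C (algebraMap K K' (algebraMap k K p) +
        algebraMap K K' (algebraMap k K u) * (algebraMap K K' s * algebraMap L K' T) +
        (algebraMap K K' s)⁻¹ * (algebraMap K K' (algebraMap k K q) +
        algebraMap K K' (algebraMap k K v) * (algebraMap K K' s * algebraMap L K' T)))) =
        2 * jc x := by
      rw [hx]
      simp only [map_mul, map_add, map_inv₀, hT, hk, hs']
    rw [map_mul, map_mul, e1, ← mul_assoc, h2D, one_mul]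
  have h1 : finrank K' C = 1 := by
    refine finrank_eq_one (1 : C) one_ne_zero fun x => ?_
    obtain ⟨c, hc⟩ := hone x
    exact ⟨c, by rw [Algebra.smul_def, mul_one, hc]⟩
  rw [hdC] at h1
  nlinarith

end Vale.Agent.P011.H511.FF
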