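import Vale.Agent.P011.H511.Ab1
import Vale.Agent.P011.H511.SymF
import Vale.Agent.P011.H424.Dbl.MFF
import Vale.Agent.P011.H738.Atl.Fin
import Vale.Agent.P011.H974.DblF
import Vale.Agent.P011.H872.FF.AbThreeF

/-!
# The doubling step over function fields: the elements of the centralizer

The elements close to one of the centralizer of a symmetric square root belong to every normal
subgroup of finite index which contains the norm one elements of quaternion algebras, in every
degree, from good skew elements and the statement in half the degree.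
-/

open Module Polynomial

set_option linter.unusedSectionVars false

namespace Vale.Agent.P011.H511.Ab

open Vale.Agent.P011.H738 Vale.Agent.P011.H271 Vale.Agent.P011.H271.S3
open Vale.Agent.P011.H305 Vale.Agent.P011.H182
open Vale.Agent.P011.H511.FF (exists_lb exists_below_ab av_of_ab above_finite ab_lt_iff)
open Vale.Agent.P011.H973.PF (Av')
open Vale.Agent.P011.H738.Atl (NrF GF WM)
open Vale.Agent.P011.H961.R5 (NN)
open Vale.Agent.P011.H872.FF (XaF IsCentF kk om)
open Vale.Agent.P011.W (HasNrd)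
open Vale.Agent.P011.H63.FB (incF LSF badF)
open Vale.Agent.P011.Arith (NF)
open Vale.Agent.P011.H976.FF (QFrF QEltF)
open Vale.Agent.P011.H704.HQ (HQ1F)
open Vale.Agent.P011.H698 (NearA Sm)
open Vale.Agent.P011.H732D (AbAtF ImF)

/-- **Good skew elements**: the minimal polynomial of the square splits at given places. -/
def GoodE (m : ℕ) : Prop :=
  ∀ (k K D : Type) [Field k] [GFF k] [Field K] [StarRing K] [DivisionRing D] [StarRing D]
    [Algebra k K] [Algebra k D] [Algebra K D] [IsScalarTower k K D] (d : kˣ) (s : K)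
    (a : kˣ) (t : D), SetF k K D d s → finrank K D = (2 * m) ^ 2 → t ∈ XaF D a →
    ¬ IsSquare (a : k) → ¬ IsSquare ((a * d : kˣ) : k) →
    ∃ S : Set (Place k), S.Finite ∧ ∀ V : Set (Place k), V.Finite → Disjoint V S →
      ∃ j : D, j ≠ 0 ∧ star j = -j ∧ j * t = -(t * j) ∧ (minpoly k (j * j)).natDegree = m ∧
        (minpoly k (j * j)).Separable ∧
        (∀ v ∈ V, ((minpoly k (j * j)).map (algebraMap k v.comp)).Splits) ∧
        ∀ (F : Type) [Field F] [GFF F] [Algebra k F] (β : Fˣ),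
          Polynomial.aeval (β : F) (minpoly k (j * j)) = 0 →
          ∀ v ∈ V, ∀ ω : Place F, Ab ω v → β ∈ NF (incF k F (a * d)) ⊔ LSF ω

/-- A separable generator gives a separable extension. -/
theorem sep_of_gen {P M : Type} [Field P] [Field M] [Algebra P M] [Algebra.IsAlgebraic P M]
    {θ : M} (hadj : Algebra.adjoin P {θ} = ⊤) (hs : (minpoly P θ).Separable) :
    FiniteDimensional P M ∧ Algebra.IsSeparable P M := by
  have h1 : IntermediateField.adjoin P {θ} = ⊤ :=
    IntermediateField.adjoin_eq_top_of_algebra _ _ hadj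
  have hint : IsIntegral P θ := Algebra.IsIntegral.isIntegral θ
  have h2 : FiniteDimensional P (IntermediateField.adjoin P {θ}) :=
    IntermediateField.adjoin.finiteDimensional hint
  have h3 : Algebra.IsSeparable P (IntermediateField.adjoin P {θ}) :=
    (IntermediateField.isSeparable_adjoin_simple_iff_isSeparable P M).mpr hs
  rw [h1] at h2 h3
  exact ⟨Module.Finite.equiv (IntermediateField.topEquiv (F := P) (E := M)).toLinearEquiv,
    AlgEquiv.Algebra.isSeparable (IntermediateField.topEquiv (F := P) (E := M))⟩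

section main

variable {k K D L K' C : Type} [Field k] [Field K] [StarRing K]
    [DivisionRing D] [StarRing D] [Algebra k K] [Algebra k D] [Algebra K D] [IsScalarTower k K D]
    [Field L] [Algebra k L] [Field K'] [StarRing K']
    [Algebra K K'] [DivisionRing C] [StarRing C] [Algebra L K'] [Algebra L C] [Algebra K' C]
    [IsScalarTower L K' C] {d : kˣ} {s : K} {t : D} {a : kˣ} {T : L} {jC : C →+* D}

/-- **The good fields.** -/
theorem exists_GF [GFF k] {m : ℕ} (hGE : GoodE m) (hS : SetF k K D d s)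
    (hdeg : finrank K D = (2 * m) ^ 2)
    (hSC : SetF L K' C (incF k L d) (algebraMap K K' s)) (h : IsCentF k K D L K' C t a T jC)
    (hdC : finrank K' C = m ^ 2) (ht : t ∈ XaF D a) (ha : ¬ IsSquare (a : k))
    (had : ¬ IsSquare ((a * d : kˣ) : k)) {P : Type} [Field P] [GFF P] [Algebra k P]
    [FiniteDimensional k P] [Algebra.IsSeparable k P] [Algebra P K'] {I : P}
    (hBk : ∀ c : k, algebraMap P K' (algebraMap k P c) = kk k K K' c)
    (hBI : algebraMap P K' I = om K' s T)
    (hB : ∀ b : P, ∃ p u : k, b = algebraMap k P p + algebraMap k P u * I)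
    {N : ℕ} {B : Basis (Fin N) k D} {n : Place k → D → ℝ} {CC : Place k → ℝ}
    (hn : ∀ v, NN B v (n v) (CC v)) {Q : Set D} {T0 : Finset (Place k)} {ε0 : ℝ} (hε0 : 0 < ε0)
    (hQ : HQ1F k B T0 ε0 Q) {S0 : Set (Place k)} (hS0 : S0.Finite) {ε : ℝ} (hε : 0 < ε)
    {W : Subgroup Pˣ} (hW : ∀ b : Pˣ, (∃ y : C, y * star y = 1 ∧
      HasNrd K' m y (algebraMap P K' b * (star (algebraMap P K' b))⁻¹) ∧ jC y ∈ Q ∧
      ∀ v ∈ S0, n v (jC y - 1) < ε) → b ∈ W) :
    ∃ S : Set (Place k), S.Finite ∧ GF S W := by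
  classical
  have i3 := hSC.fin
  obtain ⟨Sg, hSg, hgood⟩ := hGE k K D d s a t hS hdeg ht ha had
  refine ⟨Sg ∪ (S0 ∪ T0), hSg.union (hS0.union T0.finite_toSet), ?_⟩
  intro V hV hVS
  obtain ⟨j, hj0, hjs, hjt, hdj, hsep, hspl, hram⟩ :=
    hgood V hV (hVS.mono_right Set.subset_union_left)
  have hjt2 : j * j * t = t * (j * j) := by
    rw [mul_assoc, hjt, mul_neg, ← mul_assoc, hjt, neg_mul, neg_neg, mul_assoc]
  obtain ⟨γ, hγ⟩ := (h.range (j * j)).mp hjt2
  obtain ⟨hint, hmp, hdg⟩ := minpoly_eq hS hSC h ht hj0 hjs hjt hγ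
  have hdγ : (minpoly K' γ).natDegree = m := hdg.trans hdj
  obtain ⟨F, _, _, _, _, ι, β, M, _, _, _, _, θ, ψ, τ, φ, fr, hψB, hψθ, hadj, hnrd, hτ, hφ, hu⟩ :=
    H424.Dbl.exists_MFF hS hSC h hdC ht hBk hBI hB hj0 hjs hjt hdγ hγ
  let _ : Algebra k M := ((algebraMap P M).comp (algebraMap k P)).toAlgebra
  have tow : IsScalarTower k P M := IsScalarTower.of_algebraMap_eq fun _ => rfl
  have hψk : ∀ c : k, jC (ψ (algebraMap k M c)) = algebraMap k D c := by
    intro c
    change jC (ψ (algebraMap P M (algebraMap k P c))) = _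
    rw [hψB, hBk, kk, RingHom.comp_apply, h.jK, ← IsScalarTower.algebraMap_apply]
  let φM : M →ₐ[k] D := { jC.comp ψ with commutes' := hψk }
  have hφM : ∀ y, φM y = jC (ψ y) := fun _ => rfl
  have hφθ : φM θ = j * j := by rw [hφM, hψθ, hγ]
  have hmθ : minpoly k θ = minpoly k (j * j) := by
    rw [← hφθ, minpoly.algHom_eq φM φM.injective θ]
  have hsθ : (minpoly P θ).Separable := by
    have h1 : minpoly P θ ∣ (minpoly k θ).map (algebraMap k P) :=
      minpoly.dvd_map_of_isScalarTower k P θ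
    refine Separable.of_dvd ?_ h1
    rw [hmθ]
    exact hsep.map
  obtain ⟨fPM, sPM⟩ := sep_of_gen hadj hsθ
  have fkM : FiniteDimensional k M := FiniteDimensional.trans k P M
  have skM : Algebra.IsSeparable k M := Algebra.IsSeparable.trans k P M
  -- the ramified places
  have h2F : (2 : F) ≠ 0 := by
    have h2 := hS.two_ne
    rw [← map_ofNat (algebraMap k F) 2]
    exact (_root_.map_ne_zero _).mpr h2
  have hbf : (badF (incF k F (a * d)) β).Finite := H279.RB.badF_finite h2F _ _
  obtain ⟨S2, hS2⟩ : ∃ S2 : Set (Place k), S2 = {v | ∃ ω ∈ badF (incF k F (a * d)) β, Ab ω v} :=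
    ⟨_, rfl⟩
  have hS2f : S2.Finite := by
    rw [hS2]
    exact finite_below hbf
  have hιβ : ι (β : F) = j * j := fr.jj.symm
  have hβ0 : Polynomial.aeval (β : F) (minpoly k (j * j)) = 0 := by
    have h1 : ι (Polynomial.aeval (β : F) (minpoly k (j * j))) = 0 := by
      rw [← aeval_algHom_apply, hιβ, minpoly.aeval]
    exact (map_eq_zero ι).mp h1
  have hVS2 : Disjoint V S2 := by
    rw [Set.disjoint_left]
    intro v hv hv2
    rw [hS2] at hv2
    obtain ⟨ω, hω, hωv⟩ := hv2
    exact hω (hram F β hβ0 v hv ω hωv)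
  obtain ⟨S, hSdef⟩ : ∃ S : Set (Place k), S = Sg ∪ (S0 ∪ T0) ∪ S2 := ⟨_, rfl⟩
  have hSf : S.Finite := by
    rw [hSdef]
    exact (hSg.union (hS0.union T0.finite_toSet)).union hS2f
  -- the radii
  have hC0 : ∀ v, 0 < CC v := fun v => (hn v).C0
  have hC1 : ∀ v, 1 ≤ CC v := fun v => (hn v).C1
  choose c hc0 _ hc1 using fun v : Place k => H74.Odd.exists_small v one_pos
  have hcpos : ∀ v : Place k, 0 < v.abv (c v) := fun v => v.abv.pos (hc0 v)
  obtain ⟨r, hr⟩ : ∃ r : Place k → ℝ, r = fun v => min (min ε ε0) (v.abv (c v) / CC v) := ⟨_, rfl⟩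
  have hr0 : ∀ v, 0 < r v := fun v => by
    rw [hr]
    exact lt_min (lt_min hε hε0) (div_pos (hcpos v) (hC0 v))
  have hn1 : ∀ v, 0 < n v 1 := fun v => one_pos.trans_le (hn v).one_le
  obtain ⟨η, hη⟩ : ∃ η : Place k → ℝ, η = fun v => min 1 (r v / n v 1) := ⟨_, rfl⟩
  have hη0 : ∀ v, 0 < η v := fun v => by
    rw [hη]
    exact lt_min one_pos (div_pos (hr0 v) (hn1 v))
  have hη1 : ∀ v, η v ≤ 1 := fun v => by
    rw [hη]
    exact min_le_left _ _
  have hηr : ∀ v, η v * n v 1 ≤ r v := fun v => by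
    have h1 : η v ≤ r v / n v 1 := by
      rw [hη]
      exact min_le_right _ _
    exact (le_div_iff₀ (hn1 v)).mp h1
  obtain ⟨ε', hε', hnear⟩ := exists_near (M := M) hn φM.toLinearMap (map_one φM) hSf
    (η := fun v => η v / CC v) fun v => div_pos (hη0 v) (hC0 v)
  refine ⟨M, inferInstance, inferInstance, inferInstance, θ, S2, ε', tow, fPM, sPM, hadj, ?_,
    hS2f, hVS2, hε', ?_⟩
  · intro v hv
    rw [hmθ]
    exact hspl v hv
  intro y hy0 hyS
  rw [← hSdef] at hyS
  have hψy0 : ψ y ≠ 0 := (_root_.map_ne_zero ψ).mpr hy0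
  have hb0 : Algebra.norm P y ≠ 0 := Algebra.norm_ne_zero_iff.mpr hy0
  refine ⟨Units.mk0 _ hb0, hW _ ?_, rfl⟩
  -- the element
  obtain ⟨u, huy⟩ : ∃ u : M, u = y * (τ y)⁻¹ := ⟨_, rfl⟩
  have hττ : τ (τ y) = y := by
    apply ψ.injective
    rw [hτ, hτ, star_star]
  have hτy0 : τ y ≠ 0 := (map_ne_zero_iff τ τ.injective).mpr hy0
  have huτ : u * τ u = 1 := by
    rw [huy, map_mul, map_inv₀, hττ]
    field_simp
  have hψu : ψ u = ψ y * (star (ψ y))⁻¹ := by
    rw [huy, map_mul, map_inv₀, hτ]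
  obtain ⟨U, hU⟩ : ∃ U : D, U = jC (ψ u) := ⟨_, rfl⟩
  have hU1 : U = jC (ψ y) * (star (jC (ψ y)))⁻¹ := by
    rw [hU, hψu, map_mul, map_inv₀, h.star]
  have hUn : ∀ v ∈ S, n v (U - 1) < r v := by
    intro v hv
    have h1 : n v (jC (ψ y) - 1) < η v / CC v := hnear y hyS v hv
    rw [lt_div_iff₀ (hC0 v)] at h1
    have h2 := (hn v).nn (jC (ψ y) - 1)
    have h3 : n v (jC (ψ y) - 1) < η v := by
      have := hC1 v
      nlinarith
    have h4 : n v (star (jC (ψ y)) - 1) < η v := by
      have h5 := (hn v).str (jC (ψ y) - 1)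
      rw [star_sub, star_one] at h5
      linarith
    have h6 := nn_quot (hn v) (hη1 v) h3 h4
    rw [← hU1] at h6
    exact h6.trans_le (hηr v)
  have hrε : ∀ v, r v ≤ ε := fun v => by
    rw [hr]
    exact (min_le_left _ _).trans (min_le_left _ _)
  have hrε0 : ∀ v, r v ≤ ε0 := fun v => by
    rw [hr]
    exact (min_le_left _ _).trans (min_le_right _ _)
  have hrc : ∀ v : Place k, CC v * r v ≤ v.abv (c v) := fun v => by
    have h1 : r v ≤ v.abv (c v) / CC v := by
      rw [hr]
      exact min_le_right _ _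
    rw [mul_comm]
    exact (le_div_iff₀ (hC0 v)).mp h1
  have hss : ∀ c : K', star (algebraMap K' C c) = algebraMap K' C (star c) :=
    fun c => H872.FF.star_algF hSC c
  refine ⟨ψ u, ?_, ?_, ?_, ?_⟩
  · rw [← hτ, ← map_mul, huτ, map_one]
  · rw [hψu]
    have h1 : HasNrd K' m (star (ψ y)) (star (algebraMap P K' (Algebra.norm P y))) :=
      HasNrd.star hss (hnrd y)
    have h2 : star (ψ y) ≠ 0 := star_ne_zero.mpr hψy0
    exact (hnrd y).mul (h1.inv h2)
  · obtain ⟨p0, p1, hel, -⟩ := hu u huτ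
    refine hQ F ι (incF k F (a * d)) β _ j p0 p1 0 0 _ hel (fun ω hω => ?_) fun v hv l => ?_
    · obtain ⟨v, hωv⟩ := exists_below_ab (k := k) ω
      have hvS : v ∈ S := by
        rw [hSdef, hS2]
        exact Or.inr ⟨ω, hω, hωv⟩
      have e0 := hel.eq
      rw [map_zero, zero_mul, zero_mul, add_zero, add_zero, ← hU] at e0
      have e1 : star U = ι p0 - ι p1 * (algebraMap K D s * t) := by
        rw [e0, star_add, fr.sym, star_mul, fr.sym, fr.si, neg_mul, ← fr.ci, sub_eq_add_neg]
      have e2 : ι (2 - 2 * p0) = (1 - U) + star (1 - U) := by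
        rw [star_sub, star_one, e1, e0, map_sub, map_mul, map_ofNat, two_mul]
        have e3 : (2 : D) = 1 + 1 := one_add_one_eq_two.symm
        rw [e3]
        abel
      have h1 : n v (1 - U) < r v := by
        rw [(hn v).sub_comm]
        exact hUn v hvS
      have h2 : n v (star (1 - U)) ≤ CC v * r v :=
        ((hn v).str _).trans (mul_le_mul_of_nonneg_left h1.le (hC0 v).le)
      have h3 : n v (ι (2 - 2 * p0)) ≤ v.abv (c v) := by
        rw [e2]
        refine ((hn v).add_le (a := CC v * r v) ?_ h2).trans (hrc v)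
        refine h1.le.trans ?_
        have := hC1 v
        have := hr0 v
        nlinarith
      obtain ⟨e, he0, he⟩ := hωv
      refine ((hn v).sub_field he0 he ι (hc0 v) h3).trans_lt ?_
      rw [he]
      exact Real.rpow_lt_one (v.abv.nonneg _) (hc1 v) he0
    · rw [← hU]
      have hvS : v ∈ S := by
        rw [hSdef]
        exact Or.inl (Or.inr (Or.inr hv))
      exact ((hn v).lo _ l).trans_lt ((hUn v hvS).trans_le (hrε0 v))
  · intro v hv
    rw [← hU]
    have hvS : v ∈ S := by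
      rw [hSdef]
      exact Or.inl (Or.inr (Or.inl hv))
    exact (hUn v hvS).trans_le (hrε v)

/-- The field generated by `s t`. -/
theorem exists_P [GFF k] (hS : SetF k K D d s) (h : IsCentF k K D L K' C t a T jC) :
    ∃ (P : Type) (_ : Field P) (_ : GFF P) (_ : Algebra k P) (_ : FiniteDimensional k P)
      (_ : Algebra.IsSeparable k P) (_ : Algebra P K') (I : P),
      (∀ c : k, algebraMap P K' (algebraMap k P c) = kk k K K' c) ∧
      algebraMap P K' I = om K' s T ∧
      ∀ b : P, ∃ p u : k, b = algebraMap k P p + algebraMap k P u * I := by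
  classical
  have h2 := hS.two_ne
  have h2K : (2 : K) ≠ 0 := H872.FF.two_neK hS
  let _ : Algebra k K' := (kk k K K').toAlgebra
  have hkK : ∀ c : k, algebraMap k K' c = kk k K K' c := fun _ => rfl
  have tw : IsScalarTower k K K' := IsScalarTower.of_algebraMap_eq fun _ => rfl
  have f1 : FiniteDimensional k K := FiniteDimensional.of_finrank_pos (by rw [hS.rank]; norm_num)
  have f2 : FiniteDimensional K K' := FiniteDimensional.of_finrank_pos (by rw [h.rkK]; norm_num)
  have f3 : FiniteDimensional k K' := FiniteDimensional.trans k K K'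
  have s1 : Algebra.IsSeparable k K :=
    H511.FF.sep_of_deg Nat.prime_two (by exact_mod_cast h2) hS.rank
  have s2 : Algebra.IsSeparable K K' :=
    H511.FF.sep_of_deg Nat.prime_two (by exact_mod_cast h2K) h.rkK
  have s3 : Algebra.IsSeparable k K' := Algebra.IsSeparable.trans k K K'
  obtain ⟨P, _, _, j, I, hI, hP⟩ := H424.Dbl.exists_genF (F := k) (C := K') (om K' s T)
  have f4 : FiniteDimensional k P := FiniteDimensional.of_injective j.toLinearMap j.injective
  have g : GFF P := Hey.H63.gff_of_finite (k := k)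
  let _ : Algebra P K' := j.toRingHom.toAlgebra
  have hPK : ∀ b : P, algebraMap P K' b = j b := fun _ => rfl
  have tw2 : IsScalarTower k P K' := IsScalarTower.of_algebraMap_eq fun c => by
    rw [hPK, AlgHom.commutes]
  have s4 : Algebra.IsSeparable k P := Algebra.isSeparable_tower_bot_of_isSeparable k P K'
  have hII : I * I = algebraMap k P ((a * d : kˣ) : k) := by
    apply (algebraMap P K').injective
    rw [map_mul, hPK, hI, hPK, AlgHom.commutes, hkK, H872.FF.om_sq hS h, Units.val_mul]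
  have hpow : ∀ n : ℕ, ∃ p u : k, I ^ n = algebraMap k P p + algebraMap k P u * I := by
    intro n
    induction n with
    | zero => exact ⟨1, 0, by rw [pow_zero, map_one, map_zero, zero_mul, add_zero]⟩
    | succ n ih =>
      obtain ⟨p, u, hpu⟩ := ih
      refine ⟨u * ((a * d : kˣ) : k), p, ?_⟩
      rw [pow_succ, hpu, add_mul, mul_assoc, hII, map_mul]
      ring
  refine ⟨P, inferInstance, g, inferInstance, f4, s4, inferInstance, I, fun c => ?_, ?_, ?_⟩
  · rw [hPK, AlgHom.commutes, hkK]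
  · rw [hPK, hI]
  · intro b
    obtain ⟨q, rfl⟩ := hP b
    induction q using Polynomial.induction_on' with
    | add p q hp hq =>
      obtain ⟨p1, u1, h1⟩ := hp
      obtain ⟨p2, u2, h2⟩ := hq
      refine ⟨p1 + p2, u1 + u2, ?_⟩
      rw [map_add, h1, h2, map_add, map_add]
      ring
    | monomial n c =>
      obtain ⟨p, u, hpu⟩ := hpow n
      refine ⟨c * p, c * u, ?_⟩
      rw [aeval_monomial, hpu, map_mul, map_mul]
      ring

/-- **The element of the subgroup** of given reduced norm. -/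
theorem exists_y [GFF k] {m : ℕ} (hGE : GoodE m) (hS : SetF k K D d s)
    (hdeg : finrank K D = (2 * m) ^ 2)
    (hSC : SetF L K' C (incF k L d) (algebraMap K K' s)) (h : IsCentF k K D L K' C t a T jC)
    (hdC : finrank K' C = m ^ 2) (ht : t ∈ XaF D a) (ha : ¬ IsSquare (a : k))
    (had : ¬ IsSquare ((a * d : kˣ) : k)) {N : ℕ} (B : Basis (Fin N) k D) {Q : Set D}
    (h1Q : (1 : D) ∈ Q) (hQm : ∀ x ∈ Q, ∀ y ∈ Q, x * y ∈ Q) (hQi : ∀ x ∈ Q, x⁻¹ ∈ Q)
    {T0 : Finset (Place k)} {ε0 : ℝ} (hε0 : 0 < ε0) (hQ : HQ1F k B T0 ε0 Q) {ε : ℝ} (hε : 0 < ε)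
    (S0 : Finset (Place k)) : ∃ S : Finset (Place k), ∃ η : ℝ, 0 < η ∧
      ∀ (x : C) (p u : k), x * star x = 1 →
        HasNrd K' m x (kk k K K' p + kk k K K' u * om K' s T) →
        p ^ 2 - (a * d : k) * u ^ 2 = 1 → (∀ v ∈ S, Sm B v η (jC x - 1)) →
        ∃ y : C, y * star y = 1 ∧ HasNrd K' m y (kk k K K' p + kk k K K' u * om K' s T) ∧
          jC y ∈ Q ∧ ∀ v ∈ S0, Sm B v ε (jC y - 1) := by
  classical
  have hkinf : Infinite k := Vale.Agent.P011.Hey.gff_infinite k
  have hKinf : Infinite K := Infinite.of_injective _ (algebraMap k K).injective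
  obtain ⟨P, _, _, _, _, _, _, I, hBk, hBI, hB⟩ := exists_P hS h
  obtain ⟨n, CC, hn⟩ := H961.R5.exists_NN (fun c x => hS.star_smulk c x) B
  obtain ⟨W, hW⟩ := exists_W (P := P) (K' := K') (jC := jC) m hn h1Q hQm hQi
    (S0 : Set (Place k)) (ε := min ε 1) (lt_min hε one_pos) (min_le_right _ _)
  obtain ⟨S, hSf, hGF⟩ := exists_GF hGE hS hdeg hSC h hdC ht ha had hBk hBI hB hn hε0 hQ
    S0.finite_toSet (lt_min hε one_pos) fun b hb => (hW b).mpr hb
  obtain ⟨S', -, hS'f, ε', hε', hW'⟩ := Atl.descent_all hSf hGF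
  obtain ⟨v1⟩ := Hey.nonempty_place k
  obtain ⟨w1, hw1⟩ := H511.FF.exists_above_ab (K := P) v1
  obtain ⟨S'', hS''⟩ : ∃ S'' : Set (Place k), S'' = S' ∪ {v1} := ⟨_, rfl⟩
  have hS''f : S''.Finite := by
    rw [hS'']
    exact hS'f.union (Set.finite_singleton v1)
  obtain ⟨e, he⟩ : ∃ e : ℝ, e = min ε' 1 := ⟨_, rfl⟩
  have he0 : 0 < e := by
    rw [he]
    exact lt_min hε' one_pos
  -- the radii
  choose bl hbl using fun w : Place P => exists_below_ab (k := k) w
  have hI0 : ∀ w : Place P, 0 < 1 + w.abv I := fun w => by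
    have := w.abv.nonneg I
    linarith
  choose r hr0 hr using fun w : Place P => Atl.ab_small (hbl w) (div_pos he0 (hI0 w))
  have hf : {w : Place P | ∃ v ∈ S'', Av' w v}.Finite := above_finite hS''f
  obtain ⟨μ, hμ0, hμ⟩ := exists_lb hf.toFinset r fun w _ => hr0 w
  choose η hη0 hη using fun v : Place k => H167.Cn.pu_near hS hSC h hdC B v.abv hμ0
  obtain ⟨η0, hη00, hη0'⟩ := H167.Cn.exists_min_pos hS''f (fun v => η v / (N + 1))
    fun v => div_pos (hη0 v) (by positivity)
  refine ⟨hS''f.toFinset, η0, hη00, fun x p u _ hN hpu hnear => ?_⟩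
  have hpc : ∀ v ∈ S'', v.abv (p - 1) < μ ∧ v.abv u < μ := fun v hv =>
    hη v x p u hN (H872.FF.na_of_small B (hη0 v) fun i =>
      (hnear v (hS''f.mem_toFinset.mpr hv) i).trans_le (hη0' v hv))
  have h2 := hS.two_ne
  have h2P : (2 : P) ≠ 0 := by
    rw [← map_ofNat (algebraMap k P) 2]
    exact (_root_.map_ne_zero _).mpr h2
  obtain ⟨b, hb⟩ : ∃ b : P, b = 2⁻¹ * (1 + (algebraMap k P p + algebraMap k P u * I)) :=
    ⟨_, rfl⟩
  have hb1 : b - 1 = 2⁻¹ * (algebraMap k P (p - 1) + algebraMap k P u * I) := by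
    rw [hb, map_sub, map_one]
    field_simp
    ring
  have hbn : NrF S'' e b := by
    intro v hv w hw
    have e1 : (bl w) = v := (av_of_ab (hbl w)).unique (av_of_ab hw)
    have e2 : μ ≤ r w := hμ w (hf.mem_toFinset.2 ⟨v, hv, av_of_ab hw⟩)
    have e3 := hr w (p - 1) (by
      rw [e1]
      exact (hpc v hv).1.trans_le e2)
    have e4 := hr w u (by
      rw [e1]
      exact (hpc v hv).2.trans_le e2)
    have e5 := w.abv.nonneg I
    have e6 := w.abv.nonneg (algebraMap k P u)
    rw [lt_div_iff₀ (hI0 w)] at e3 e4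
    have e7 := w.abv.nonneg (algebraMap k P (p - 1))
    rw [hb1, map_mul, map_inv₀, H63.FB.abv_two w h2P, inv_one, one_mul]
    refine (w.nonarch _ _).trans_lt (max_lt ?_ ?_)
    · nlinarith
    · rw [map_mul]
      rcases eq_or_lt_of_le e6 with e8 | e8
      · rw [← e8, zero_mul]
        exact he0
      · nlinarith
  have hb0 : b ≠ 0 := by
    rintro h0
    have e1 := hbn v1 (by rw [hS'']; exact Or.inr rfl) w1 hw1
    rw [h0, zero_sub, AbsoluteValue.map_neg, map_one, he] at e1
    exact absurd (e1.trans_le (min_le_right _ _)) (lt_irrefl _)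
  have hbW : Units.mk0 b hb0 ∈ W := by
    refine hW' _ ?_
    rw [Units.val_mk0]
    exact hbn.mono (by rw [hS'']; exact Set.subset_union_left) (by rw [he]; exact min_le_left _ _)
  obtain ⟨y, hy1, hy2, hy3, hy4⟩ := (hW _).mp hbW
  refine ⟨y, hy1, ?_, hy3, fun v hv i => ?_⟩
  · obtain ⟨ν, hν⟩ : ∃ ν : K', ν = kk k K K' p + kk k K K' u * om K' s T := ⟨_, rfl⟩
    have hνs : ν * star ν = 1 := by
      rw [hν]
      exact H872.FF.nu_starF hS hSC h ht hpu
    have e1 : algebraMap P K' b = 2⁻¹ * (1 + ν) := by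
      rw [hb, map_mul, map_inv₀, map_ofNat, map_add, map_one, map_add, map_mul, hBk, hBk, hBI, hν]
    have e2 : star (algebraMap P K' b) = 2⁻¹ * (1 + star ν) := by
      rw [e1, star_mul', star_inv₀, star_add, star_one, star_ofNat]
    have e3 : star (algebraMap P K' b) ≠ 0 :=
      star_ne_zero.mpr ((_root_.map_ne_zero _).mpr hb0)
    have e4 : algebraMap P K' b * (star (algebraMap P K' b))⁻¹ = ν := by
      rw [← div_eq_mul_inv, div_eq_iff e3, e2, e1]
      linear_combination (-(2⁻¹ : K')) * hνs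
    rw [Units.val_mk0, e4] at hy2
    rwa [← hν]
  · exact ((hn v).lo _ i).trans_lt ((hy4 v hv).trans_le (min_le_left _ _))

end main

/-- **The elements of the centralizers of the symmetric square roots over function fields**, in
every degree, from good skew elements and the statement in half the degree. -/
theorem abF_of {m : ℕ} (hGE : GoodE m) (hMP : H974.R8.MPF m) : H974.R8.AbF m := by
  intro k K D _ _ _ _ _ _ _ _ _ _ d s hS hdeg a t ht ha had Ω _ _ f N B Q hQn hi T0 ε0 hε0 hQ
  classical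
  obtain ⟨L, _, _, _, K', _, _, _, _, C, _, _, _, _, _, _, T, jC, hSC, hdC, h⟩ :=
    H167.Cn.exists_isCentF hS ha had (m := m) hdeg ht
  have i3 := hSC.fin
  have i4 := hSC.cen
  have i5 : StarModule K' C := hSC.starModule
  have f1 : FiniteDimensional L K' := FiniteDimensional.of_finrank_pos (by
    rw [hSC.rank]; norm_num)
  have f2 : FiniteDimensional L C := Module.Finite.trans K' C
  obtain ⟨g⟩ := Vale.Agent.P011S.exists_split (K := K') (D := C) hdC (AlgebraicClosure K')
  have hd : ∀ x ∈ ImF Q, ∀ y ∈ ImF Q, x * y⁻¹ ∈ ImF Q := H872.FF.imF_div Q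
  have h1Q : (1 : D) ∈ ImF Q := ⟨1, Q.one_mem, rfl⟩
  have hQi : ∀ x ∈ ImF Q, x⁻¹ ∈ ImF Q := fun x hx => by
    have := hd 1 h1Q x hx
    rwa [one_mul] at this
  have hQm : ∀ x ∈ ImF Q, ∀ y ∈ ImF Q, x * y ∈ ImF Q := fun x hx y hy => by
    have := hd x hx _ (hQi y hy)
    rwa [inv_inv] at this
  exact H976.FF.abAt_of_yF hS hdeg hSC hdC h f B Q hi g (finBasis L C)
    (hMP L K' C _ _ hSC hdC _ g _ (finBasis L C)) fun ε hε S0 =>
      exists_y hGE hS hdeg hSC h hdC ht ha had B h1Q hQm hQi hε0 hQ hε S0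

/-- The symmetric square roots over function fields exist. -/
theorem exTF {m : ℕ} (hm : 0 < m) : H974.R8.ExTF m := by
  intro k K D _ _ _ _ _ _ _ _ _ _ d s hS hdeg
  exact H511.SX.exists_tF hS hm hdeg

/-- **Doubling the degree over function fields** from good skew elements. -/
theorem mpf_double_of {m : ℕ} (hm : 2 ≤ m) (hGE : GoodE m) (hMP : H974.R8.MPF m) :
    H974.R8.MPF (2 * m) :=
  H974.R8.mpf_double hm (exTF (by omega)) (abF_of hGE hMP)

end Vale.Agent.P011.H511.Ab
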