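import Vale.Agent.P011.H775.Diag
import Mathlib.LinearAlgebra.CrossProduct
import Mathlib.Topology.Instances.Matrix
import Mathlib.Analysis.Complex.Basic

/-!
Cross products, cyclic vectors and the values of the quadratic form `T (g p² [g, X]^#)` at
matrices of rank one.
-/

open Module Polynomial Matrix

set_option linter.unusedSectionVars false
set_option linter.unusedVariables false

namespace Vale.Agent.P011.H511

open Vale.Agent.P011.H775

section cross

variable {R : Type} [CommRing R]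

/-- The volume of `y, G y, G² y`. -/
def cyc (G : Matrix (Fin 3) (Fin 3) R) (y : Fin 3 → R) : R :=
  y ⬝ᵥ ((G *ᵥ y) ⨯₃ (G *ᵥ (G *ᵥ y)))

theorem adj_rank_two (a b c d : Fin 3 → R) :
    (vecMulVec a b + vecMulVec c d).adjugate = vecMulVec (b ⨯₃ d) (a ⨯₃ c) := by
  rw [Matrix.adjugate_fin_three]
  ext i j
  fin_cases i <;> fin_cases j <;> simp [vecMulVec_apply, cross_apply] <;> ring

theorem cross_key (G : Matrix (Fin 3) (Fin 3) R) (y : Fin 3 → R) :
    (y ⨯₃ (G *ᵥ y)) ⨯₃ (Gᵀ *ᵥ (y ⨯₃ (G *ᵥ y))) = -(cyc G y) • y := by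
  ext i
  fin_cases i <;>
    simp [cyc, cross_apply, Matrix.mulVec, dotProduct, Fin.sum_univ_three,
      -Matrix.mulVec_mulVec] <;> ring

theorem cross_mulVec (M : Matrix (Fin 3) (Fin 3) R) (a b : Fin 3 → R) :
    (M *ᵥ a) ⨯₃ (M *ᵥ b) = M.adjugateᵀ *ᵥ (a ⨯₃ b) := by
  rw [Matrix.adjugate_fin_three]
  ext i
  fin_cases i <;>
    simp [cross_apply, Matrix.mulVec, dotProduct, Fin.sum_univ_three] <;> ring

theorem cyc_map {S : Type} [CommRing S] (φ : R →+* S) (G : Matrix (Fin 3) (Fin 3) R)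
    (y : Fin 3 → R) : cyc (G.map φ) (fun i => φ (y i)) = φ (cyc G y) := by
  simp [cyc, cross_apply, Matrix.mulVec, dotProduct, Fin.sum_univ_three, -Matrix.mulVec_mulVec]

theorem cyc_eq_det (G : Matrix (Fin 3) (Fin 3) R) (y : Fin 3 → R) :
    cyc G y = (Matrix.of ![y, G *ᵥ y, G *ᵥ (G *ᵥ y)]).det := by
  rw [cyc, Matrix.det_fin_three]
  simp [cross_apply, dotProduct, Fin.sum_univ_three]
  ring

end cross

section field

variable {F : Type} [Field F]

/-- On a line through a cyclic vector almost every point is cyclic. -/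
theorem exists_cyc_line (G : Matrix (Fin 3) (Fin 3) F) (e y : Fin 3 → F) {t₀ : F}
    (he : cyc G (e + t₀ • y) ≠ 0) {S : Set F} (hS : S.Infinite) :
    ∃ t ∈ S, cyc G (e + t • y) ≠ 0 := by
  obtain ⟨p, hp⟩ : ∃ p : F[X], ∀ t, p.eval t = cyc G (e + t • y) := by
    refine ⟨cyc (G.map Polynomial.C) (fun i => Polynomial.C (e i) + X * Polynomial.C (y i)),
      fun t => ?_⟩
    have h := cyc_map (Polynomial.evalRingHom t) (G.map Polynomial.C)
      (fun i => Polynomial.C (e i) + X * Polynomial.C (y i))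
    rw [← Polynomial.coe_evalRingHom, ← h]
    congr 1
    · ext i j
      simp
    · ext i
      simp
      ring
  have hp0 : p ≠ 0 := by
    rintro rfl
    apply he
    rw [← hp, Polynomial.eval_zero]
  by_contra hcon
  push Not at hcon
  apply hS
  classical
  refine (p.roots.toFinset.finite_toSet).subset fun t ht => ?_
  rw [Finset.mem_coe, Multiset.mem_toFinset, Polynomial.mem_roots hp0, Polynomial.IsRoot.def, hp]
  exact hcon t ht

theorem exists_cyc_of_roots {M : Matrix (Fin 3) (Fin 3) F} {a : Fin 3 → F}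
    (ha : Function.Injective a) (hM : ∀ i, M.charpoly.eval (a i) = 0) :
    ∃ e, cyc M e ≠ 0 := by
  obtain ⟨Q, hQ, h⟩ := exists_diag ha hM
  refine ⟨Q *ᵥ 1, ?_⟩
  have h1 : M *ᵥ (Q *ᵥ 1) = Q *ᵥ a := by
    rw [Matrix.mulVec_mulVec, h, ← Matrix.mulVec_mulVec]
    congr 1
    ext i
    simp [Matrix.mulVec_diagonal]
  have h2 : M *ᵥ (Q *ᵥ a) = Q *ᵥ (fun i => a i ^ 2) := by
    rw [Matrix.mulVec_mulVec, h, ← Matrix.mulVec_mulVec]
    congr 1
    ext i
    simp [Matrix.mulVec_diagonal, pow_two]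
  rw [cyc_eq_det, h1, h2]
  have h3 : (Matrix.of ![Q *ᵥ 1, Q *ᵥ a, Q *ᵥ fun i => a i ^ 2]) =
      !![1, 1, 1; a 0, a 1, a 2; a 0 ^ 2, a 1 ^ 2, a 2 ^ 2] * Qᵀ := by
    ext i j
    fin_cases i <;>
      simp [Matrix.mul_apply, Matrix.mulVec, dotProduct, Fin.sum_univ_three] <;> ring
  rw [h3, Matrix.det_mul, Matrix.det_transpose]
  refine mul_ne_zero ?_ ((Matrix.isUnit_iff_isUnit_det _).mp hQ).ne_zero
  have h4 : (!![1, 1, 1; a 0, a 1, a 2; a 0 ^ 2, a 1 ^ 2, a 2 ^ 2] :
      Matrix (Fin 3) (Fin 3) F).det = (a 1 - a 0) * (a 2 - a 0) * (a 2 - a 1) := by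
    rw [Matrix.det_fin_three]
    simp
    ring
  rw [h4]
  exact mul_ne_zero (mul_ne_zero (sub_ne_zero.mpr (ha.ne (by decide)))
    (sub_ne_zero.mpr (ha.ne (by decide)))) (sub_ne_zero.mpr (ha.ne (by decide)))

end field

/-- A real matrix which has a cyclic complex vector has a cyclic real vector. -/
theorem exists_cyc_real (M : Matrix (Fin 3) (Fin 3) ℝ)
    (h : ∃ e, cyc (M.map Complex.ofRealHom) e ≠ 0) : ∃ e, cyc M e ≠ 0 := by
  obtain ⟨e, he⟩ := h
  have h1 : e = (fun i => Complex.ofRealHom ((e i).re)) +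
      Complex.I • (fun i => Complex.ofRealHom ((e i).im)) := by
    ext i
    simp only [Pi.add_apply, Pi.smul_apply, smul_eq_mul, Complex.ofRealHom_eq_coe]
    rw [mul_comm Complex.I, Complex.re_add_im]
  rw [h1] at he
  obtain ⟨t, ⟨r, rfl⟩, ht⟩ := exists_cyc_line _ _ _ he
    (S := Set.range (fun r : ℝ => (r : ℂ))) (Set.infinite_range_of_injective
      Complex.ofReal_injective)
  refine ⟨fun i => (e i).re + r * (e i).im, fun h0 => ht ?_⟩
  have h2 : (fun i => Complex.ofRealHom ((e i).re)) +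
      ((r : ℝ) : ℂ) • (fun i => Complex.ofRealHom ((e i).im)) =
      fun i => Complex.ofRealHom ((e i).re + r * (e i).im) := by
    ext i
    simp
  rw [h2, cyc_map, h0, map_zero]

section values

/-- **The value at a rank one hermitian matrix (nonsplit real places).** -/
theorem val_nonsplit {G P A : Matrix (Fin 3) (Fin 3) ℂ} (hA : Aᴴ = A) (hGA : G * A = A * Gᴴ)
    (hPA : P * A = A * Pᴴ) (hGP : G * P = P * G) (hdet : A.det ≠ 0) {v y u : Fin 3 → ℂ}
    (hy : P *ᵥ y = A *ᵥ v) (hu : u = star (y ⨯₃ (G *ᵥ y))) :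
    (G * P * P * (G * (A * vecMulVec u (star u)) - A * vecMulVec u (star u) * G).adjugate).trace =
      (cyc G y * star (cyc G y)) * A.det * (star v ⬝ᵥ ((G * A) *ᵥ v)) := by
  obtain ⟨w, hw⟩ : ∃ w, w = Gᴴ *ᵥ u := ⟨_, rfl⟩
  have hsu : star u = y ⨯₃ (G *ᵥ y) := by rw [hu, star_star]
  have hsw : star w = Gᵀ *ᵥ (y ⨯₃ (G *ᵥ y)) := by
    rw [hw, Matrix.star_mulVec, Matrix.conjTranspose_conjTranspose, hsu,
      Matrix.mulVec_transpose]
  have h1 : G * (A * vecMulVec u (star u)) = A * vecMulVec w (star u) := by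
    rw [← mul_assoc, hGA, mul_assoc, Matrix.mul_vecMulVec, ← hw]
  have h2 : A * vecMulVec u (star u) * G = A * vecMulVec u (star w) := by
    rw [mul_assoc, Matrix.vecMulVec_mul, hw, Matrix.star_mulVec,
      Matrix.conjTranspose_conjTranspose]
  have h3 : G * (A * vecMulVec u (star u)) - A * vecMulVec u (star u) * G =
      A * (vecMulVec w (star u) + vecMulVec (-u) (star w)) := by
    rw [h1, h2, mul_add, Matrix.neg_vecMulVec, mul_neg, sub_eq_add_neg]
  have h4 : star u ⨯₃ star w = -(cyc G y) • y := by rw [hsu, hsw, cross_key]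
  have hstar : ∀ a b : Fin 3 → ℂ, star (a ⨯₃ b) = star a ⨯₃ star b := by
    intro a b
    ext i
    fin_cases i <;> simp [cross_apply]
  have h5 : w ⨯₃ (-u) = star (-(cyc G y) • y) := by
    rw [← h4, hstar, star_star, star_star, map_neg, ← cross_anticomm, neg_neg]
  have h6 : A.adjugate * P = Pᴴ * A.adjugate := by
    have e1 : A.adjugate * (P * A) * A.adjugate = A.adjugate * (A * Pᴴ) * A.adjugate := by
      rw [hPA]
    have e2 : A.adjugate * (P * A) * A.adjugate = A.det • (A.adjugate * P) := by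
      rw [← mul_assoc, mul_assoc (A.adjugate * P), Matrix.mul_adjugate, Matrix.mul_smul, mul_one]
    have e3 : A.adjugate * (A * Pᴴ) * A.adjugate = A.det • (Pᴴ * A.adjugate) := by
      rw [← mul_assoc, Matrix.adjugate_mul, Matrix.smul_mul, one_mul, Matrix.smul_mul]
    rw [e2, e3] at e1
    exact smul_right_injective _ hdet e1
  rw [h3, Matrix.adjugate_mul_distrib, adj_rank_two, h4, h5]
  have h7 : vecMulVec (-(cyc G y) • y) (star (-(cyc G y) • y)) =
      (cyc G y * star (cyc G y)) • vecMulVec y (star y) := by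
    rw [star_smul, Matrix.smul_vecMulVec, Matrix.vecMulVec_smul, smul_smul, star_neg, neg_mul_neg]
  rw [h7, Matrix.smul_mul, Matrix.mul_smul, Matrix.trace_smul, smul_eq_mul, mul_assoc (cyc G y * _)]
  congr 1
  have h8 : (G * P * P * (vecMulVec y (star y) * A.adjugate)).trace =
      star y ⬝ᵥ ((A.adjugate * (G * P * P)) *ᵥ y) := by
    rw [← mul_assoc, Matrix.trace_mul_comm, ← mul_assoc, Matrix.mul_vecMulVec,
      Matrix.trace_vecMulVec, dotProduct_comm]
  have h9 : A.adjugate * (G * P * P) = Pᴴ * (A.adjugate * G) * P := by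
    calc A.adjugate * (G * P * P) = (A.adjugate * P) * G * P := by
          rw [hGP]; simp only [mul_assoc]
      _ = _ := by rw [h6]; simp only [mul_assoc]
  have h10 : star y ⬝ᵥ ((Pᴴ * (A.adjugate * G) * P) *ᵥ y) =
      star (P *ᵥ y) ⬝ᵥ ((A.adjugate * G) *ᵥ (P *ᵥ y)) := by
    rw [Matrix.star_mulVec, ← Matrix.dotProduct_mulVec, Matrix.mulVec_mulVec, Matrix.mulVec_mulVec,
      mul_assoc]
  have h11 : star (A *ᵥ v) ⬝ᵥ ((A.adjugate * G) *ᵥ (A *ᵥ v)) =
      A.det * (star v ⬝ᵥ ((G * A) *ᵥ v)) := by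
    rw [Matrix.star_mulVec, hA, ← Matrix.dotProduct_mulVec, Matrix.mulVec_mulVec,
      Matrix.mulVec_mulVec]
    have : A * (A.adjugate * G * A) = A.det • (G * A) := by
      rw [mul_assoc, ← mul_assoc A, Matrix.mul_adjugate, Matrix.smul_mul, one_mul]
    rw [mul_assoc A, this, Matrix.smul_mulVec, dotProduct_smul, smul_eq_mul]
  rw [h8, h9, h10, hy, h11]

/-- The value at a matrix of rank one (split places). -/
theorem val_split {R : Type} [CommRing R] (G P : Matrix (Fin 3) (Fin 3) R) (u v : Fin 3 → R) :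
    (G * P * P * (G * vecMulVec u v - vecMulVec u v * G).adjugate).trace =
      (u ⨯₃ (G *ᵥ u)) ⬝ᵥ ((G * P * P) *ᵥ (v ⨯₃ (Gᵀ *ᵥ v))) := by
  have h1 : G * vecMulVec u v - vecMulVec u v * G =
      vecMulVec (G *ᵥ u) v + vecMulVec (-u) (Gᵀ *ᵥ v) := by
    rw [Matrix.mul_vecMulVec, Matrix.vecMulVec_mul, Matrix.neg_vecMulVec, sub_eq_add_neg,
      Matrix.mulVec_transpose]
  have h2 : (G *ᵥ u) ⨯₃ (-u) = u ⨯₃ (G *ᵥ u) := by
    rw [map_neg, ← cross_anticomm, neg_neg]
  rw [h1, adj_rank_two, h2, Matrix.mul_vecMulVec, Matrix.trace_vecMulVec, dotProduct_comm]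

end values

end Vale.Agent.P011.H511
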