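import Vale.Agent.P011.Arith.Schilling

/-!
Hasse-Minkowski for quadratic forms of rank at least five over number fields: such a form is
isotropic as soon as it is indefinite at every real place.
-/

open NumberField IsDedekindDomain

namespace Vale.Agent.P011.H511

open Vale.Agent.P011.Arith Vale.Agent.P011.Arith.Sch

section field

variable {F : Type} [Field F]

/-- A diagonal form is isotropic. -/
def Iso {n : ℕ} (a : Fin n → Fˣ) : Prop :=
  ∃ x : Fin n → F, x ≠ 0 ∧ ∑ i, (a i : F) * x i ^ 2 = 0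

/-- A binary part may be replaced by one of its nonzero values. -/
theorem Iso.of_value {n : ℕ} {p q c : Fˣ} {r : Fin n → Fˣ} {x y : F}
    (hc : (c : F) = p * x ^ 2 + q * y ^ 2) (h : Iso (Fin.cons c r : Fin (n + 1) → Fˣ)) :
    Iso (Fin.cons p (Fin.cons q r : Fin (n + 1) → Fˣ) : Fin (n + 2) → Fˣ) := by
  obtain ⟨z, hz0, hz⟩ := h
  refine ⟨Fin.cons (x * z 0) (Fin.cons (y * z 0) (Fin.tail z)), ?_, ?_⟩
  · intro h0
    have e0 : x * z 0 = 0 := by simpa using congrFun h0 0
    have e1 : y * z 0 = 0 := by simpa using congrFun h0 1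
    have e2 : ∀ i : Fin n, z i.succ = 0 := fun i => by
      have := congrFun h0 i.succ.succ
      simpa [Fin.tail] using this
    have hz00 : z 0 = 0 := by
      by_contra hne
      have hx : x = 0 := (mul_eq_zero.mp e0).resolve_right hne
      have hy : y = 0 := (mul_eq_zero.mp e1).resolve_right hne
      apply c.ne_zero
      rw [hc, hx, hy]
      ring
    apply hz0
    funext i
    refine Fin.cases hz00 e2 i
  · rw [Fin.sum_univ_succ] at hz
    rw [Fin.sum_univ_succ, Fin.sum_univ_succ]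
    simp only [Fin.cons_zero, Fin.cons_succ, Fin.tail] at hz ⊢
    rw [hc] at hz
    linear_combination hz

end field

variable {F : Type} [Field F] [NumberField F]

/-- The quaternary form `<e, -a, -b, ab>`. -/
theorem quat_iso (a b e : Fˣ) (S : Set (HeightOneSpectrum (𝓞 F)))
    (hSne : S.Nonempty)
    (hS : ∀ v ∉ S, v.valuation F 2 = 1 ∧ v.valuation F (a : F) = 1 ∧ v.valuation F (b : F) = 1)
    (heS : ∀ v ∈ S, e ∉ LS (v.valuation F))
    (hR : ∀ φ : F →+* ℝ, φ a < 0 → φ b < 0 → φ e < 0) :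
    ∃ x y z t : F, (x, y, z, t) ≠ (0, 0, 0, 0) ∧
      (e : F) * x ^ 2 - a * y ^ 2 - b * z ^ 2 + a * b * t ^ 2 = 0 := by
  obtain ⟨v0, hv0⟩ := hSne
  have hensq : ¬ IsSquare (e : F) := by
    rintro ⟨r, hr⟩
    have hr0 : r ≠ 0 := by
      rintro rfl
      exact e.ne_zero (by rw [hr, mul_zero])
    apply heS v0 hv0
    refine ⟨Units.mk0 r hr0, ?_⟩
    have : (e : F) / ((Units.mk0 r hr0 : Fˣ) : F) ^ 2 - 1 = 0 := by
      rw [hr, Units.val_mk0]
      field_simp
      ring
    rw [this, map_zero]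
    exact zero_lt_iff.mpr ((Valuation.ne_zero_iff _).mpr (by norm_num))
  obtain ⟨E, _, _, _, hE, θ, hθ⟩ := exists_quad e hensq
  have hθ' : ∀ x : F, algebraMap F E x ≠ θ := by
    rintro r rfl
    apply hensq
    refine ⟨r, (algebraMap F E).injective ?_⟩
    rw [← hθ, map_mul, pow_two]
  set ι : Fˣ →* Eˣ := Units.map (algebraMap F E : F →* E) with hι
  have hιv : ∀ u : Fˣ, ((ι u : Eˣ) : E) = algebraMap F E u := fun _ => rfl
  have key : ι b ∈ NF (ι a) := by
    refine hasse_norm (ι a) (ι b) ?_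
    rintro (w | ψ)
    · change ι b ∈ NF (ι a) ⊔ LS (w.valuation E)
      obtain ⟨v, hv⟩ := Sch.exists_below (F := F) w
      by_cases hvS : v ∈ S
      · rcases local_split v a b e (heS v hvS) with h1 | ⟨y, n, l, hn, hl, h1⟩
        · exact sup_map hv h1
        · have h2 : ι (b * n * l) ∈ NF (ι a) := by
            refine ⟨θ, algebraMap F E y, ?_⟩
            rw [hιv, hθ, hιv]
            have h3 : ((b * n * l : Fˣ) : F) = (e : F) - a * y ^ 2 := by
              rw [h1]; push_cast; ring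
            rw [h3]
            simp
          have h3 : ι b = ι (b * n * l) * (ι n)⁻¹ * (ι l)⁻¹ := by
            rw [map_mul, map_mul, mul_right_comm (ι b * ι n) (ι l) (ι n)⁻¹,
              mul_inv_cancel_right, mul_inv_cancel_right]
          rw [h3]
          exact mul_mem (mul_mem (Subgroup.mem_sup_left h2)
            (inv_mem (Subgroup.mem_sup_left (NF_map hn))))
            (inv_mem (Subgroup.mem_sup_right (LS_map hv hl)))
      · obtain ⟨h2, ha, hb⟩ := hS v hvS
        refine unit_norm w ?_ _ _ ?_ ?_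
        · have := valuation_one_map hv h2
          rwa [map_ofNat] at this
        · exact valuation_one_map hv ha
        · exact valuation_one_map hv hb
    · change ι b ∈ NF (ι a) ⊔ LSR ψ
      set φ : F →+* ℝ := ψ.comp (algebraMap F E) with hφ
      have hval : ∀ u : Fˣ, ψ (ι u) = φ u := fun _ => rfl
      have heφ : 0 ≤ φ e := by
        have : φ e = ψ θ ^ 2 := by
          rw [← map_pow, hθ]
          rfl
        rw [this]
        positivity
      by_cases hb : 0 < φ b
      · exact Subgroup.mem_sup_right (by rw [mem_LSR, hval]; exact hb)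
      · have hb' : φ b < 0 := lt_of_le_of_ne (not_lt.mp hb) ((map_ne_zero φ).mpr b.ne_zero)
        have ha' : 0 < φ a := by
          by_contra ha
          have ha' : φ a < 0 := lt_of_le_of_ne (not_lt.mp ha) ((map_ne_zero φ).mpr a.ne_zero)
          exact absurd (hR φ ha' hb') (not_lt.mpr heφ)
        have h1 : ι b / (-ι a) ∈ LSR ψ := by
          rw [mem_LSR, Units.val_div_eq_div_val, map_div₀, Units.val_neg, map_neg, hval, hval]
          exact div_pos_of_neg_of_neg hb' (by linarith)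
        have h2 : ι b = -ι a * (ι b / (-ι a)) := by
          rw [mul_div_cancel]
        rw [h2]
        exact Subgroup.mul_mem_sup (Sch.neg_mem_NF _) h1
  obtain ⟨X, Y, hXY⟩ := key
  obtain ⟨x1, x2, y1, y2, h1, h2⟩ := descend (a := (a : F)) (b := (b : F)) hθ hE hθ' hXY
  have ha0 := a.ne_zero
  have hb0 := b.ne_zero
  by_cases hn : x2 ^ 2 - (a : F) * y2 ^ 2 = 0
  · by_cases hy2 : y2 = 0
    · subst hy2
      have hx2 : x2 = 0 := by simpa using hn
      subst hx2
      refine ⟨0, b, a * y1, x1, ?_, ?_⟩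
      · intro h
        exact hb0 (by simpa using congrArg (fun p => p.2.1) h)
      · have h3 : (b : F) = x1 ^ 2 - a * y1 ^ 2 := by rw [h1]; ring
        linear_combination (-(a : F) * b) * h3
    · refine ⟨0, 0, x2 / y2, 1, ?_, ?_⟩
      · intro h
        have : (1 : F) = 0 := by simpa using congrArg (fun p => p.2.2.2) h
        exact one_ne_zero this
      · field_simp
        linear_combination (-(b : F)) * hn
  · refine ⟨x2 ^ 2 - a * y2 ^ 2, x1 * y2 - x2 * y1, x2, y2, ?_, ?_⟩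
    · intro h
      exact hn (by simpa using congrArg (fun p => p.1) h)
    · have key : (e : F) * (x2 ^ 2 - a * y2 ^ 2) ^ 2 =
          a * (x1 * y2 - x2 * y1) ^ 2 + b * (x2 ^ 2 - a * y2 ^ 2) := by
        linear_combination (-(x1 * x2 - (a : F) * y1 * y2)) * h2 + (-(x2 ^ 2 - (a : F) * y2 ^ 2)) * h1
      linear_combination key

/-- At every finite place a binary form takes a value outside the local squares. -/
theorem exists_binary_notMem (v : HeightOneSpectrum (𝓞 F)) (p q : Fˣ) :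
    ∃ (x y : F) (e : Fˣ), (e : F) = p * x ^ 2 + q * y ^ 2 ∧ e ∉ LS (v.valuation F) := by
  by_cases hp : p ∈ LS (v.valuation F)
  · obtain ⟨x, e, he, hn⟩ := exists_sub_notMem v (-(q / p))
    refine ⟨x, 1, p * e, ?_, fun h => hn ((Subgroup.mul_mem_cancel_left _ hp).mp h)⟩
    have hp0 := p.ne_zero
    rw [Units.val_mul, he]
    push_cast
    field_simp
    ring
  · exact ⟨1, 0, p, by simp, hp⟩

theorem plAbv_near2 (P : Pl F) (p q x₀ y₀ : F) {M : ℝ} (hM : 0 < M) :
    ∃ δ : ℝ, 0 < δ ∧ ∀ x y : F, plAbv P (x - x₀) < δ → plAbv P (y - y₀) < δ →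
      plAbv P ((p * x ^ 2 + q * y ^ 2) - (p * x₀ ^ 2 + q * y₀ ^ 2)) < M := by
  have hp0 := (plAbv P).nonneg p
  have hq0 := (plAbv P).nonneg q
  have hp1 : 0 < 2 * (plAbv P p + 1) := by linarith
  have hq1 : 0 < 2 * (plAbv P q + 1) := by linarith
  obtain ⟨δ₁, h1, h1'⟩ := plAbv_near P x₀ (div_pos hM hp1)
  obtain ⟨δ₂, h2, h2'⟩ := plAbv_near P y₀ (div_pos hM hq1)
  refine ⟨min δ₁ δ₂, lt_min h1 h2, fun x y hx hy => ?_⟩
  have e : (p * x ^ 2 + q * y ^ 2) - (p * x₀ ^ 2 + q * y₀ ^ 2) =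
      p * (x ^ 2 - x₀ ^ 2) + q * (y ^ 2 - y₀ ^ 2) := by ring
  rw [e]
  have h3 := h1' x (lt_of_lt_of_le hx (min_le_left _ _))
  have h4 := h2' y (lt_of_lt_of_le hy (min_le_right _ _))
  have h5 := (plAbv P).add_le (p * (x ^ 2 - x₀ ^ 2)) (q * (y ^ 2 - y₀ ^ 2))
  rw [map_mul, map_mul] at h5
  rw [lt_div_iff₀ hp1] at h3
  rw [lt_div_iff₀ hq1] at h4
  nlinarith [(plAbv P).nonneg (x ^ 2 - x₀ ^ 2), (plAbv P).nonneg (y ^ 2 - y₀ ^ 2)]

/-- A value of a binary form which is not a local square at finitely many given places and has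
the sign of the chosen coefficient at each real place. -/
theorem exists_value (S : Set (HeightOneSpectrum (𝓞 F))) (hS : S.Finite) (p q : Fˣ)
    (ch : (F →+* ℝ) → Bool) :
    ∃ (x y : F) (e : Fˣ), (e : F) = p * x ^ 2 + q * y ^ 2 ∧ (∀ v ∈ S, e ∉ LS (v.valuation F)) ∧
      ∀ φ : F →+* ℝ, 0 < φ e * φ ((if ch φ then p else q : Fˣ) : F) := by
  obtain ⟨v0⟩ := nonempty_prime (F := F)
  choose x₀ y₀ e₀ he₀ hn₀ using fun v : HeightOneSpectrum (𝓞 F) => exists_binary_notMem v p q
  choose δ₀ hδ₀ hδ₁ using fun v : HeightOneSpectrum (𝓞 F) => plAbv_near2 (Sum.inl v) (p : F) q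
    (x₀ v) (y₀ v) (M := plAbv (Sum.inl v) (4 * (e₀ v : F)))
    ((plAbv (Sum.inl v)).pos (mul_ne_zero (by norm_num) (e₀ v).ne_zero))
  let x₁ : (F →+* ℝ) → F := fun φ => if ch φ then 1 else 0
  let y₁ : (F →+* ℝ) → F := fun φ => if ch φ then 0 else 1
  have hv₁ : ∀ φ, (p : F) * x₁ φ ^ 2 + q * y₁ φ ^ 2 = ((if ch φ then p else q : Fˣ) : F) := by
    intro φ
    by_cases h : ch φ <;> simp [x₁, y₁, h]
  choose δ₂ hδ₂ hδ₃ using fun φ : F →+* ℝ => plAbv_near2 (Sum.inr φ) (p : F) q (x₁ φ) (y₁ φ)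
    (M := |φ ((if ch φ then p else q : Fˣ) : F)|)
    (abs_pos.mpr ((map_ne_zero φ).mpr (Units.ne_zero _)))
  let T : Set (Pl F) := (Sum.inl '' (insert v0 S)) ∪ Set.range Sum.inr
  have hT : T.Finite := ((hS.insert v0).image _).union (Set.finite_range _)
  let zx : Pl F → F := Sum.elim x₀ x₁
  let zy : Pl F → F := Sum.elim y₀ y₁
  let δ : Pl F → ℝ := Sum.elim δ₀ δ₂
  have hδ : ∀ p, 0 < δ p := by
    rintro (v | φ)
    · exact hδ₀ v
    · exact hδ₂ φ
  obtain ⟨x, hx⟩ := approx T hT zx δ hδ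
  obtain ⟨y, hy⟩ := approx T hT zy δ hδ
  have hfin : ∀ v ∈ insert v0 S, v.valuation F ((p : F) * x ^ 2 + q * y ^ 2 - e₀ v) <
      v.valuation F 4 * v.valuation F (e₀ v : F) := by
    intro v hv
    have h1 := hδ₁ v x y (hx (Sum.inl v) (Or.inl ⟨v, hv, rfl⟩)) (hy (Sum.inl v) (Or.inl ⟨v, hv, rfl⟩))
    rw [← he₀, plAbv_lt, map_mul] at h1
    exact h1
  have hlt : ∀ v ∈ insert v0 S, v.valuation F ((p : F) * x ^ 2 + q * y ^ 2 - e₀ v) <
      v.valuation F (e₀ v : F) := by
    intro v hv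
    refine lt_of_lt_of_le (hfin v hv) ?_
    calc (v.valuation F) 4 * (v.valuation F) (e₀ v : F) ≤ 1 * (v.valuation F) (e₀ v : F) :=
        mul_le_mul_left (val_four_le _) _
      _ = _ := one_mul _
  have hval : ∀ v ∈ insert v0 S, v.valuation F ((p : F) * x ^ 2 + q * y ^ 2) =
      v.valuation F (e₀ v : F) := by
    intro v hv
    have : (p : F) * x ^ 2 + q * y ^ 2 = e₀ v + ((p : F) * x ^ 2 + q * y ^ 2 - e₀ v) := by ring
    rw [this]
    exact Valuation.map_add_eq_of_lt_left _ (hlt v hv)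
  have hne : (p : F) * x ^ 2 + q * y ^ 2 ≠ 0 := by
    intro h0
    have h1 := hval v0 (Set.mem_insert _ _)
    rw [h0, map_zero] at h1
    exact (Valuation.ne_zero_iff _).mpr (e₀ v0).ne_zero h1.symm
  refine ⟨x, y, Units.mk0 _ hne, rfl, fun v hv hmem => ?_, fun φ => ?_⟩
  · apply hn₀ v
    refine LS_of_near hmem ?_
    rw [Units.val_mk0, hval v (Set.mem_insert_of_mem _ hv), Valuation.map_sub_swap]
    exact hfin v (Set.mem_insert_of_mem _ hv)
  · have h1 := hδ₃ φ x y (hx (Sum.inr φ) (Or.inr ⟨φ, rfl⟩)) (hy (Sum.inr φ) (Or.inr ⟨φ, rfl⟩))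
    rw [hv₁, plAbv_inr, map_sub] at h1
    rw [Units.val_mk0]
    set s := φ ((p : F) * x ^ 2 + q * y ^ 2)
    set t := φ ((if ch φ then p else q : Fˣ) : F)
    have h2 := sq_lt_sq.mpr (by rwa [abs_abs] : |s - t| < |(|t|)|)
    rw [sq_abs] at h2
    by_contra hcon
    have h3 := not_lt.mp hcon
    nlinarith [sq_nonneg s]

/-- Indefinite at a real place. -/
def Indef {n : ℕ} (a : Fin n → Fˣ) (φ : F →+* ℝ) : Prop :=
  (∃ i, 0 < φ (a i)) ∧ ∃ i, φ (a i) < 0

/-- The replacement of a binary part by a value, keeping indefiniteness. -/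
theorem exists_step {n : ℕ} (S : Set (HeightOneSpectrum (𝓞 F))) (hS : S.Finite) (m p q : Fˣ)
    (r : Fin (n + 1) → Fˣ)
    (h : ∀ φ : F →+* ℝ, Indef (Fin.cons p (Fin.cons q r : Fin (n + 2) → Fˣ) :
      Fin (n + 3) → Fˣ) φ) :
    ∃ (x y : F) (c : Fˣ), (c : F) = p * x ^ 2 + q * y ^ 2 ∧
      (∀ v ∈ S, m * c ∉ LS (v.valuation F)) ∧
      ∀ φ : F →+* ℝ, Indef (Fin.cons c r : Fin (n + 2) → Fˣ) φ := by
  classical
  -- choose `p` when its sign is opposite to the sign of `r 0`
  let ch : (F →+* ℝ) → Bool := fun φ => decide (φ p * φ (r 0) < 0)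
  obtain ⟨x, y, e, he, heS, heR⟩ := exists_value S hS (m * p) (m * q) ch
  refine ⟨x, y, m⁻¹ * e, ?_, fun v hv => ?_, fun φ => ?_⟩
  · have hm := m.ne_zero
    push_cast at he ⊢
    rw [he]
    field_simp
  · rw [mul_inv_cancel_left]
    exact heS v hv
  · have hm : φ m ≠ 0 := (map_ne_zero φ).mpr m.ne_zero
    have hp : φ p ≠ 0 := (map_ne_zero φ).mpr p.ne_zero
    have hq : φ q ≠ 0 := (map_ne_zero φ).mpr q.ne_zero
    have he0 : φ e ≠ 0 := (map_ne_zero φ).mpr e.ne_zero
    have hr0 : φ (r 0) ≠ 0 := (map_ne_zero φ).mpr (r 0).ne_zero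
    have h1 := heR φ
    obtain ⟨⟨i, hi⟩, ⟨j, hj⟩⟩ := h φ
    -- the sign of c
    have hcs : (0 < φ ((m⁻¹ * e : Fˣ) : F) * φ ((if ch φ then p else q : Fˣ) : F)) := by
      have e1 : φ ((if ch φ then m * p else m * q : Fˣ) : F) =
          φ m * φ ((if ch φ then p else q : Fˣ) : F) := by
        by_cases hc : ch φ <;> simp [hc]
      rw [e1] at h1
      have e2 : φ ((m⁻¹ * e : Fˣ) : F) = (φ m)⁻¹ * φ e := by
        rw [Units.val_mul, map_mul, Units.val_inv_eq_inv_val, map_inv₀]
      rw [e2]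
      have : (φ m)⁻¹ * φ e * φ ((if ch φ then p else q : Fˣ) : F) =
        (φ m)⁻¹ ^ 2 * (φ e * (φ m * φ ((if ch φ then p else q : Fˣ) : F))) := by
        field_simp
      rw [this]
      exact mul_pos (by positivity) h1
    set c := φ ((m⁻¹ * e : Fˣ) : F) with hc
    have hc0 : c ≠ 0 := fun h0 => by rw [h0, zero_mul] at hcs; exact lt_irrefl _ hcs
    -- if r takes both signs we are done
    by_cases hboth : (∃ i, 0 < φ (r i)) ∧ ∃ i, φ (r i) < 0
    · obtain ⟨⟨i, hi⟩, ⟨j, hj⟩⟩ := hboth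
      exact ⟨⟨i.succ, by simpa using hi⟩, ⟨j.succ, by simpa using hj⟩⟩
    · -- all the entries of r have the sign of r 0
      have hsame : ∀ i, 0 < φ (r i) * φ (r 0) := by
        intro i
        have hri : φ (r i) ≠ 0 := (map_ne_zero φ).mpr (r i).ne_zero
        rcases lt_or_gt_of_ne hri with h2 | h2 <;> rcases lt_or_gt_of_ne hr0 with h3 | h3
        · exact mul_pos_of_neg_of_neg h2 h3
        · exact absurd ⟨⟨0, h3⟩, ⟨i, h2⟩⟩ hboth
        · exact absurd ⟨⟨i, h2⟩, ⟨0, h3⟩⟩ hboth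
        · exact mul_pos h2 h3
      have hopp : c * φ (r 0) < 0 := by
        by_cases hcp : φ p * φ (r 0) < 0
        · have : ch φ = true := by simp [ch, hcp]
          rw [this] at hcs
          simp only [if_true] at hcs
          nlinarith [mul_pos hcs (neg_pos.mpr hcp), sq_pos_of_pos (abs_pos.mpr hp), sq_abs (φ p)]
        · have hfalse : ch φ = false := by simp [ch, hcp]
          rw [hfalse] at hcs
          simp only [Bool.false_eq_true, if_false] at hcs
          have hcp' : 0 < φ p * φ (r 0) := lt_of_le_of_ne (not_lt.mp hcp) (mul_ne_zero hp hr0).symm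
          have hqr : φ q * φ (r 0) < 0 := by
            by_contra hcon
            have hqr' : 0 < φ q * φ (r 0) := lt_of_le_of_ne (not_lt.mp hcon) (mul_ne_zero hq hr0).symm
            have hall : ∀ i, 0 < φ ((Fin.cons p (Fin.cons q r : Fin (n + 2) → Fˣ) :
                Fin (n + 3) → Fˣ) i) * φ (r 0) := by
              intro i
              refine Fin.cases ?_ (fun i => ?_) i
              · simpa using hcp'
              · refine Fin.cases ?_ (fun i => ?_) i
                · simpa using hqr'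
                · simpa using hsame i
            have h4 := hall i
            have h5 := hall j
            rcases lt_or_gt_of_ne hr0 with h3 | h3
            · nlinarith
            · nlinarith
          nlinarith [mul_pos hcs (neg_pos.mpr hqr), sq_pos_of_pos (abs_pos.mpr hq), sq_abs (φ q)]
      rcases lt_or_gt_of_ne hc0 with h3 | h3
      · refine ⟨⟨1, ?_⟩, ⟨0, ?_⟩⟩
        · have : 0 < φ (r 0) := by nlinarith
          simpa using this
        · simpa [hc] using h3
      · refine ⟨⟨0, ?_⟩, ⟨1, ?_⟩⟩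
        · simpa [hc] using h3
        · have : φ (r 0) < 0 := by nlinarith
          simpa using this

/-- Rank five. -/
theorem hm5_five (a : Fin 5 → Fˣ) (h : ∀ φ : F →+* ℝ, Indef a φ) : Iso a := by
  obtain ⟨v0⟩ := nonempty_prime (F := F)
  obtain ⟨p, a, rfl⟩ : ∃ (p : Fˣ) (b : Fin 4 → Fˣ), a = Fin.cons p b :=
    ⟨a 0, Fin.tail a, (Fin.cons_self_tail a).symm⟩
  obtain ⟨q, a, rfl⟩ : ∃ (p : Fˣ) (b : Fin 3 → Fˣ), a = Fin.cons p b :=
    ⟨a 0, Fin.tail a, (Fin.cons_self_tail a).symm⟩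
  set A : Fˣ := -(a 0 * a 1) with hA
  set B : Fˣ := -(a 0 * a 2) with hB
  set m : Fˣ := a 0 * a 1 * a 2 with hm
  set S : Set (HeightOneSpectrum (𝓞 F)) := {v0} ∪ {v | v.valuation F 2 ≠ 1} ∪
    {v | v.valuation F (A : F) ≠ 1} ∪ {v | v.valuation F (B : F) ≠ 1} with hSdef
  have hS : S.Finite := (((Set.finite_singleton v0).union
    (finite_valuation_ne_one 2 two_ne_zero)).union (finite_valuation_ne_one _ A.ne_zero)).union
      (finite_valuation_ne_one _ B.ne_zero)
  obtain ⟨x, y, c, hc, hcS, hcR⟩ := exists_step S hS m p q a h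
  refine Iso.of_value hc ?_
  obtain ⟨X, Y, Z, T, hne, hXY⟩ := quat_iso A B (m * c) S ⟨v0, Or.inl (Or.inl (Or.inl rfl))⟩
    (fun v hv => by
      simp only [hSdef, Set.mem_union, Set.mem_ofPred_eq, not_or, not_not] at hv
      exact ⟨hv.1.1.2, hv.1.2, hv.2⟩) hcS (fun φ hAφ hBφ => by
      have h0 : φ (a 0) ≠ 0 := (map_ne_zero φ).mpr (a 0).ne_zero
      have h1 : φ (a 1) ≠ 0 := (map_ne_zero φ).mpr (a 1).ne_zero
      have h2 : φ (a 2) ≠ 0 := (map_ne_zero φ).mpr (a 2).ne_zero
      rw [hA] at hAφ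
      rw [hB] at hBφ
      rw [hm]
      push_cast at hAφ hBφ ⊢
      simp only [map_neg, map_mul] at hAφ hBφ ⊢
      obtain ⟨⟨i, hi⟩, ⟨j, hj⟩⟩ := hcR φ
      have key : φ c * φ (a 0) < 0 := by
        by_contra hcon
        have hc0 : φ c ≠ 0 := (map_ne_zero φ).mpr c.ne_zero
        have h3 : 0 < φ c * φ (a 0) := lt_of_le_of_ne (not_lt.mp hcon) (mul_ne_zero hc0 h0).symm
        have hall : ∀ i : Fin 4, 0 < φ ((Fin.cons c a : Fin 4 → Fˣ) i) * φ (a 0) := by
          intro i
          refine Fin.cases (by simpa using h3) (fun i => ?_) i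
          fin_cases i
          · simp only [Fin.cons_succ]
            exact mul_self_pos.mpr h0
          · simp only [Fin.cons_succ]
            change 0 < φ (a 1) * φ (a 0)
            linarith
          · simp only [Fin.cons_succ]
            change 0 < φ (a 2) * φ (a 0)
            linarith
        have h4 := hall i
        have h5 := hall j
        rcases lt_or_gt_of_ne h0 with h6 | h6
        · nlinarith
        · nlinarith
      have e : φ (a 0) * φ (a 1) * φ (a 2) * φ c =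
        ((φ (a 0) * φ (a 1)) * (φ (a 0) * φ (a 2))) * (φ c * φ (a 0)) / (φ (a 0)) ^ 2 := by
        field_simp
      rw [e]
      refine div_neg_of_neg_of_pos ?_ (by positivity)
      exact mul_neg_of_pos_of_neg (mul_pos (by linarith) (by linarith)) key)
  have h0 : (a 0 : F) ≠ 0 := (a 0).ne_zero
  have h1 : (a 1 : F) ≠ 0 := (a 1).ne_zero
  have h2 : (a 2 : F) ≠ 0 := (a 2).ne_zero
  refine ⟨![X, T, Z / a 1, Y / a 2], ?_, ?_⟩
  · intro h3
    apply hne
    have e0 : X = 0 := by simpa using congrFun h3 0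
    have e1 : T = 0 := by simpa using congrFun h3 1
    have e2 : Z / (a 1 : F) = 0 := by simpa using congrFun h3 2
    have e3 : Y / (a 2 : F) = 0 := by simpa using congrFun h3 3
    have e2' : Z = 0 := by simpa [h1] using e2
    have e3' : Y = 0 := by simpa [h2] using e3
    rw [e0, e1, e2', e3']
  · rw [hA, hB, hm] at hXY
    push_cast at hXY
    rw [Fin.sum_univ_four]
    change (c : F) * X ^ 2 + (a 0 : F) * T ^ 2 + (a 1 : F) * (Z / a 1) ^ 2 +
      (a 2 : F) * (Y / a 2) ^ 2 = 0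
    have e : (c : F) * X ^ 2 + (a 0 : F) * T ^ 2 + (a 1 : F) * (Z / a 1) ^ 2 +
      (a 2 : F) * (Y / a 2) ^ 2 = ((a 0 : F) * a 1 * a 2 * c * X ^ 2 - -(a 0 * a 1) * Y ^ 2 -
        -(a 0 * a 2) * Z ^ 2 + -(a 0 * a 1) * -(a 0 * a 2) * T ^ 2) / (a 0 * a 1 * a 2) := by
      field_simp
      ring
    rw [e, hXY, zero_div]

/-- Hasse-Minkowski for diagonal forms of rank at least five. -/
theorem hm5_diag : ∀ (n : ℕ) (a : Fin (n + 5) → Fˣ), (∀ φ : F →+* ℝ, Indef a φ) → Iso a
  | 0, a, h => hm5_five a h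
  | n + 1, a, h => by
    obtain ⟨p, a, rfl⟩ : ∃ (p : Fˣ) (b : Fin (n + 5) → Fˣ), a = Fin.cons p b :=
      ⟨a 0, Fin.tail a, (Fin.cons_self_tail a).symm⟩
    obtain ⟨q, a, rfl⟩ : ∃ (p : Fˣ) (b : Fin (n + 4) → Fˣ), a = Fin.cons p b :=
      ⟨a 0, Fin.tail a, (Fin.cons_self_tail a).symm⟩
    obtain ⟨x, y, c, hc, -, hR⟩ := exists_step ∅ Set.finite_empty 1 p q a h
    exact Iso.of_value hc (hm5_diag n _ hR)

/-- Hasse-Minkowski for quadratic forms of dimension at least five over a number field: such a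
form is isotropic as soon as it is indefinite at every real place. -/
theorem hm5 {V : Type*} [AddCommGroup V] [Module F V] [FiniteDimensional F V]
    (Q : QuadraticForm F V) (h5 : 5 ≤ Module.finrank F V)
    (hr : ∀ φ : F →+* ℝ, (∃ x, 0 < φ (Q x)) ∧ ∃ x, φ (Q x) < 0) :
    ∃ x : V, x ≠ 0 ∧ Q x = 0 := by
  have : Invertible (2 : F) := invertibleOfNonzero two_ne_zero
  obtain ⟨w, ⟨e⟩⟩ := QuadraticForm.equivalent_weightedSumSquares Q
  have he : ∀ x : V, Q x = ∑ i, w i * (e x i) ^ 2 := by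
    intro x
    rw [← e.map_app x, QuadraticMap.weightedSumSquares_apply]
    refine Finset.sum_congr rfl fun i _ => ?_
    rw [smul_eq_mul, pow_two]
  suffices h : ∃ y : Fin (Module.finrank F V) → F, y ≠ 0 ∧ ∑ i, w i * y i ^ 2 = 0 by
    obtain ⟨y, hy0, hy⟩ := h
    refine ⟨e.symm y, ?_, ?_⟩
    · intro h0
      apply hy0
      have : e (e.symm y) = 0 := by rw [h0]; exact map_zero e.toLinearEquiv
      have h1 : e (e.symm y) = y := e.toLinearEquiv.apply_symm_apply y
      rw [h1] at this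
      exact this
    · rw [he]
      have h1 : e (e.symm y) = y := e.toLinearEquiv.apply_symm_apply y
      rw [h1]
      exact hy
  by_cases hw : ∃ i, w i = 0
  · obtain ⟨i, hi⟩ := hw
    refine ⟨Pi.single i 1, ?_, ?_⟩
    · intro h0
      have := congrFun h0 i
      simp at this
    · refine Finset.sum_eq_zero fun j _ => ?_
      by_cases hji : j = i
      · subst hji
        rw [hi, zero_mul]
      · rw [Pi.single_eq_of_ne hji]
        ring
  · push Not at hw
    obtain ⟨n, hn⟩ : ∃ n, Module.finrank F V = n + 5 := ⟨Module.finrank F V - 5, by omega⟩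
    let a : Fin (n + 5) → Fˣ := fun i => Units.mk0 (w (Fin.cast hn.symm i)) (hw _)
    have ha : ∀ φ : F →+* ℝ, Indef a φ := by
      intro φ
      obtain ⟨⟨x, hx⟩, ⟨y, hy⟩⟩ := hr φ
      constructor
      · by_contra hcon
        push Not at hcon
        rw [he, map_sum] at hx
        refine absurd hx (not_lt.mpr (Finset.sum_nonpos fun i _ => ?_))
        rw [map_mul, map_pow]
        refine mul_nonpos_of_nonpos_of_nonneg ?_ (sq_nonneg _)
        have := hcon (Fin.cast hn i)
        simpa [a] using this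
      · by_contra hcon
        push Not at hcon
        rw [he, map_sum] at hy
        refine absurd hy (not_lt.mpr (Finset.sum_nonneg fun i _ => ?_))
        rw [map_mul, map_pow]
        refine mul_nonneg ?_ (sq_nonneg _)
        have := hcon (Fin.cast hn i)
        simpa [a] using this
    obtain ⟨z, hz0, hz⟩ := hm5_diag n a ha
    refine ⟨fun i => z (Fin.cast hn i), ?_, ?_⟩
    · intro h0
      apply hz0
      funext i
      have := congrFun h0 (Fin.cast hn.symm i)
      simpa using this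
    · rw [← hz]
      refine (Fintype.sum_equiv (finCongr hn) _ _ fun i => ?_)
      simp [a]

end Vale.Agent.P011.H511
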