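import Vale.Agent.P011.H748.N4
import Vale.Agent.P011.H321.M8b

/-!
The line step: from a solution `u` of `T ((x - 1) u) = 0` one gets a solution `w` close to given
points of the curve through `u` at finitely many places, and integral intertwiners at the nonsplit
places are preserved.
-/

open Module NumberField IsDedekindDomain Filter Topology

set_option linter.unusedSectionVars false
set_option linter.unusedVariables false

namespace Vale.Agent.P011.H511

open Vale.Agent.P011.Arith Vale.Agent.P011.Even Vale.Agent.P011.H775 Vale.Agent.P011.H948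
  Vale.Agent.P011.H182 Vale.Agent.P011.H929 Vale.Agent.P011.H748 Vale.Agent.P011.Two
  Vale.Agent.P011.H321.M8a

section approx

variable {k : Type} [Field k] [NumberField k]

/-- A small nonzero element for one place. -/
theorem exists_small (p : Pl k) {δ : ℝ} (hδ : 0 < δ) : ∃ c : k, c ≠ 0 ∧ plAbv p c < δ := by
  obtain ⟨c, hc0, hc⟩ := (plAbv_nontrivial p).exists_abv_lt_one
  obtain ⟨n, hn⟩ := exists_pow_lt_of_lt_one hδ hc
  exact ⟨c ^ n, pow_ne_zero n hc0, by rw [map_pow]; exact hn⟩

/-- There are infinitely many elements which are small at finitely many places. -/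
theorem small_infinite {P : Set (Pl k)} (hP : P.Finite) {δ : ℝ} (hδ : 0 < δ) :
    {r : k | ∀ p ∈ P, plAbv p r < δ}.Infinite := by
  by_cases hne : P.Nonempty
  swap
  · rw [Set.not_nonempty_iff_eq_empty] at hne
    subst hne
    have : {r : k | ∀ p ∈ (∅ : Set (Pl k)), plAbv p r < δ} = Set.univ := by
      ext r
      simp
    rw [this]
    exact Set.infinite_univ
  obtain ⟨p₀, hp₀⟩ := hne
  choose c hc0 hc using fun p : Pl k => exists_small p (δ := min δ 1 / 2) (by positivity)
  obtain ⟨r, hr⟩ := approx P hP c (fun p => plAbv p (c p)) fun p => (plAbv p).pos (hc0 p)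
  have hr1 : ∀ p ∈ P, plAbv p r < min δ 1 := by
    intro p hp
    have h1 : plAbv p r ≤ plAbv p (r - c p) + plAbv p (c p) := by
      have := (plAbv p).add_le (r - c p) (c p)
      rwa [sub_add_cancel] at this
    have h2 := hr p hp
    have h3 := hc p
    linarith
  have hr0 : r ≠ 0 := by
    rintro rfl
    have := hr p₀ hp₀
    rw [zero_sub, map_neg_eq_map] at this
    exact lt_irrefl _ this
  have hinj : Function.Injective fun n : ℕ => r ^ (n + 1) := by
    intro i j hij
    have h1 := congrArg (plAbv p₀) hij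
    simp only [map_pow] at h1
    have h2 : 0 < plAbv p₀ r := (plAbv p₀).pos hr0
    have h3 : plAbv p₀ r < 1 := (hr1 p₀ hp₀).trans_le (min_le_right _ _)
    have h4 := (pow_right_strictAnti₀ h2 h3).injective h1
    omega
  refine (Set.infinite_range_of_injective hinj).mono ?_
  rintro _ ⟨n, rfl⟩ p hp
  have h3 := hr1 p hp
  have h4 : plAbv p (r ^ (n + 1)) ≤ plAbv p r := by
    rw [map_pow]
    have h5 : plAbv p r ≤ 1 := (h3.trans_le (min_le_right _ _)).le
    calc plAbv p r ^ (n + 1) ≤ plAbv p r ^ 1 :=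
          pow_le_pow_of_le_one ((plAbv p).nonneg _) h5 (by omega)
      _ = _ := pow_one _
  exact h4.trans_lt (h3.trans_le (min_le_left _ _))

/-- Approximation outside a finite set. -/
theorem approx_avoid {P : Set (Pl k)} (hP : P.Finite) (z : Pl k → k) {δ : ℝ} (hδ : 0 < δ)
    {F : Set k} (hF : F.Finite) : ∃ f : k, f ∉ F ∧ ∀ p ∈ P, plAbv p (f - z p) < δ := by
  obtain ⟨f₀, hf₀⟩ := approx P hP z (fun _ => δ / 2) fun _ => by positivity
  obtain ⟨r, hr, hrF⟩ := (small_infinite hP (δ := δ / 2) (by positivity)).exists_notMem_finite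
    (hF.image fun f => f - f₀)
  refine ⟨f₀ + r, fun h => hrF ⟨_, h, by ring⟩, fun p hp => ?_⟩
  have h1 : plAbv p (f₀ + r - z p) ≤ plAbv p (f₀ - z p) + plAbv p r := by
    have := (plAbv p).add_le (f₀ - z p) r
    have e : f₀ - z p + r = f₀ + r - z p := by ring
    rwa [e] at this
  have h2 := hf₀ p hp
  have h3 := hr p hp
  linarith

/-- A sequence which tends to zero at `P` and to infinity at `S`. -/
theorem exists_seq_inf {P S : Set (Pl k)} (hP : P.Finite) (hS : S.Finite)
    (hPS : ∀ p ∈ S, p ∉ P) {F : Set k} (hF : F.Finite) : ∃ t : ℕ → k, (∀ j, t j ≠ 0) ∧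
      (∀ j, t j ∉ F) ∧ (∀ p ∈ P, Tendsto (fun j => plAbv p (t j)) atTop (𝓝 0)) ∧
      ∀ p ∈ S, Tendsto (fun j => plAbv p (t j)⁻¹) atTop (𝓝 0) := by
  classical
  have h1 : ∀ j : ℕ, ∃ t : k, t ≠ 0 ∧ t ∉ F ∧ (∀ p ∈ P, plAbv p t < 1 / ((j : ℝ) + 1)) ∧
      ∀ p ∈ S, (j : ℝ) + 1 < plAbv p t := by
    intro j
    have hj : (0 : ℝ) < 1 / ((j : ℝ) + 2) := by positivity
    choose c hc0 hc using fun p : Pl k => exists_small p hj
    obtain ⟨t, htF, ht⟩ := approx_avoid (hP.union hS) (fun p => if p ∈ P then 0 else (c p)⁻¹)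
      (δ := 1 / ((j : ℝ) + 1)) (by positivity) (hF.union (Set.finite_singleton 0))
    refine ⟨t, fun h => htF (Or.inr h), fun h => htF (Or.inl h), fun p hp => ?_, fun p hp => ?_⟩
    · have := ht p (Or.inl hp)
      rwa [if_pos hp, sub_zero] at this
    · have h2 := ht p (Or.inr hp)
      rw [if_neg (hPS p hp)] at h2
      have h3 : plAbv p (c p)⁻¹ ≤ plAbv p (t - (c p)⁻¹) + plAbv p t := by
        have := (plAbv p).add_le (-(t - (c p)⁻¹)) t
        have e : -(t - (c p)⁻¹) + t = (c p)⁻¹ := by ring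
        rwa [e, map_neg_eq_map] at this
      have h4 : (j : ℝ) + 2 < plAbv p (c p)⁻¹ := by
        rw [map_inv₀]
        have h5 := (plAbv p).pos (hc0 p)
        rw [lt_inv_comm₀ (by positivity) h5, inv_eq_one_div]
        exact hc p
      have h6 : 1 / ((j : ℝ) + 1) ≤ 1 := by
        rw [div_le_one (by positivity)]
        linarith [(Nat.cast_nonneg j : (0 : ℝ) ≤ j)]
      linarith
  choose t ht0 htF htP htS using h1
  refine ⟨t, ht0, htF, fun p hp => ?_, fun p hp => ?_⟩
  · exact squeeze_zero (fun j => (plAbv p).nonneg _) (fun j => (htP j p hp).le)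
      tendsto_one_div_add_atTop_nhds_zero_nat
  · refine squeeze_zero (fun j => (plAbv p).nonneg _) (fun j => ?_)
      tendsto_one_div_add_atTop_nhds_zero_nat
    rw [map_inv₀, ← one_div]
    exact one_div_le_one_div_of_le (by positivity) (htS j p hp).le

end approx

section cont

variable {k K D : Type} [Field k] [NumberField k] [Field K] [StarRing K]
  [DivisionRing D] [StarRing D] [Algebra k K] [Algebra k D] [Algebra K D] [IsScalarTower k K D]
  {d : kˣ} {s : K} {N : ℕ} {B : Basis (Fin N) k D} {p : Pl k} {X : Type} {l : Filter X}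

theorem tn_adj (hS : Setting k K D d s) (C : Cub K D) {f : X → D} {a : D} (hf : Tn B p l f a) :
    Tn B p l (fun t => C.adj (f t)) (C.adj a) := by
  have hK := char0K hS
  have e : ∀ z : D, C.adj z = z * z - (C.T z • (1 : D)) * z +
      (1 / 2 : K) • ((C.T z • (1 : D)) * (C.T z • (1 : D)) - C.T (z * z) • (1 : D)) := by
    intro z
    have h3 := congrArg C.T (C.adj_eq z)
    rw [map_add, map_sub, map_smul, map_smul, C.T_one, smul_eq_mul, smul_eq_mul] at h3
    have h5 : C.T (C.adj z) = C.S z := rfl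
    rw [h5] at h3
    rw [C.adj_eq, smul_mul_assoc, one_mul, smul_mul_smul_comm, mul_one, ← sub_smul, smul_smul]
    congr 2
    linear_combination (-1 / 2 : K) * h3
  simp only [e]
  exact ((hf.mul hf).sub ((tn_T C hf).mul hf)).add
    (tn_smulK _ (((tn_T C hf).mul (tn_T C hf)).sub (tn_T C (hf.mul hf))))

theorem tn_be (hS : Setting k K D d s) (C : Cub K D) (z : D) {f : X → D} {a : D}
    (hf : Tn B p l f a) : Tn B p l (fun t => be C z (f t)) (be C z a) := by
  have e : ∀ a : D, be C z a = C.T (z * C.adj a) • (1 : D) + (C.T (z * a) • (1 : D)) * a := by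
    intro a
    rw [be, smul_mul_assoc, one_mul]
  simp only [e]
  exact (tn_T C ((Tn.const z).mul (tn_adj hS C hf))).add
    ((tn_T C ((Tn.const z).mul hf)).mul hf)

theorem tn_pt (hS : Setting k K D d s) (C : Cub K D) (x u : D) {f : X → D} {a : D}
    (hf : Tn B p l f a) (ha : be C ((x - 1) * u) a ≠ 0) :
    Tn B p l (fun t => pt C x u (f t)) (pt C x u a) := by
  have h1 := tn_be hS C ((x - 1) * u) hf
  exact ((Tn.const u).mul (tn_star' hS h1)).mul (h1.inv ha)

end cont

section main

variable {k K D : Type} [Field k] [NumberField k] [Field K] [StarRing K]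
  [DivisionRing D] [StarRing D] [Algebra k K] [Algebra k D] [Algebra K D] [IsScalarTower k K D]
  {d : kˣ} {s : K} {N : ℕ}

theorem goodInt_smul {B : Basis (Fin N) k D} {v : HeightOneSpectrum (𝓞 k)} {x u : D} (c : K)
    (h : GoodInt B v u (x * u)) : GoodInt B v (c • u) (x * (c • u)) := by
  obtain ⟨g, y, e, h1, h2, h3, h4, h5⟩ := h
  refine ⟨g, y, e, ?_, h2, h3, h4, h5⟩
  rw [mul_smul_comm, smul_mul_assoc, h1, mul_smul_comm]

theorem finite_root2 (c0 c1 c2 : K) (h2 : c2 ≠ 0) :
    {r : k | c0 + algebraMap k K r * c1 + algebraMap k K r ^ 2 * c2 = 0}.Finite := by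
  classical
  let p : Polynomial K := Polynomial.C c0 + Polynomial.X * Polynomial.C c1 +
    Polynomial.X ^ 2 * Polynomial.C c2
  have hp : p ≠ 0 := by
    intro hp
    apply h2
    have := congrArg (fun q => Polynomial.coeff q 2) hp
    simpa [p, Polynomial.coeff_X, Polynomial.coeff_C] using this
  refine Set.Finite.of_finite_image (f := algebraMap k K) ?_ (algebraMap k K).injective.injOn
  refine (p.roots.toFinset.finite_toSet).subset ?_
  rintro _ ⟨r, hr, rfl⟩
  rw [Finset.mem_coe, Multiset.mem_toFinset, Polynomial.mem_roots hp, Polynomial.IsRoot]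
  have hr' : c0 + algebraMap k K r * c1 + algebraMap k K r ^ 2 * c2 = 0 := hr
  simp only [p, Polynomial.eval_add, Polynomial.eval_mul, Polynomial.eval_pow, Polynomial.eval_C,
    Polynomial.eval_X]
  linear_combination hr'

/-- The bad parameters on a line. -/
theorem finite_be (hS : Setting k K D d s) (C : Cub K D) {z a b : D} (h8 : C.T (z * b) = 0)
    (h8' : C.T (z * C.adj b) ≠ 0) : {t : k | be C z (a + t • b) = 0}.Finite := by
  have hK := char0K hS
  refine (finite_root2 (k := k) (3 * C.T (z * C.adj a) + C.T (z * a) * C.T a)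
    (3 * C.T (z * C.cr a b) + C.T (z * a) * C.T b) (3 * C.T (z * C.adj b))
    (mul_ne_zero (by norm_num) h8')).subset ?_
  intro t ht
  have h1 : be C z (a + t • b) = 0 := ht
  have h2 := congrArg C.T h1
  rw [be, ← algebraMap_smul K t b, C.adj_add, C.adj_smul, C.cr_smul_right, mul_add, mul_add,
    mul_add, mul_smul_comm, mul_smul_comm, mul_smul_comm] at h2
  simp only [map_add, map_smul, C.T_one, smul_eq_mul, h8, map_zero] at h2
  change _ = _
  linear_combination h2

/-- The line step, from the openness of the integral intertwiners. -/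
theorem line_step_of (hS : Setting k K D d s) (C : Cub K D) (h9 : finrank K D = 3 ^ 2)
    (B : Basis (Fin N) k D) {x u : D} (hx : x * star x = 1) (hxN : C.N x = 1)
    (hx3 : C.T x ≠ 3) (hu : u * star u = 1) (hT : C.T ((x - 1) * u) = 0)
    (hopen : ∀ (v : HeightOneSpectrum (𝓞 k)) (w1 : D), w1 ∉ Set.range (algebraMap K D) →
      GoodInt B v w1 (x * w1) → ∃ δ : ℝ, 0 < δ ∧ ∀ w : D,
        na B (plAbv (Sum.inl v)) (w - w1) < δ → C.T (x * w) = C.T w → C.S (x * w) = C.S w →
        C.N (x * w) = C.N w → GoodInt B v w (x * w))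
    {P : Set (Pl k)} (hP : P.Finite) (ξ : Pl k → D)
    (hξ : ∀ p ∈ P, star (ξ p) = ξ p ∧ be C ((x - 1) * u) (ξ p) ≠ 0) {ε : ℝ} (hε : 0 < ε) :
    ∃ w : D, w * star w = 1 ∧ C.T ((x - 1) * w) = 0 ∧
      (∀ p ∈ P, na B (plAbv p) (w - u * star (be C ((x - 1) * u) (ξ p)) *
        (be C ((x - 1) * u) (ξ p))⁻¹) < ε) ∧
      ∀ v : HeightOneSpectrum (𝓞 k), (Sum.inl v : Pl k) ∉ P → d ∉ LS (v.valuation k) →
        GoodInt B v u (x * u) → GoodInt B v w (x * w) := by
  have hK := char0K hS
  have hfin := hS.fin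
  have hcen := hS.cen
  have h : SCub C := scub hS h9 C
  have hu0 : u ≠ 0 := h.ne_zero_of_unitary hu
  have huc : u ∉ Set.range (algebraMap K D) := by
    rintro ⟨c, hc⟩
    have hc0 : c ≠ 0 := by
      rintro rfl
      exact hu0 (by rw [← hc, map_zero])
    rw [← hc, Algebra.algebraMap_eq_smul_one, mul_smul_comm, mul_one, map_smul, map_sub, C.T_one,
      smul_eq_mul] at hT
    exact hx3 (sub_eq_zero.mp ((mul_eq_zero.mp hT).resolve_left hc0))
  have hx1 : x - 1 ≠ 0 := by
    intro h0
    apply hx3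
    rw [sub_eq_zero.mp h0, C.T_one]
  have hz : (x - 1) * u ≠ 0 := mul_ne_zero hx1 hu0
  obtain ⟨b, hb, h8, h8'⟩ := exists_dir hS C h9 hz
  obtain ⟨a, ha, hfa⟩ := n4 hS C h9 B hx hxN hu huc hT hb h8 h8'
  have hst : ∀ (c : k) (x : D), star (c • x) = c • star x := fun c x => star_smul_k hS c x
  obtain ⟨e, he, heP⟩ := exists_seqs_symm (B := B) hst hP (y := ξ) fun p hp => (hξ p hp).1
  have h1 : ∀ j : ℕ, ∃ r : k, (∀ p ∈ P, plAbv p r < 1 / ((j : ℝ) + 1)) ∧
      GoodLine C B d x u (e j + r • (a - e j)) b := by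
    intro j
    obtain ⟨r, hr, hrF⟩ := (small_infinite hP (δ := 1 / ((j : ℝ) + 1))
      (by positivity)).exists_notMem_finite (hfa (e j) (he j))
    exact ⟨r, hr, not_not.mp hrF⟩
  choose r hr hG using h1
  have haP : ∀ p ∈ P, Tn B p atTop (fun j => e j + r j • (a - e j)) (ξ p) := by
    intro p hp
    have h2 : Tendsto (fun j => plAbv p (r j - 0)) atTop (𝓝 0) := by
      simp only [sub_zero]
      exact squeeze_zero (fun j => (plAbv p).nonneg _) (fun j => (hr j p hp).le)
        tendsto_one_div_add_atTop_nhds_zero_nat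
    have h3 := (heP p hp).add (tn_smulk h2 ((Tn.const a).sub (heP p hp)))
    rwa [zero_smul, add_zero] at h3
  have hev : ∀ᶠ j in atTop, ∀ p ∈ P,
      be C ((x - 1) * u) (e j + r j • (a - e j)) ≠ 0 ∧
      nm B p (pt C x u (e j + r j • (a - e j)) - pt C x u (ξ p)) < ε := by
    rw [Filter.eventually_all_finite hP]
    intro p hp
    exact ((tn_be hS C ((x - 1) * u) (haP p hp)).ev_ne (hξ p hp).2).and
      ((tn_pt hS C x u (haP p hp) (hξ p hp).2).ev_lt hε)
  obtain ⟨j, hj⟩ := hev.exists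
  obtain ⟨a1, ha1⟩ : ∃ a1, a1 = e j + r j • (a - e j) := ⟨_, rfl⟩
  rw [← ha1] at hj
  have ha1s : star a1 = a1 := by
    rw [ha1, star_add, hst, star_sub, he, ha]
  have hG1 := hG j
  rw [← ha1] at hG1
  obtain ⟨S, hSf, hSg⟩ := hG1
  obtain ⟨t, ht0, htF, htP, htS⟩ := exists_seq_inf hP (S := (Sum.inl '' S) \ P)
    ((hSf.image _).subset Set.sdiff_subset) (fun p hp => hp.2)
    (finite_be (k := k) hS C (a := a1) h8 h8')
  have hsym : ∀ c : k, star (a1 + c • b) = a1 + c • b := fun c => by
    rw [star_add, hst, ha1s, hb]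
  have hbe : ∀ i, be C ((x - 1) * u) (a1 + t i • b) ≠ 0 := fun i => htF i
  have hwu : ∀ i, pt C x u (a1 + t i • b) * star (pt C x u (a1 + t i • b)) = 1 := fun i =>
    pt_unitary h hu (comm_star_be h (hsym _)) (hbe i)
  have hwT : ∀ i, C.T ((x - 1) * pt C x u (a1 + t i • b)) = 0 := fun i =>
    pt_T h hT (hsym _) (hbe i)
  -- at `P`
  have hevP : ∀ᶠ i in atTop, ∀ p ∈ P,
      nm B p (pt C x u (a1 + t i • b) - pt C x u (ξ p)) < ε := by
    rw [Filter.eventually_all_finite hP]
    intro p hp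
    have h2 : Tendsto (fun j => plAbv p (t j - 0)) atTop (𝓝 0) := by
      simpa only [sub_zero] using htP p hp
    have h3 := (Tn.const (B := B) (p := p) (l := atTop) a1).add (Tn.smul (B := B) h2 b)
    rw [zero_smul, add_zero] at h3
    exact ((tn_pt hS C x u h3 (hj p hp).1).sub (Tn.const (pt C x u (ξ p)))).ev_small (hj p hp).2
  -- at `S`
  have hevS : ∀ᶠ i in atTop, ∀ v ∈ S, (Sum.inl v : Pl k) ∉ P → GoodInt B v u (x * u) →
      GoodInt B v (pt C x u (a1 + t i • b)) (x * pt C x u (a1 + t i • b)) := by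
    rw [Filter.eventually_all_finite hSf]
    intro v hv
    by_cases hvP : (Sum.inl v : Pl k) ∈ P
    · exact Eventually.of_forall fun i h => absurd hvP h
    by_cases hgu : GoodInt B v u (x * u)
    swap
    · exact Eventually.of_forall fun i _ h => absurd h hgu
    obtain ⟨c, hc⟩ : ∃ c : K, c = star (C.T ((x - 1) * u * C.adj b)) *
      (C.T ((x - 1) * u * C.adj b))⁻¹ := ⟨_, rfl⟩
    have hptb : pt C x u b = c • u := by
      have e1 : be C ((x - 1) * u) b = C.T ((x - 1) * u * C.adj b) • (1 : D) := by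
        rw [be, h8, zero_smul, add_zero]
      rw [pt, e1, h.smul, star_one, smul_inv₀, inv_one, mul_smul_comm, mul_smul_comm, mul_one,
        mul_one, smul_smul, hc, mul_comm]
    have hbb : be C ((x - 1) * u) b ≠ 0 := by
      rw [be, h8, zero_smul, add_zero]
      exact smul_ne_zero h8' one_ne_zero
    have hc0 : c ≠ 0 := by
      rw [hc]
      exact mul_ne_zero ((star_ne_zero).mpr h8') (inv_ne_zero h8')
    have hw1 : c • u ∉ Set.range (algebraMap K D) := by
      rintro ⟨e, he⟩
      apply huc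
      refine ⟨c⁻¹ * e, ?_⟩
      rw [map_mul, he, ← Algebra.smul_def, smul_smul, inv_mul_cancel₀ hc0, one_smul]
    obtain ⟨δ, hδ, hδ'⟩ := hopen v (c • u) hw1 (goodInt_smul c hgu)
    have h2 : Tendsto (fun j => plAbv (Sum.inl v) ((t j)⁻¹ - 0)) atTop (𝓝 0) := by
      simpa only [sub_zero] using htS (Sum.inl v) ⟨⟨v, hv, rfl⟩, hvP⟩
    have h3 := (Tn.smul (B := B) h2 a1).add (Tn.const (B := B) (p := Sum.inl v) (l := atTop) b)
    rw [zero_smul, zero_add] at h3
    have h4 := tn_pt hS C x u h3 hbb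
    have h5 : ∀ i, pt C x u ((t i)⁻¹ • a1 + b) = pt C x u (a1 + t i • b) := by
      intro i
      have := (pt_smul hS (C := C) x u (ht0 i) ((t i)⁻¹ • a1 + b)).2
      rw [← this, smul_add, smul_smul, mul_inv_cancel₀ (ht0 i), one_smul]
    simp only [h5] at h4
    rw [hptb] at h4
    filter_upwards [h4.ev_lt hδ] with i hi _ _
    obtain ⟨s1, s2, s3⟩ := h.same hx hxN (hwu i) (hwT i)
    exact hδ' _ hi s1 s2 s3
  obtain ⟨i, hi1, hi2⟩ := (hevP.and hevS).exists
  refine ⟨pt C x u (a1 + t i • b), hwu i, hwT i, fun p hp => hi1 p hp, fun v hvP hd hgu => ?_⟩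
  by_cases hv : v ∈ S
  · exact hi2 v hv hvP hgu
  · exact (hSg v hv hd (t i)).2

end main

end Vale.Agent.P011.H511
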