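import Vale.Agent.P011.H511.RBase
import Vale.Agent.P011.One.SplitLT

/-!
At a real place of `k` which does not split in `K` the quadratic form is indefinite as soon as
the hermitian form attached to `g` is indefinite.
-/

open Module Polynomial Matrix NumberField

set_option linter.unusedSectionVars false
set_option linter.unusedVariables false

namespace Vale.Agent.P011.H511

open Vale.Agent.P011.H775 Vale.Agent.P011.H948 Vale.Agent.P011.Even Vale.Agent.P011.RP

/-- The value of the hermitian form attached to `H`. -/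
noncomputable def hv (H : Matrix (Fin 3) (Fin 3) ℂ) (v : Fin 3 → ℂ) : ℝ :=
  (star v ⬝ᵥ (H *ᵥ v)).re

theorem hv_cont (H : Matrix (Fin 3) (Fin 3) ℂ) : Continuous (hv H) := by
  unfold hv
  apply Complex.continuous_re.comp
  simp only [Matrix.mulVec, dotProduct, Fin.sum_univ_three, Pi.star_apply]
  fun_prop

theorem hv_real {H : Matrix (Fin 3) (Fin 3) ℂ} (hH : Hᴴ = H) (v : Fin 3 → ℂ) :
    star v ⬝ᵥ (H *ᵥ v) = (hv H v : ℂ) := by
  have h1 : star (star v ⬝ᵥ (H *ᵥ v)) = star v ⬝ᵥ (H *ᵥ v) := by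
    rw [← Matrix.star_dotProduct, Matrix.star_mulVec, hH, ← Matrix.dotProduct_mulVec]
  exact (Complex.conj_eq_iff_re.mp h1).symm

/-- The hermitian form attached to `g` takes both signs. -/
def Ind {K D : Type} [Field K] [StarRing K] [DivisionRing D] [StarRing D] [Algebra K D]
    (R : RData K D 3) (g : D) : Prop :=
  (∃ v, 0 < hv (R.f g * R.A) v) ∧ ∃ v, hv (R.f g * R.A) v < 0

variable {k K D : Type} [Field k] [NumberField k] [Field K] [NumberField K] [StarRing K]
  [DivisionRing D] [StarRing D] [Algebra k K] [Algebra k D] [Algebra K D] [IsScalarTower k K D]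
  {d : kˣ} {s : K}

theorem im_s (hS : Setting k K D d s) (R : RData K D 3) :
    R.s s = ((R.s s).im : ℂ) * Complex.I ∧ (R.s s).im ≠ 0 := by
  have h1 := R.hs s
  rw [hS.star_s, map_neg] at h1
  have h2 := congrArg Complex.re h1
  simp only [Complex.neg_re, Complex.star_def, Complex.conj_re] at h2
  have h3 : (R.s s).re = 0 := by linarith
  have h4 : R.s s = ((R.s s).im : ℂ) * Complex.I := by
    apply Complex.ext
    · simp [h3]
    · simp
  refine ⟨h4, fun h5 => ?_⟩
  rw [h5, Complex.ofReal_zero, zero_mul] at h4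
  exact s_ne_zero hS ((map_eq_zero R.s).mp h4)

/-- Density of `D` at a nonsplit real place. -/
theorem dense_nonsplit (hS : Setting k K D d s) (hdeg : finrank K D = 3 ^ 2) (R : RData K D 3) :
    Dense (Set.range R.f) := by
  have hfin := hS.fin
  have hcen := hS.cen
  let _ : Algebra K ℂ := R.s.toAlgebra
  let f : D →ₐ[K] Matrix (Fin 3) (Fin 3) ℂ := { R.f with
    commutes' := fun c => by
      change R.f (algebraMap K D c) = _
      rw [R.hf, Matrix.algebraMap_eq_diagonal]
      rfl }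
  let S : AddSubgroup (Matrix (Fin 3) (Fin 3) ℂ) := (R.f : D →+ Matrix (Fin 3) (Fin 3) ℂ).range
  have hS' : ∀ X, X ∈ S ↔ ∃ j : D, R.f j = X := fun X => AddMonoidHom.mem_range
  have hSr : (S : Set (Matrix (Fin 3) (Fin 3) ℂ)) = Set.range R.f := by
    ext X
    exact hS' X
  obtain ⟨hs1, hs2⟩ := im_s hS R
  have hI : ∀ X ∈ Submodule.span ℝ (S : Set (Matrix (Fin 3) (Fin 3) ℂ)),
      Complex.I • X ∈ Submodule.span ℝ (S : Set (Matrix (Fin 3) (Fin 3) ℂ)) := by
    intro X hX
    induction hX using Submodule.span_induction with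
    | mem X hX =>
      obtain ⟨j, rfl⟩ := (hS' X).mp hX
      have h1 : Complex.I • R.f j = ((R.s s).im⁻¹ : ℝ) • R.f (s • j) := by
        have h2 : R.f (s • j) = R.s s • R.f j := by
          rw [Algebra.smul_def, map_mul, R.hf, Matrix.scalar_apply, ← Matrix.smul_eq_diagonal_mul]
        have h3 : R.s s • R.f j = (R.s s).im • (Complex.I • R.f j) := by
          conv_lhs => rw [hs1]
          rw [mul_smul, Complex.coe_smul]
        rw [h2, h3, smul_smul, inv_mul_cancel₀ hs2, one_smul]
      rw [h1]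
      exact Submodule.smul_mem _ _ (Submodule.subset_span ((hS' _).mpr ⟨_, rfl⟩))
    | zero => rw [smul_zero]; exact Submodule.zero_mem _
    | add a b _ _ ha hb => rw [smul_add]; exact Submodule.add_mem _ ha hb
    | smul c a _ ha => rw [smul_comm]; exact Submodule.smul_mem _ _ ha
  have hspan : Submodule.span ℝ (S : Set (Matrix (Fin 3) (Fin 3) ℂ)) = ⊤ := by
    rw [eq_top_iff]
    intro X _
    have hX : X ∈ Submodule.span ℂ (Set.range f) := by
      rw [RP.span_split (by norm_num) hdeg f]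
      exact Submodule.mem_top
    induction hX using Submodule.span_induction with
    | mem X hX =>
      obtain ⟨j, rfl⟩ := hX
      exact Submodule.subset_span ((hS' _).mpr ⟨j, rfl⟩)
    | zero => exact Submodule.zero_mem _
    | add a b _ _ ha hb => exact Submodule.add_mem _ (ha trivial) (hb trivial)
    | smul c a _ ha =>
      have h1 : c • a = c.re • a + c.im • (Complex.I • a) := by
        conv_lhs => rw [← Complex.re_add_im c]
        rw [add_smul, mul_smul, Complex.coe_smul, Complex.coe_smul]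
      rw [h1]
      exact Submodule.add_mem _ (Submodule.smul_mem _ _ (ha trivial))
        (Submodule.smul_mem _ _ (hI _ (ha trivial)))
  rw [← hSr]
  refine dense_of_span S (fun q X hX => ?_) hspan
  obtain ⟨j, rfl⟩ := (hS' X).mp hX
  refine (hS' _).mpr ⟨(q : K) • j, ?_⟩
  rw [Algebra.smul_def, map_mul, R.hf, Matrix.scalar_apply, ← Matrix.smul_eq_diagonal_mul,
    map_ratCast, ← Complex.coe_smul, Complex.ofReal_ratCast]

/-- **Real places of `k` which do not split in `K`.** -/
theorem realOK_nonsplit (hS : Setting k K D d s) (hdeg : finrank K D = 3 ^ 2) (C : Cub K D)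
    {g : D} (hg : star g = g) (hgc : ∀ c : K, g ≠ c • (1 : D)) (τ : k →+* ℝ) (R : RData K D 3)
    (hR : ∀ c : k, R.s (algebraMap k K c) = (τ c : ℂ)) (hI : Ind R g) :
    RealOK C τ g := by
  have hfin := hS.fin
  have hcen := hS.cen
  have hK := char0K hS
  let _ : Algebra K ℂ := R.s.toAlgebra
  let f : D →ₐ[K] Matrix (Fin 3) (Fin 3) ℂ := { R.f with
    commutes' := fun c => by
      change R.f (algebraMap K D c) = _
      rw [R.hf, Matrix.algebraMap_eq_diagonal]
      rfl }
  obtain ⟨G, hG⟩ : ∃ G, G = R.f g := ⟨_, rfl⟩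
  obtain ⟨P, hP⟩ : ∃ P, P = R.f (pp g) := ⟨_, rfl⟩
  have hGA : G * R.A = R.A * Gᴴ := by
    have := R.star_f g
    rwa [hg, ← hG] at this
  have hps : star (pp g) = pp g := (scub hS hdeg C).pp_symm hg
  have hPA : P * R.A = R.A * Pᴴ := by
    have := R.star_f (pp g)
    rwa [hps, ← hP] at this
  have hGP : G * P = P * G := by
    rw [hG, hP, ← map_mul, ← map_mul, (pp_comm (g := g)).eq]
  have hdet : R.A.det ≠ 0 := ((Matrix.isUnit_iff_isUnit_det _).mp R.unit).ne_zero
  have hp0 : pp g ≠ 0 := (scub hS hdeg C).pp_ne_zero three_ne_zero hgc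
  obtain ⟨A1, hA1⟩ := R.unit
  obtain ⟨Ai, hAi⟩ : ∃ Ai : Matrix (Fin 3) (Fin 3) ℂ,
    Ai = ((A1⁻¹ : (Matrix (Fin 3) (Fin 3) ℂ)ˣ) : Matrix _ _ ℂ) := ⟨_, rfl⟩
  have hAAi : R.A * Ai = 1 := by rw [← hA1, hAi, Units.mul_inv]
  have hAiA : Ai * R.A = 1 := by rw [← hA1, hAi, Units.inv_mul]
  -- a cyclic vector
  obtain ⟨e, he⟩ : ∃ e, cyc G e ≠ 0 := by
    obtain ⟨a, ha, hr⟩ := exists_roots hS hdeg C hg hgc f
    rw [hG]
    exact exists_cyc_of_roots ha hr
  -- the determinant of `A` is real
  obtain ⟨a, ha⟩ : ∃ a : ℝ, R.A.det = (a : ℂ) := by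
    refine ⟨R.A.det.re, (Complex.conj_eq_iff_re.mp ?_).symm⟩
    have := Matrix.det_conjTranspose R.A
    rw [R.hA] at this
    exact this.symm
  have ha0 : a ≠ 0 := by
    rintro rfl
    exact hdet (by rw [ha, Complex.ofReal_zero])
  have hGAh : (G * R.A)ᴴ = G * R.A := by
    rw [Matrix.conjTranspose_mul, R.hA, ← hGA]
  -- the continuous function
  let sg : Matrix (Fin 3) (Fin 3) ℂ → Matrix (Fin 3) (Fin 3) ℂ :=
    fun X => X + R.A * Xᴴ * Ai
  let Fn : Matrix (Fin 3) (Fin 3) ℂ → ℝ :=
    fun X => ((G * P * P * (G * sg X - sg X * G).adjugate).trace).re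
  have hsg : Continuous sg :=
    continuous_id.add ((continuous_const.mul continuous_id.matrix_conjTranspose).mul
      continuous_const)
  have hFn : Continuous Fn := by
    apply Complex.continuous_re.comp
    apply Continuous.matrix_trace
    apply Continuous.mul continuous_const
    apply Continuous.matrix_adjugate
    exact (continuous_const.mul hsg).sub (hsg.mul continuous_const)
  have hsgf : ∀ x : D, sg (R.f x) = R.f (x + star x) := by
    intro x
    change R.f x + R.A * (R.f x)ᴴ * Ai = _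
    rw [← R.star_f, mul_assoc, hAAi, mul_one, map_add]
  -- the key step
  have key : ∀ v, hv (G * R.A) v ≠ 0 → ∃ X, 0 < Fn X * (a * hv (G * R.A) v) := by
    intro v hv0
    obtain ⟨Y, hY⟩ : ∃ Y, Y = R.f (pp g)⁻¹ * R.A := ⟨_, rfl⟩
    have hPY : P * Y = R.A := by
      rw [hY, hP, ← mul_assoc, ← map_mul, mul_inv_cancel₀ hp0, map_one, one_mul]
    obtain ⟨ve, hve⟩ : ∃ ve, Y *ᵥ ve = e := by
      refine ⟨(Ai * P) *ᵥ e, ?_⟩
      rw [Matrix.mulVec_mulVec, hY, mul_assoc, ← mul_assoc R.A, hAAi, one_mul, hP, ← map_mul,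
        inv_mul_cancel₀ hp0, map_one, Matrix.one_mulVec]
    have hcont : Continuous fun r : ℝ =>
        hv (G * R.A) (ve + (r : ℂ) • (v - ve)) * (a * hv (G * R.A) v) * a⁻¹ := by
      refine ((hv_cont _).comp ?_).mul continuous_const |>.mul continuous_const
      exact continuous_const.add (Complex.continuous_ofReal.smul continuous_const)
    have hopen : IsOpen {r : ℝ | 0 < hv (G * R.A) (ve + (r : ℂ) • (v - ve)) *
        (a * hv (G * R.A) v) * a⁻¹} := isOpen_lt continuous_const hcont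
    have hmem : (1 : ℝ) ∈ {r : ℝ | 0 < hv (G * R.A) (ve + (r : ℂ) • (v - ve)) *
        (a * hv (G * R.A) v) * a⁻¹} := by
      change 0 < hv (G * R.A) (ve + ((1 : ℝ) : ℂ) • (v - ve)) * (a * hv (G * R.A) v) * a⁻¹
      rw [Complex.ofReal_one, one_smul, add_sub_cancel]
      have : hv (G * R.A) v * (a * hv (G * R.A) v) * a⁻¹ = hv (G * R.A) v * hv (G * R.A) v := by
        field_simp
      rw [this]
      exact mul_self_pos.mpr hv0
    obtain ⟨δ, hδ, hball⟩ := Metric.isOpen_iff.mp hopen 1 hmem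
    have hinf : ((fun r : ℝ => (r : ℂ)) '' Set.Ioo (1 : ℝ) (1 + δ)).Infinite :=
      (Set.Ioo_infinite (by linarith)).image Complex.ofReal_injective.injOn
    obtain ⟨t, ⟨r, hr, rfl⟩, ht⟩ := exists_cyc_line G e (Y *ᵥ v - e) (t₀ := 0)
      (by rwa [zero_smul, add_zero]) hinf
    have hr' := hball (show r ∈ Metric.ball (1 : ℝ) δ by
      rw [Metric.mem_ball, Real.dist_eq, abs_of_pos (by linarith [hr.1])]
      linarith [hr.2])
    obtain ⟨v', hv'⟩ : ∃ v', v' = ve + (r : ℂ) • (v - ve) := ⟨_, rfl⟩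
    obtain ⟨y, hy⟩ : ∃ y, y = Y *ᵥ v' := ⟨_, rfl⟩
    have hcy : cyc G y ≠ 0 := by
      have : y = e + (r : ℂ) • (Y *ᵥ v - e) := by
        rw [hy, hv', Matrix.mulVec_add, Matrix.mulVec_smul, Matrix.mulVec_sub, hve]
      rw [this]
      exact ht
    have hr2 : 0 < hv (G * R.A) v' * (a * hv (G * R.A) v) * a⁻¹ := by
      rw [hv']
      exact hr'
    obtain ⟨u, hu⟩ : ∃ u, u = star (y ⨯₃ (G *ᵥ y)) := ⟨_, rfl⟩
    have hval := val_nonsplit R.hA hGA hPA hGP hdet (v := v') (y := y) (u := u)
      (by rw [hy, Matrix.mulVec_mulVec, hPY]) hu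
    refine ⟨R.A * vecMulVec u (star u), ?_⟩
    have hX : sg (R.A * vecMulVec u (star u)) = (2 : ℂ) • (R.A * vecMulVec u (star u)) := by
      change R.A * vecMulVec u (star u) + R.A * (R.A * vecMulVec u (star u))ᴴ * Ai = _
      rw [Matrix.conjTranspose_mul, R.hA, Matrix.conjTranspose_vecMulVec, star_star,
        mul_assoc R.A, mul_assoc (vecMulVec u (star u)), hAAi, mul_one, two_smul]
    have hF : Fn (R.A * vecMulVec u (star u)) =
        4 * (Complex.normSq (cyc G y) * a * hv (G * R.A) v') := by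
      change ((G * P * P * (G * sg _ - sg _ * G).adjugate).trace).re = _
      rw [hX, Matrix.mul_smul, Matrix.smul_mul, ← smul_sub, Matrix.adjugate_smul,
        Matrix.mul_smul, Matrix.trace_smul, hval, ha, hv_real hGAh, Fintype.card_fin]
      have h1 : cyc G y * star (cyc G y) = (Complex.normSq (cyc G y) : ℂ) :=
        Complex.mul_conj _
      rw [h1, smul_eq_mul]
      have h2 : (2 : ℂ) ^ (3 - 1) * ((Complex.normSq (cyc G y) : ℂ) * (a : ℂ) *
          (hv (G * R.A) v' : ℂ)) =
          ((4 * (Complex.normSq (cyc G y) * a * hv (G * R.A) v') : ℝ) : ℂ) := by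
        push_cast
        ring
      rw [h2, Complex.ofReal_re]
    rw [hF]
    have h3 : 0 < Complex.normSq (cyc G y) := Complex.normSq_pos.mpr hcy
    have h4 : 0 < a * a := mul_self_pos.mpr ha0
    have h5 : 4 * (Complex.normSq (cyc G y) * a * hv (G * R.A) v') * (a * hv (G * R.A) v) =
        4 * Complex.normSq (cyc G y) * (a * a) *
          (hv (G * R.A) v' * (a * hv (G * R.A) v) * a⁻¹) := by
      field_simp
    rw [h5]
    positivity
  have hτd : τ d ≠ 0 := by
    intro h0
    exact d.ne_zero ((map_eq_zero τ).mp h0)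
  -- from a sign of the hermitian form to a sign of the quadratic form
  have main : ∀ v, hv (G * R.A) v ≠ 0 → ∃ (r : D) (c : k), Val C g r c ∧
      0 < τ c * (τ d * (a * hv (G * R.A) v)) := by
    intro v hv0
    obtain ⟨X, hX⟩ := key v hv0
    obtain ⟨Z, hZ, ⟨x, rfl⟩⟩ := (dense_nonsplit hS hdeg R).inter_open_nonempty _
      (isOpen_lt continuous_const (hFn.mul (continuous_const (y := a * hv (G * R.A) v)))) ⟨X, hX⟩
    have hZ' : 0 < Fn (R.f x) * (a * hv (G * R.A) v) := hZ
    have hj : star (x + star x) = x + star x := by rw [star_add, star_star, add_comm]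
    obtain ⟨c, hc, h1⟩ := val_comm hS hdeg C hg hj
    refine ⟨_, c, hc, ?_⟩
    have h2 := h1 ℂ f
    have h3 : ∀ c : k, algebraMap K ℂ (algebraMap k K c) = (τ c : ℂ) := hR
    rw [h3, h3] at h2
    have h4 : Fn (R.f x) = ((f g * f (pp g) * f (pp g) *
        (f g * f (x + star x) - f (x + star x) * f g).adjugate).trace).re := by
      change ((G * P * P * (G * sg _ - sg _ * G).adjugate).trace).re = _
      rw [hsgf, hG, hP]
      rfl
    have h5 : τ c = τ d * Fn (R.f x) := by
      have := congrArg Complex.re h2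
      rw [Complex.ofReal_re, Complex.re_ofReal_mul, ← h4] at this
      exact this
    rw [h5]
    have h6 : τ d * Fn (R.f x) * (τ d * (a * hv (G * R.A) v)) =
        (τ d * τ d) * (Fn (R.f x) * (a * hv (G * R.A) v)) := by ring
    rw [h6]
    exact mul_pos (mul_self_pos.mpr hτd) hZ'
  obtain ⟨⟨v, hv1⟩, ⟨w, hw1⟩⟩ := hI
  rw [← hG] at hv1 hw1
  obtain ⟨r1, c1, hc1, h1⟩ := main v hv1.ne'
  obtain ⟨r2, c2, hc2, h2⟩ := main w hw1.ne
  have hκ : τ d * a ≠ 0 := mul_ne_zero hτd ha0
  have h1' : 0 < (τ d * a) * (τ c1 * hv (G * R.A) v) := by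
    calc 0 < _ := h1
      _ = _ := by ring
  have h2' : 0 < (τ d * a) * (τ c2 * hv (G * R.A) w) := by
    calc 0 < _ := h2
      _ = _ := by ring
  rcases lt_or_gt_of_ne hκ with hk | hk
  · have e1 : τ c1 < 0 := by
      by_contra hcon
      push Not at hcon
      have := mul_nonneg hcon hv1.le
      nlinarith
    have e2 : 0 < τ c2 := by
      by_contra hcon
      push Not at hcon
      have := mul_nonneg_of_nonpos_of_nonpos hcon hw1.le
      nlinarith
    exact ⟨⟨r2, c2, hc2, e2⟩, ⟨r1, c1, hc1, e1⟩⟩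
  · have e1 : 0 < τ c1 := by
      by_contra hcon
      push Not at hcon
      have := mul_nonpos_of_nonpos_of_nonneg hcon hv1.le
      nlinarith
    have e2 : τ c2 < 0 := by
      by_contra hcon
      push Not at hcon
      have := mul_nonpos_of_nonneg_of_nonpos hcon hw1.le
      nlinarith
    exact ⟨⟨r1, c1, hc1, e1⟩, ⟨r2, c2, hc2, e2⟩⟩

end Vale.Agent.P011.H511
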