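import Vale.Agent.P011.H511.RSplit
import Vale.Agent.P011.H511.RNon

/-!
The quadratic form `T (g p p r^#)` on `V0`, for a symmetric `p` which commutes with `g`: it is
indefinite at the real places as soon as the hermitian form of `g` is.
-/

open Module Polynomial Matrix NumberField

set_option linter.unusedSectionVars false
set_option linter.unusedVariables false

namespace Vale.Agent.P011.H511

open Vale.Agent.P011.H775 Vale.Agent.P011.H948 Vale.Agent.P011.Even Vale.Agent.P011.RP

variable {k K D : Type} [Field k] [NumberField k] [Field K] [NumberField K] [StarRing K]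
  [DivisionRing D] [StarRing D] [Algebra k K] [Algebra k D] [Algebra K D] [IsScalarTower k K D]
  {d : kˣ} {s : K}

/-- `c` is the value of the quadratic form at `r`. -/
def ValP (C : Cub K D) (g p r : D) (c : k) : Prop :=
  star r = r ∧ C.T r = 0 ∧ C.T (g * r) = 0 ∧ C.T (g * g * r) = 0 ∧
    C.T (g * p * p * C.adj r) = algebraMap k K c

/-- The quadratic form takes both signs at the real place `φ`. -/
def RealOKP (C : Cub K D) (φ : k →+* ℝ) (g p : D) : Prop :=
  (∃ (r : D) (c : k), ValP C g p r c ∧ 0 < φ c) ∧ ∃ (r : D) (c : k), ValP C g p r c ∧ φ c < 0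

/-- The element `s (g j - j g)`. -/
theorem valP_comm (hS : Setting k K D d s) (hdeg : finrank K D = 3 ^ 2) (C : Cub K D) {g j p : D}
    (hg : star g = g) (hj : star j = j) (hps : star p = p) (hgp : g * p = p * g) :
    ∃ c : k, ValP C g p (s • (g * j - j * g)) c ∧ ∀ (Ω : Type) [Field Ω] [Algebra K Ω]
      (f : D →ₐ[K] Matrix (Fin 3) (Fin 3) Ω), algebraMap K Ω (algebraMap k K c) =
        algebraMap K Ω (algebraMap k K d) *
          (f g * f p * f p * (f g * f j - f j * f g).adjugate).trace := by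
  have := hS.fin
  have := hS.cen
  have h := scub hS hdeg C
  have hr : star (s • (g * j - j * g)) = s • (g * j - j * g) := by
    rw [hS.star_smul, hS.star_s, star_sub, star_mul, star_mul, hg, hj, neg_smul, ← smul_neg,
      neg_sub]
  have hT : ∀ a : D, a * g = g * a → C.T (a * (s • (g * j - j * g))) = 0 := by
    intro a ha
    rw [mul_smul_comm, map_smul, mul_sub, map_sub]
    have : C.T (a * (j * g)) = C.T (a * (g * j)) := by
      rw [← mul_assoc a j g, C.T_comm, ← mul_assoc, ← ha, mul_assoc]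
    rw [this, sub_self, smul_zero]
  have hgas : star (g * p * p) = g * p * p := by
    rw [star_mul, star_mul, hg, hps, hgp, ← mul_assoc, mul_assoc p g p, hgp, ← mul_assoc]
  have hq : star (C.T (g * p * p * C.adj (s • (g * j - j * g)))) =
      C.T (g * p * p * C.adj (s • (g * j - j * g))) :=
    h.T_mul_symm hgas (h.adj_symm hr)
  obtain ⟨c, hc⟩ := (hS.fix _).mp hq
  refine ⟨c, ⟨hr, ?_, hT g rfl, hT (g * g) (mul_assoc g g g), hc.symm⟩, ?_⟩
  · have := hT 1 (by rw [one_mul, mul_one])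
    rwa [one_mul] at this
  · intro Ω _ _ f
    rw [hc, C.adj_smul, hS.sq, mul_smul_comm, map_smul, smul_eq_mul, map_mul]
    congr 1
    obtain ⟨h1, -, -, -⟩ := spl_compat C hdeg f (g * p * p * C.adj (g * j - j * g))
    obtain ⟨-, -, -, h2⟩ := spl_compat C hdeg f (g * j - j * g)
    rw [← h1, map_mul, map_mul, map_mul, ← h2, map_sub, map_mul, map_mul]

/-- **Real places of `k` which split in `K`.** -/
theorem realOKP_split (hS : Setting k K D d s) (hdeg : finrank K D = 3 ^ 2) (C : Cub K D) {g p : D}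
    (hg : star g = g) (hgc : ∀ c : K, g ≠ c • (1 : D)) (hps : star p = p) (hgp : g * p = p * g)
    (hp0 : p ≠ 0) (τ : k →+* ℝ) (hτ : 0 < τ d) :
    RealOKP C τ g p := by
  have hfin := hS.fin
  have hcen := hS.cen
  have hK := char0K hS
  have hD0 : CharZero D := charZero_of_injective_algebraMap (algebraMap K D).injective
  obtain ⟨ψ, f₀, hψ, hf₀⟩ := Six.H359.exists_spl_real3 hS hdeg τ hτ
  let _ : Algebra K ℝ := ψ.toAlgebra
  let f : D →ₐ[K] Matrix (Fin 3) (Fin 3) ℝ := { f₀ with
    commutes' := fun c => by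
      change f₀ (algebraMap K D c) = _
      rw [hf₀, Matrix.algebraMap_eq_diagonal]
      rfl }
  -- density
  let S : AddSubgroup (Matrix (Fin 3) (Fin 3) ℝ) :=
    (J0 hS).toAddSubgroup.map (f : D →+ Matrix (Fin 3) (Fin 3) ℝ)
  have hS' : ∀ X, X ∈ S ↔ ∃ j : D, star j = j ∧ f j = X := by
    intro X
    exact AddSubgroup.mem_map
  have hspan : Submodule.span ℝ (S : Set (Matrix (Fin 3) (Fin 3) ℝ)) = ⊤ := by
    rw [eq_top_iff, ← RP.span_split (by norm_num) hdeg f, Submodule.span_le]
    rintro _ ⟨x, rfl⟩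
    obtain ⟨c, hc⟩ : ∃ c : ℝ, c = ψ s := ⟨_, rfl⟩
    have hs0 := s_ne_zero hS
    have hm1 : star ((2 : K)⁻¹ • (x + star x)) = (2 : K)⁻¹ • (x + star x) := by
      rw [hS.star_smul, star_inv₀, star_ofNat, star_add, star_star, add_comm]
    have hm2 : star ((2 * s)⁻¹ • (x - star x)) = (2 * s)⁻¹ • (x - star x) := by
      rw [hS.star_smul, star_inv₀, star_mul', star_ofNat, hS.star_s, star_sub, star_star,
        mul_neg, inv_neg, neg_smul, ← smul_neg, neg_sub]
    have hx : x = (2 : K)⁻¹ • (x + star x) + s • ((2 * s)⁻¹ • (x - star x)) := by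
      rw [smul_smul, mul_inv, mul_comm (2 : K)⁻¹ s⁻¹, ← mul_assoc, mul_inv_cancel₀ hs0, one_mul,
        ← smul_add]
      have : x + star x + (x - star x) = (2 : K) • x := by
        rw [two_smul]
        abel
      rw [this, smul_smul, inv_mul_cancel₀ two_ne_zero, one_smul]
    rw [SetLike.mem_coe, hx, map_add, map_smul f s]
    refine Submodule.add_mem _ (Submodule.subset_span ((hS' _).mpr ⟨_, hm1, rfl⟩)) ?_
    rw [← algebraMap_smul ℝ s]
    exact Submodule.smul_mem _ _ (Submodule.subset_span ((hS' _).mpr ⟨_, hm2, rfl⟩))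
  have hdense : Dense (S : Set (Matrix (Fin 3) (Fin 3) ℝ)) := by
    refine dense_of_span S (fun q X hX => ?_) hspan
    obtain ⟨j, hj, rfl⟩ := (hS' X).mp hX
    refine (hS' _).mpr ⟨(q : k) • j, ?_, ?_⟩
    · rw [star_smul_k hS, hj]
    · rw [← algebraMap_smul K (q : k) j, map_smul, ← algebraMap_smul ℝ (algebraMap k K q) (f j)]
      congr 1
      change ψ (algebraMap k K q) = q
      rw [map_ratCast, map_ratCast]
  -- both signs
  have hcont : Continuous fun X : Matrix (Fin 3) (Fin 3) ℝ =>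
      (f g * f p * f p * (f g * X - X * f g).adjugate).trace := by
    apply Continuous.matrix_trace
    apply Continuous.mul continuous_const
    apply Continuous.matrix_adjugate
    exact (continuous_const.mul continuous_id).sub (continuous_id.mul continuous_const)
  have hg0 : g ≠ 0 := fun h0 => hgc 0 (by rw [h0, zero_smul])
  have hunit : IsUnit (f g * f p * f p) := by
    rw [← map_mul, ← map_mul]
    exact (isUnit_iff_ne_zero.mpr (mul_ne_zero (mul_ne_zero hg0 hp0) hp0)).map f
  have hcomm : f g * f p = f p * f g := by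
    rw [← map_mul, ← map_mul, hgp]
  have hcyc : ∃ e, cyc (f g)ᵀ e ≠ 0 := by
    apply exists_cyc_real
    let _ : Algebra K ℂ := (Complex.ofRealHom.comp ψ).toAlgebra
    let fC : D →ₐ[K] Matrix (Fin 3) (Fin 3) ℂ :=
      { (Complex.ofRealHom.mapMatrix (m := Fin 3)).comp f₀ with
        commutes' := fun c => by
          change (f₀ (algebraMap K D c)).map Complex.ofRealHom = _
          rw [hf₀, Matrix.algebraMap_eq_diagonal, Matrix.scalar_apply, Matrix.diagonal_map
            (map_zero _)]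
          rfl }
    obtain ⟨a, ha, hr⟩ := exists_roots hS hdeg C hg hgc fC
    refine exists_cyc_of_roots ha (fun i => ?_)
    have h1 : ((f g)ᵀ.map Complex.ofRealHom) = (fC g)ᵀ := by
      rw [Matrix.transpose_map]
      rfl
    rw [h1, Matrix.charpoly_transpose]
    exact hr i
  obtain ⟨⟨X, hX⟩, ⟨X', hX'⟩⟩ := both_signs_mat hunit hcomm hcyc
  have hval : ∀ j : D, star j = j → ∃ c : k, ValP C g p (s • (g * j - j * g)) c ∧
      τ c = τ d * (f g * f p * f p * (f g * f j - f j * f g).adjugate).trace := by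
    intro j hj
    obtain ⟨c, hc, h1⟩ := valP_comm hS hdeg C hg hj hps hgp
    refine ⟨c, hc, ?_⟩
    have h2 := h1 ℝ f
    have h3 : ∀ c : k, algebraMap K ℝ (algebraMap k K c) = τ c := hψ
    rwa [h3, h3] at h2
  constructor
  · obtain ⟨Y, hY, hYS⟩ := hdense.inter_open_nonempty _ (isOpen_lt continuous_const hcont) ⟨X, hX⟩
    obtain ⟨j, hj, rfl⟩ := (hS' Y).mp hYS
    obtain ⟨c, hc, h1⟩ := hval j hj
    exact ⟨_, c, hc, by rw [h1]; exact mul_pos hτ hY⟩
  · obtain ⟨Y, hY, hYS⟩ := hdense.inter_open_nonempty _ (isOpen_lt hcont continuous_const)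
      ⟨X', hX'⟩
    obtain ⟨j, hj, rfl⟩ := (hS' Y).mp hYS
    obtain ⟨c, hc, h1⟩ := hval j hj
    exact ⟨_, c, hc, by rw [h1]; exact mul_neg_of_pos_of_neg hτ hY⟩

/-- **Real places of `k` which do not split in `K`.** -/
theorem realOKP_nonsplit (hS : Setting k K D d s) (hdeg : finrank K D = 3 ^ 2) (C : Cub K D)
    {g p : D} (hg : star g = g) (hgc : ∀ c : K, g ≠ c • (1 : D)) (hps : star p = p)
    (hgp : g * p = p * g) (hp0 : p ≠ 0) (τ : k →+* ℝ) (R : RData K D 3)
    (hR : ∀ c : k, R.s (algebraMap k K c) = (τ c : ℂ)) (hI : Ind R g) :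
    RealOKP C τ g p := by
  have hfin := hS.fin
  have hcen := hS.cen
  have hK := char0K hS
  let _ : Algebra K ℂ := R.s.toAlgebra
  let f : D →ₐ[K] Matrix (Fin 3) (Fin 3) ℂ := { R.f with
    commutes' := fun c => by
      change R.f (algebraMap K D c) = _
      rw [R.hf, Matrix.algebraMap_eq_diagonal]
      rfl }
  obtain ⟨G, hG⟩ : ∃ G, G = R.f g := ⟨_, rfl⟩
  obtain ⟨P, hP⟩ : ∃ P, P = R.f p := ⟨_, rfl⟩
  have hGA : G * R.A = R.A * Gᴴ := by
    have := R.star_f g
    rwa [hg, ← hG] at this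
  have hPA : P * R.A = R.A * Pᴴ := by
    have := R.star_f p
    rwa [hps, ← hP] at this
  have hGP : G * P = P * G := by
    rw [hG, hP, ← map_mul, ← map_mul, hgp]
  have hdet : R.A.det ≠ 0 := ((Matrix.isUnit_iff_isUnit_det _).mp R.unit).ne_zero
  obtain ⟨A1, hA1⟩ := R.unit
  obtain ⟨Ai, hAi⟩ : ∃ Ai : Matrix (Fin 3) (Fin 3) ℂ,
    Ai = ((A1⁻¹ : (Matrix (Fin 3) (Fin 3) ℂ)ˣ) : Matrix _ _ ℂ) := ⟨_, rfl⟩
  have hAAi : R.A * Ai = 1 := by rw [← hA1, hAi, Units.mul_inv]
  have hAiA : Ai * R.A = 1 := by rw [← hA1, hAi, Units.inv_mul]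
  -- a cyclic vector
  obtain ⟨e, he⟩ : ∃ e, cyc G e ≠ 0 := by
    obtain ⟨a, ha, hr⟩ := exists_roots hS hdeg C hg hgc f
    rw [hG]
    exact exists_cyc_of_roots ha hr
  -- the determinant of `A` is real
  obtain ⟨a, ha⟩ : ∃ a : ℝ, R.A.det = (a : ℂ) := by
    refine ⟨R.A.det.re, (Complex.conj_eq_iff_re.mp ?_).symm⟩
    have := Matrix.det_conjTranspose R.A
    rw [R.hA] at this
    exact this.symm
  have ha0 : a ≠ 0 := by
    rintro rfl
    exact hdet (by rw [ha, Complex.ofReal_zero])
  have hGAh : (G * R.A)ᴴ = G * R.A := by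
    rw [Matrix.conjTranspose_mul, R.hA, ← hGA]
  -- the continuous function
  let sg : Matrix (Fin 3) (Fin 3) ℂ → Matrix (Fin 3) (Fin 3) ℂ :=
    fun X => X + R.A * Xᴴ * Ai
  let Fn : Matrix (Fin 3) (Fin 3) ℂ → ℝ :=
    fun X => ((G * P * P * (G * sg X - sg X * G).adjugate).trace).re
  have hsg : Continuous sg :=
    continuous_id.add ((continuous_const.mul continuous_id.matrix_conjTranspose).mul
      continuous_const)
  have hFn : Continuous Fn := by
    apply Complex.continuous_re.comp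
    apply Continuous.matrix_trace
    apply Continuous.mul continuous_const
    apply Continuous.matrix_adjugate
    exact (continuous_const.mul hsg).sub (hsg.mul continuous_const)
  have hsgf : ∀ x : D, sg (R.f x) = R.f (x + star x) := by
    intro x
    change R.f x + R.A * (R.f x)ᴴ * Ai = _
    rw [← R.star_f, mul_assoc, hAAi, mul_one, map_add]
  -- the key step
  have key : ∀ v, hv (G * R.A) v ≠ 0 → ∃ X, 0 < Fn X * (a * hv (G * R.A) v) := by
    intro v hv0
    obtain ⟨Y, hY⟩ : ∃ Y, Y = R.f p⁻¹ * R.A := ⟨_, rfl⟩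
    have hPY : P * Y = R.A := by
      rw [hY, hP, ← mul_assoc, ← map_mul, mul_inv_cancel₀ hp0, map_one, one_mul]
    obtain ⟨ve, hve⟩ : ∃ ve, Y *ᵥ ve = e := by
      refine ⟨(Ai * P) *ᵥ e, ?_⟩
      rw [Matrix.mulVec_mulVec, hY, mul_assoc, ← mul_assoc R.A, hAAi, one_mul, hP, ← map_mul,
        inv_mul_cancel₀ hp0, map_one, Matrix.one_mulVec]
    have hcont : Continuous fun r : ℝ =>
        hv (G * R.A) (ve + (r : ℂ) • (v - ve)) * (a * hv (G * R.A) v) * a⁻¹ := by
      refine ((hv_cont _).comp ?_).mul continuous_const |>.mul continuous_const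
      exact continuous_const.add (Complex.continuous_ofReal.smul continuous_const)
    have hopen : IsOpen {r : ℝ | 0 < hv (G * R.A) (ve + (r : ℂ) • (v - ve)) *
        (a * hv (G * R.A) v) * a⁻¹} := isOpen_lt continuous_const hcont
    have hmem : (1 : ℝ) ∈ {r : ℝ | 0 < hv (G * R.A) (ve + (r : ℂ) • (v - ve)) *
        (a * hv (G * R.A) v) * a⁻¹} := by
      change 0 < hv (G * R.A) (ve + ((1 : ℝ) : ℂ) • (v - ve)) * (a * hv (G * R.A) v) * a⁻¹
      rw [Complex.ofReal_one, one_smul, add_sub_cancel]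
      have : hv (G * R.A) v * (a * hv (G * R.A) v) * a⁻¹ = hv (G * R.A) v * hv (G * R.A) v := by
        field_simp
      rw [this]
      exact mul_self_pos.mpr hv0
    obtain ⟨δ, hδ, hball⟩ := Metric.isOpen_iff.mp hopen 1 hmem
    have hinf : ((fun r : ℝ => (r : ℂ)) '' Set.Ioo (1 : ℝ) (1 + δ)).Infinite :=
      (Set.Ioo_infinite (by linarith)).image Complex.ofReal_injective.injOn
    obtain ⟨t, ⟨r, hr, rfl⟩, ht⟩ := exists_cyc_line G e (Y *ᵥ v - e) (t₀ := 0)
      (by rwa [zero_smul, add_zero]) hinf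
    have hr' := hball (show r ∈ Metric.ball (1 : ℝ) δ by
      rw [Metric.mem_ball, Real.dist_eq, abs_of_pos (by linarith [hr.1])]
      linarith [hr.2])
    obtain ⟨v', hv'⟩ : ∃ v', v' = ve + (r : ℂ) • (v - ve) := ⟨_, rfl⟩
    obtain ⟨y, hy⟩ : ∃ y, y = Y *ᵥ v' := ⟨_, rfl⟩
    have hcy : cyc G y ≠ 0 := by
      have : y = e + (r : ℂ) • (Y *ᵥ v - e) := by
        rw [hy, hv', Matrix.mulVec_add, Matrix.mulVec_smul, Matrix.mulVec_sub, hve]
      rw [this]
      exact ht
    have hr2 : 0 < hv (G * R.A) v' * (a * hv (G * R.A) v) * a⁻¹ := by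
      rw [hv']
      exact hr'
    obtain ⟨u, hu⟩ : ∃ u, u = star (y ⨯₃ (G *ᵥ y)) := ⟨_, rfl⟩
    have hval := val_nonsplit R.hA hGA hPA hGP hdet (v := v') (y := y) (u := u)
      (by rw [hy, Matrix.mulVec_mulVec, hPY]) hu
    refine ⟨R.A * vecMulVec u (star u), ?_⟩
    have hX : sg (R.A * vecMulVec u (star u)) = (2 : ℂ) • (R.A * vecMulVec u (star u)) := by
      change R.A * vecMulVec u (star u) + R.A * (R.A * vecMulVec u (star u))ᴴ * Ai = _
      rw [Matrix.conjTranspose_mul, R.hA, Matrix.conjTranspose_vecMulVec, star_star,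
        mul_assoc R.A, mul_assoc (vecMulVec u (star u)), hAAi, mul_one, two_smul]
    have hF : Fn (R.A * vecMulVec u (star u)) =
        4 * (Complex.normSq (cyc G y) * a * hv (G * R.A) v') := by
      change ((G * P * P * (G * sg _ - sg _ * G).adjugate).trace).re = _
      rw [hX, Matrix.mul_smul, Matrix.smul_mul, ← smul_sub, Matrix.adjugate_smul,
        Matrix.mul_smul, Matrix.trace_smul, hval, ha, hv_real hGAh, Fintype.card_fin]
      have h1 : cyc G y * star (cyc G y) = (Complex.normSq (cyc G y) : ℂ) :=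
        Complex.mul_conj _
      rw [h1, smul_eq_mul]
      have h2 : (2 : ℂ) ^ (3 - 1) * ((Complex.normSq (cyc G y) : ℂ) * (a : ℂ) *
          (hv (G * R.A) v' : ℂ)) =
          ((4 * (Complex.normSq (cyc G y) * a * hv (G * R.A) v') : ℝ) : ℂ) := by
        push_cast
        ring
      rw [h2, Complex.ofReal_re]
    rw [hF]
    have h3 : 0 < Complex.normSq (cyc G y) := Complex.normSq_pos.mpr hcy
    have h4 : 0 < a * a := mul_self_pos.mpr ha0
    have h5 : 4 * (Complex.normSq (cyc G y) * a * hv (G * R.A) v') * (a * hv (G * R.A) v) =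
        4 * Complex.normSq (cyc G y) * (a * a) *
          (hv (G * R.A) v' * (a * hv (G * R.A) v) * a⁻¹) := by
      field_simp
    rw [h5]
    positivity
  have hτd : τ d ≠ 0 := by
    intro h0
    exact d.ne_zero ((map_eq_zero τ).mp h0)
  -- from a sign of the hermitian form to a sign of the quadratic form
  have main : ∀ v, hv (G * R.A) v ≠ 0 → ∃ (r : D) (c : k), ValP C g p r c ∧
      0 < τ c * (τ d * (a * hv (G * R.A) v)) := by
    intro v hv0
    obtain ⟨X, hX⟩ := key v hv0
    obtain ⟨Z, hZ, ⟨x, rfl⟩⟩ := (dense_nonsplit hS hdeg R).inter_open_nonempty _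
      (isOpen_lt continuous_const (hFn.mul (continuous_const (y := a * hv (G * R.A) v)))) ⟨X, hX⟩
    have hZ' : 0 < Fn (R.f x) * (a * hv (G * R.A) v) := hZ
    have hj : star (x + star x) = x + star x := by rw [star_add, star_star, add_comm]
    obtain ⟨c, hc, h1⟩ := valP_comm hS hdeg C hg hj hps hgp
    refine ⟨_, c, hc, ?_⟩
    have h2 := h1 ℂ f
    have h3 : ∀ c : k, algebraMap K ℂ (algebraMap k K c) = (τ c : ℂ) := hR
    rw [h3, h3] at h2
    have h4 : Fn (R.f x) = ((f g * f p * f p *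
        (f g * f (x + star x) - f (x + star x) * f g).adjugate).trace).re := by
      change ((G * P * P * (G * sg _ - sg _ * G).adjugate).trace).re = _
      rw [hsgf, hG, hP]
      rfl
    have h5 : τ c = τ d * Fn (R.f x) := by
      have := congrArg Complex.re h2
      rw [Complex.ofReal_re, Complex.re_ofReal_mul, ← h4] at this
      exact this
    rw [h5]
    have h6 : τ d * Fn (R.f x) * (τ d * (a * hv (G * R.A) v)) =
        (τ d * τ d) * (Fn (R.f x) * (a * hv (G * R.A) v)) := by ring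
    rw [h6]
    exact mul_pos (mul_self_pos.mpr hτd) hZ'
  obtain ⟨⟨v, hv1⟩, ⟨w, hw1⟩⟩ := hI
  rw [← hG] at hv1 hw1
  obtain ⟨r1, c1, hc1, h1⟩ := main v hv1.ne'
  obtain ⟨r2, c2, hc2, h2⟩ := main w hw1.ne
  have hκ : τ d * a ≠ 0 := mul_ne_zero hτd ha0
  have h1' : 0 < (τ d * a) * (τ c1 * hv (G * R.A) v) := by
    calc 0 < _ := h1
      _ = _ := by ring
  have h2' : 0 < (τ d * a) * (τ c2 * hv (G * R.A) w) := by
    calc 0 < _ := h2
      _ = _ := by ring
  rcases lt_or_gt_of_ne hκ with hk | hk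
  · have e1 : τ c1 < 0 := by
      by_contra hcon
      push Not at hcon
      have := mul_nonneg hcon hv1.le
      nlinarith
    have e2 : 0 < τ c2 := by
      by_contra hcon
      push Not at hcon
      have := mul_nonneg_of_nonpos_of_nonpos hcon hw1.le
      nlinarith
    exact ⟨⟨r2, c2, hc2, e2⟩, ⟨r1, c1, hc1, e1⟩⟩
  · have e1 : 0 < τ c1 := by
      by_contra hcon
      push Not at hcon
      have := mul_nonpos_of_nonpos_of_nonneg hcon hv1.le
      nlinarith
    have e2 : τ c2 < 0 := by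
      by_contra hcon
      push Not at hcon
      have := mul_nonpos_of_nonneg_of_nonpos hcon hw1.le
      nlinarith
    exact ⟨⟨r1, c1, hc1, e1⟩, ⟨r2, c2, hc2, e2⟩⟩

end Vale.Agent.P011.H511
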