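import Vale.Agent.P011.H511.ExR
import Vale.Agent.P011.H511.Cyc
import Vale.Agent.P011.RP.Basic

/-!
Tools for the real places: density, eigenvalues, the element `s (g j - j g)` of `V0`.
-/

open Module Polynomial Matrix NumberField

set_option linter.unusedSectionVars false
set_option linter.unusedVariables false

namespace Vale.Agent.P011.H511

open Vale.Agent.P011.H775 Vale.Agent.P011.H948 Vale.Agent.P011.Even

/-- A rational subgroup which spans is dense. -/
theorem dense_of_span {E : Type} [AddCommGroup E] [Module ℝ E] [TopologicalSpace E]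
    [IsTopologicalAddGroup E] [ContinuousSMul ℝ E] (S : AddSubgroup E)
    (hq : ∀ (q : ℚ), ∀ x ∈ S, (q : ℝ) • x ∈ S) (hspan : Submodule.span ℝ (S : Set E) = ⊤) :
    Dense (S : Set E) := by
  have h1 : ∀ (r : ℝ), ∀ x ∈ S, r • x ∈ S.topologicalClosure := by
    intro r x hx
    have hc : Continuous fun r : ℝ => r • x := continuous_id.smul continuous_const
    have hcl : IsClosed ((fun r : ℝ => r • x) ⁻¹' (S.topologicalClosure : Set E)) :=
      S.isClosed_topologicalClosure.preimage hc
    have hsub : Set.range ((↑) : ℚ → ℝ) ⊆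
        (fun r : ℝ => r • x) ⁻¹' (S.topologicalClosure : Set E) := by
      rintro _ ⟨q, rfl⟩
      exact S.le_topologicalClosure (hq q x hx)
    have := hcl.closure_subset_iff.mpr hsub
    rw [(Rat.denseRange_cast (𝕜 := ℝ)).closure_range] at this
    exact this (Set.mem_univ r)
  have h2 : ∀ (r : ℝ), ∀ x ∈ S.topologicalClosure, r • x ∈ S.topologicalClosure := by
    intro r x hx
    have hc : Continuous fun x : E => r • x := continuous_const.smul continuous_id
    have hcl : IsClosed ((fun x : E => r • x) ⁻¹' (S.topologicalClosure : Set E)) :=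
      S.isClosed_topologicalClosure.preimage hc
    exact (hcl.closure_subset_iff.mpr fun x hx => h1 r x hx) hx
  let M : Submodule ℝ E :=
    { carrier := S.topologicalClosure
      add_mem' := fun ha hb => S.topologicalClosure.add_mem ha hb
      zero_mem' := S.topologicalClosure.zero_mem
      smul_mem' := h2 }
  have hM : (⊤ : Submodule ℝ E) ≤ M := by
    rw [← hspan, Submodule.span_le]
    exact S.le_topologicalClosure
  intro x
  exact hM (Submodule.mem_top : x ∈ (⊤ : Submodule ℝ E))

variable {k K D : Type} [Field k] [NumberField k] [Field K] [StarRing K]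
  [DivisionRing D] [StarRing D] [Algebra k K] [Algebra k D] [Algebra K D] [IsScalarTower k K D]
  {d : kˣ} {s : K}

/-- Symmetric elements have reduced trace, second coefficient and norm in `k`. -/
theorem sym_TSN (hS : Setting k K D d s) (hdeg : finrank K D = 3 ^ 2) (C : Cub K D) {g : D}
    (hg : star g = g) : (∃ t : k, C.T g = algebraMap k K t) ∧ (∃ e : k, C.S g = algebraMap k K e) ∧
      ∃ n : k, C.N g = algebraMap k K n := by
  have h := scub hS hdeg C
  exact ⟨⟨_, (rk_eq hS (h.T_symm hg)).symm⟩, ⟨_, (rk_eq hS (h.S_symm hg)).symm⟩,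
    ⟨_, (rk_eq hS (h.N_symm hg)).symm⟩⟩

/-- The three eigenvalues of a symmetric non central element. -/
theorem exists_roots (hS : Setting k K D d s) (hdeg : finrank K D = 3 ^ 2) (C : Cub K D) {g : D}
    (hg : star g = g) (hgc : ∀ c : K, g ≠ c • (1 : D)) {Ω : Type} [Field Ω] [IsAlgClosed Ω]
    [Algebra K Ω] (f : D →ₐ[K] Matrix (Fin 3) (Fin 3) Ω) :
    ∃ a : Fin 3 → Ω, Function.Injective a ∧ ∀ i, (f g).charpoly.eval (a i) = 0 := by
  have := hS.fin
  have := hS.cen
  obtain ⟨⟨t, ht⟩, ⟨e, he⟩, ⟨n, hn⟩⟩ := sym_TSN hS hdeg C hg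
  obtain ⟨E, _, _, _, φ, σ, hE, hφ, hspan⟩ := exists_field C ht he hn (fun c hc => hgc
    (algebraMap k K c) (by
      rw [hc, IsScalarTower.algebraMap_apply k K D, Algebra.algebraMap_eq_smul_one (A := D)]))
  let _ : Algebra k Ω := ((algebraMap K Ω).comp (algebraMap k K)).toAlgebra
  have hcard : Fintype.card (E →ₐ[k] Ω) = 3 := by
    rw [AlgHom.card k E Ω, hE]
  let ee : Fin 3 ≃ (E →ₐ[k] Ω) := (Fintype.equivFinOfCardEq hcard).symm
  refine ⟨fun i => ee i σ, ?_, ?_⟩
  · intro i j hij
    apply ee.injective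
    ext x
    obtain ⟨a, b, c, rfl⟩ := hspan x
    have hij' : ee i σ = ee j σ := hij
    simp only [map_add, map_mul, map_pow, AlgHom.commutes, hij']
  · intro i
    obtain ⟨h1, h2, h3, -⟩ := spl_compat C hdeg f g
    rw [mat_charpoly, h1, h2, h3, ht, he, hn]
    have h4 : σ ^ 3 - algebraMap k E t * σ ^ 2 + algebraMap k E e * σ - algebraMap k E n = 0 := by
      apply φ.toRingHom.injective
      have h5 := C.cayley g
      rw [ht, he, hn] at h5
      simp only [algebraMap_smul] at h5
      have h6 : φ (σ ^ 3 - algebraMap k E t * σ ^ 2 + algebraMap k E e * σ - algebraMap k E n) =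
          0 := by
        simp only [map_sub, map_add, map_mul, map_pow, hφ, AlgHom.commutes]
        rw [← h5]
        simp only [Algebra.smul_def, mul_one]
        noncomm_ring
      simpa using h6
    have h5 := congrArg (ee i) h4
    simp only [map_sub, map_add, map_mul, map_pow, AlgHom.commutes, map_zero] at h5
    simp only [eval_sub, eval_add, eval_mul, eval_pow, eval_X, eval_C]
    exact h5

/-- The element `s (g j - j g)`. -/
theorem val_comm (hS : Setting k K D d s) (hdeg : finrank K D = 3 ^ 2) (C : Cub K D) {g j : D}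
    (hg : star g = g) (hj : star j = j) :
    ∃ c : k, Val C g (s • (g * j - j * g)) c ∧ ∀ (Ω : Type) [Field Ω] [Algebra K Ω]
      (f : D →ₐ[K] Matrix (Fin 3) (Fin 3) Ω), algebraMap K Ω (algebraMap k K c) =
        algebraMap K Ω (algebraMap k K d) *
          (f g * f (pp g) * f (pp g) * (f g * f j - f j * f g).adjugate).trace := by
  have := hS.fin
  have := hS.cen
  have h := scub hS hdeg C
  have hr : star (s • (g * j - j * g)) = s • (g * j - j * g) := by
    rw [hS.star_smul, hS.star_s, star_sub, star_mul, star_mul, hg, hj, neg_smul, ← smul_neg,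
      neg_sub]
  have hT : ∀ a : D, a * g = g * a → C.T (a * (s • (g * j - j * g))) = 0 := by
    intro a ha
    rw [mul_smul_comm, map_smul, mul_sub, map_sub]
    have : C.T (a * (j * g)) = C.T (a * (g * j)) := by
      rw [← mul_assoc a j g, C.T_comm, ← mul_assoc, ← ha, mul_assoc]
    rw [this, sub_self, smul_zero]
  have hq : star (C.T (g * pp g * pp g * C.adj (s • (g * j - j * g)))) =
      C.T (g * pp g * pp g * C.adj (s • (g * j - j * g))) :=
    h.T_mul_symm (ga_symm hg) (h.adj_symm hr)
  obtain ⟨c, hc⟩ := (hS.fix _).mp hq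
  refine ⟨c, ⟨hr, ?_, hT g rfl, hT (g * g) (mul_assoc g g g), hc.symm⟩, ?_⟩
  · have := hT 1 (by rw [one_mul, mul_one])
    rwa [one_mul] at this
  · intro Ω _ _ f
    rw [hc, C.adj_smul, hS.sq, mul_smul_comm, map_smul, smul_eq_mul, map_mul]
    congr 1
    obtain ⟨h1, -, -, -⟩ := spl_compat C hdeg f (g * pp g * pp g * C.adj (g * j - j * g))
    obtain ⟨-, -, -, h2⟩ := spl_compat C hdeg f (g * j - j * g)
    rw [← h1, map_mul, map_mul, map_mul, ← h2, map_sub, map_mul, map_mul]

end Vale.Agent.P011.H511
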