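import Vale.Agent.P011.H511.RNon
import Vale.Agent.P011.RP.Dense
import Vale.Agent.P011.Even.GNorm

/-!
Tools for the choice of the unitary element at the nonsplit real places.
-/

open Module Polynomial Matrix NumberField

set_option linter.unusedSectionVars false
set_option linter.unusedVariables false

namespace Vale.Agent.P011.H511

open Vale.Agent.P011.H775 Vale.Agent.P011.H948 Vale.Agent.P011.Even Vale.Agent.P011.RP

/-- Polarization. -/
theorem zero_of_form {H : Matrix (Fin 3) (Fin 3) ℂ} (h : ∀ v, star v ⬝ᵥ (H *ᵥ v) = 0) :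
    H = 0 := by
  have h1 : ∀ v w, star v ⬝ᵥ (H *ᵥ w) + star w ⬝ᵥ (H *ᵥ v) = 0 := by
    intro v w
    have := h (v + w)
    rw [star_add, Matrix.mulVec_add, dotProduct_add, add_dotProduct, add_dotProduct, h v, h w]
      at this
    linear_combination this
  have h2 : ∀ v w, star v ⬝ᵥ (H *ᵥ w) = 0 := by
    intro v w
    have e1 := h1 v w
    have e2 := h1 v (Complex.I • w)
    rw [Matrix.mulVec_smul, dotProduct_smul, star_smul, smul_dotProduct, smul_eq_mul, smul_eq_mul,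
      Complex.star_def, Complex.conj_I] at e2
    have e3 : Complex.I * (2 * (star v ⬝ᵥ (H *ᵥ w))) = 0 := by
      linear_combination e2 + Complex.I * e1
    have e4 := (mul_eq_zero.mp e3).resolve_left Complex.I_ne_zero
    exact (mul_eq_zero.mp e4).resolve_left two_ne_zero
  ext i j
  have := h2 (Pi.single i 1) (Pi.single j 1)
  simpa using this

/-- A real linear form which separates two values of a form not contained in a line. -/
theorem exists_mu {M M' A : Matrix (Fin 3) (Fin 3) ℂ} (hA : IsUnit A) (hAh : Aᴴ = A)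
    (hM : M' * A = A * Mᴴ) (hind : ∀ a b : ℂ, a • M + b • M' = 0 → a = 0 ∧ b = 0) :
    ∃ (v₁ v₂ : Fin 3 → ℂ) (μ : ℂ), 0 < (star μ * (star v₁ ⬝ᵥ ((M * A) *ᵥ v₁))).re ∧
      (star μ * (star v₂ ⬝ᵥ ((M * A) *ᵥ v₂))).re < 0 := by
  obtain ⟨A1, hA1⟩ := hA
  obtain ⟨Ai, hAi⟩ : ∃ Ai : Matrix (Fin 3) (Fin 3) ℂ,
    Ai = ((A1⁻¹ : (Matrix (Fin 3) (Fin 3) ℂ)ˣ) : Matrix _ _ ℂ) := ⟨_, rfl⟩
  have hAAi : A * Ai = 1 := by rw [← hA1, hAi, Units.mul_inv]
  have hcan : ∀ X : Matrix (Fin 3) (Fin 3) ℂ, X * A = 0 → X = 0 := by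
    intro X hX
    calc X = X * (A * Ai) := by rw [hAAi, mul_one]
      _ = 0 := by rw [← mul_assoc, hX, zero_mul]
  obtain ⟨v₁, hv₁⟩ : ∃ v₁, star v₁ ⬝ᵥ ((M * A) *ᵥ v₁) ≠ 0 := by
    by_contra hcon
    push Not at hcon
    have h1 := hcan _ (zero_of_form hcon)
    have := hind 1 0 (by rw [h1, smul_zero, zero_smul, add_zero])
    exact one_ne_zero this.1
  obtain ⟨b₁, hb₁⟩ : ∃ b, b = star v₁ ⬝ᵥ ((M * A) *ᵥ v₁) := ⟨_, rfl⟩
  obtain ⟨v₂, hv₂⟩ : ∃ v₂, (star b₁ * (star v₂ ⬝ᵥ ((M * A) *ᵥ v₂))).im ≠ 0 := by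
    by_contra hcon
    push Not at hcon
    have h1 : star b₁ • (M * A) - b₁ • (M' * A) = 0 := by
      apply zero_of_form
      intro v
      have h2 : star v ⬝ᵥ ((M' * A) *ᵥ v) = star (star v ⬝ᵥ ((M * A) *ᵥ v)) := by
        rw [← Matrix.star_dotProduct, Matrix.star_mulVec, ← Matrix.dotProduct_mulVec,
          Matrix.conjTranspose_mul, hAh, hM]
      rw [Matrix.sub_mulVec, dotProduct_sub, Matrix.smul_mulVec, Matrix.smul_mulVec,
        dotProduct_smul, dotProduct_smul, h2, smul_eq_mul, smul_eq_mul]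
      have h3 := hcon v
      have h4 : star (star b₁ * (star v ⬝ᵥ ((M * A) *ᵥ v))) =
          star b₁ * (star v ⬝ᵥ ((M * A) *ᵥ v)) := Complex.conj_eq_iff_im.mpr h3
      rw [star_mul', star_star] at h4
      rw [h4, sub_self]
    have h2 : star b₁ • M - b₁ • M' = 0 := by
      apply hcan
      rw [sub_mul, Matrix.smul_mul, Matrix.smul_mul, h1]
    have h3 := hind (star b₁) (-b₁) (by rw [neg_smul, ← sub_eq_add_neg, h2])
    exact hv₁ (by rw [← hb₁]; exact neg_eq_zero.mp h3.2)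
  obtain ⟨b₂, hb₂⟩ : ∃ b, b = star v₂ ⬝ᵥ ((M * A) *ᵥ v₂) := ⟨_, rfl⟩
  rw [← hb₂] at hv₂
  have hD : b₁.re * b₂.im - b₁.im * b₂.re ≠ 0 := by
    intro h0
    apply hv₂
    rw [Complex.mul_im, Complex.star_def, Complex.conj_re, Complex.conj_im]
    linarith
  obtain ⟨c, hc⟩ : ∃ c, c = b₁.re * b₂.im - b₁.im * b₂.re := ⟨_, rfl⟩
  rw [← hc] at hD
  refine ⟨v₁, v₂, ⟨(b₁.im + b₂.im) / c, -((b₁.re + b₂.re) / c)⟩, ?_, ?_⟩
  · rw [← hb₁, Complex.mul_re, Complex.star_def, Complex.conj_re, Complex.conj_im]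
    have : (b₁.im + b₂.im) / c * b₁.re - -(-((b₁.re + b₂.re) / c)) * b₁.im =
        (b₁.re * b₂.im - b₁.im * b₂.re) / c := by ring
    rw [this, ← hc, div_self hD]
    exact one_pos
  · rw [← hb₂, Complex.mul_re, Complex.star_def, Complex.conj_re, Complex.conj_im]
    have : (b₁.im + b₂.im) / c * b₂.re - -(-((b₁.re + b₂.re) / c)) * b₂.im =
        -((b₁.re * b₂.im - b₁.im * b₂.re) / c) := by ring
    rw [this, ← hc, div_self hD]
    norm_num

/-- Simultaneous approximation in open sets of the plane. -/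
theorem exists_in_open {F : Type} [Field F] [NumberField F] (O : (F →+* ℝ) → Set (ℝ × ℝ))
    (hO : ∀ φ, IsOpen (O φ)) (hne : ∀ φ, (O φ).Nonempty) :
    ∃ a b : F, ∀ φ, (φ a, φ b) ∈ O φ := by
  choose p hp using hne
  choose ε hε hball using fun φ => Metric.isOpen_iff.mp (hO φ) (p φ) (hp φ)
  have : Finite (F →+* ℝ) := inferInstance
  obtain ⟨δ, hδ, hδε⟩ : ∃ δ > 0, ∀ φ : F →+* ℝ, δ ≤ ε φ := by
    cases nonempty_fintype (F →+* ℝ)
    by_cases hemp : Nonempty (F →+* ℝ)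
    · refine ⟨Finset.univ.inf' Finset.univ_nonempty ε, ?_, fun φ =>
        Finset.inf'_le _ (Finset.mem_univ φ)⟩
      rw [gt_iff_lt, Finset.lt_inf'_iff]
      exact fun φ _ => hε φ
    · exact ⟨1, one_pos, fun φ => (hemp ⟨φ⟩).elim⟩
  obtain ⟨a, ha⟩ := real_dense (fun φ => (p φ).1) hδ
  obtain ⟨b, hb⟩ := real_dense (fun φ => (p φ).2) hδ
  refine ⟨a, b, fun φ => hball φ ?_⟩
  rw [Metric.mem_ball, Prod.dist_eq, max_lt_iff, Real.dist_eq, Real.dist_eq]
  exact ⟨(ha φ).trans_le (hδε φ), (hb φ).trans_le (hδε φ)⟩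

variable {k K D : Type} [Field k] [NumberField k] [Field K] [NumberField K] [StarRing K]
  [DivisionRing D] [StarRing D] [Algebra k K] [Algebra k D] [Algebra K D] [IsScalarTower k K D]
  {d : kˣ} {s : K}

/-- The data at a nonsplit real place. -/
theorem exists_R (hS : Setting k K D d s) (hdeg : finrank K D = 3 ^ 2) (τ : k →+* ℝ)
    (hτ : τ d < 0) : ∃ R : RData K D 3, ∀ c : k, R.s (algebraMap k K c) = (τ c : ℂ) := by
  have hfin := hS.fin
  have hcen := hS.cen
  have hsm : StarModule K D := ⟨hS.star_smul⟩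
  let _ : Algebra k ℂ := (Complex.ofRealHom.comp τ).toAlgebra
  have hal : ∀ c : k, algebraMap k ℂ c = (τ c : ℂ) := fun c => rfl
  have hθ : ((Real.sqrt (-τ d) : ℂ) * Complex.I) ^ 2 = algebraMap k ℂ (d : k) := by
    rw [hal, mul_pow, Complex.I_sq, ← Complex.ofReal_pow, Real.sq_sqrt (by linarith)]
    push_cast
    ring
  obtain ⟨σ, hσ⟩ := One.exists_lift hS (F := ℂ) hθ
  have hσk : ∀ c : k, σ (algebraMap k K c) = (τ c : ℂ) := fun c => σ.commutes c
  obtain ⟨R, hR⟩ := RData.exists_of (D := D) (n := 3) (by norm_num) hdeg (σ : K →+* ℂ) (by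
    intro z
    obtain ⟨a, b, rfl⟩ := hS.span z
    have h1 : ∀ c : k, star (algebraMap k K c) = algebraMap k K c := fun c =>
      (hS.fix _).mpr ⟨c, rfl⟩
    change σ _ = star (σ _)
    rw [star_add, star_mul', h1, h1, hS.star_s]
    simp only [map_add, map_mul, map_neg, hσk, hσ, star_add, star_mul', Complex.star_def,
      Complex.conj_ofReal, Complex.conj_I]
    ring)
  refine ⟨R, fun c => ?_⟩
  rw [hR]
  exact hσk c

theorem T_inv_self (C : Cub K D) {a : D} (ha : a ≠ 0) : C.T (a * a⁻¹) = 3 := by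
  rw [mul_inv_cancel₀ ha, C.T_one]

/-- One of two independent functionals can be prescribed. -/
theorem exists_dual (hS : Setting k K D d s) (C : Cub K D) {m m' : D}
    (hind : ∀ a b : K, a • m + b • m' = 0 → a = 0 ∧ b = 0) :
    ∃ b : D, C.T (m * b) = 0 ∧ C.T (m' * b) = 3 := by
  have hcen := hS.cen
  have hm : m ≠ 0 := by
    rintro rfl
    exact one_ne_zero (hind 1 0 (by rw [smul_zero, zero_smul, add_zero])).1
  obtain ⟨q, hq⟩ : ∃ q, q = m' * m⁻¹ := ⟨_, rfl⟩
  have hqm : q * m = m' := by rw [hq, mul_assoc, inv_mul_cancel₀ hm, mul_one]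
  obtain ⟨a, ha⟩ : ∃ a : D, q * a - a * q ≠ 0 := by
    by_contra hcon
    push Not at hcon
    have h1 : q ∈ Subalgebra.center K D := Subalgebra.mem_center_iff.mpr fun b =>
      (sub_eq_zero.mp (hcon b)).symm
    rw [Algebra.IsCentral.center_eq_bot, Algebra.mem_bot] at h1
    obtain ⟨c, hc⟩ := h1
    have h2 := hind c (-1) (by
      rw [← hqm, ← hc, Algebra.smul_def, neg_smul, one_smul, add_neg_cancel])
    exact one_ne_zero (neg_eq_zero.mp h2.2)
  obtain ⟨b', hb'⟩ : ∃ b', b' = (q * a - a * q)⁻¹ := ⟨_, rfl⟩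
  refine ⟨m⁻¹ * (a * b' - b' * a), ?_, ?_⟩
  · rw [← mul_assoc, mul_inv_cancel₀ hm, one_mul, map_sub, C.T_comm, sub_self]
  · have h1 : m' * (m⁻¹ * (a * b' - b' * a)) = q * (a * b') - q * b' * a := by
      rw [← mul_assoc, ← hq, mul_sub, ← mul_assoc q b' a]
    have h2 : C.T (q * b' * a) = C.T (a * q * b') := by
      rw [C.T_comm, ← mul_assoc]
    rw [h1, map_sub, h2, ← map_sub, ← mul_assoc, ← sub_mul, hb', T_inv_self C ha]

/-- **The values `T (m b)`, `b` symmetric, are arbitrary.** -/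
theorem exists_b (hS : Setting k K D d s) (hdeg : finrank K D = 3 ^ 2) (C : Cub K D) {m : D}
    (hind : ∀ a b : K, a • m + b • star m = 0 → a = 0 ∧ b = 0) (ν : K) :
    ∃ b : D, star b = b ∧ C.T (m * b) = ν := by
  have hK := char0K hS
  have h := scub hS hdeg C
  obtain ⟨b₁, h1, h2⟩ := exists_dual hS C hind
  obtain ⟨b₂, h3, h4⟩ := exists_dual (m := star m) (m' := m) hS C (fun a b hab => by
    have := hind b a (by rw [add_comm]; exact hab)
    exact ⟨this.2, this.1⟩)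
  obtain ⟨b, hb⟩ : ∃ b, b = (ν / 3) • b₂ + (star ν / 3) • b₁ := ⟨_, rfl⟩
  have e1 : C.T (m * b) = ν := by
    rw [hb, mul_add, mul_smul_comm, mul_smul_comm, map_add, map_smul, map_smul, h4, h1]
    simp only [smul_eq_mul, mul_zero, add_zero]
    field_simp
  have e2 : C.T (star m * b) = star ν := by
    rw [hb, mul_add, mul_smul_comm, mul_smul_comm, map_add, map_smul, map_smul, h3, h2]
    simp only [smul_eq_mul, mul_zero, zero_add]
    field_simp
  refine ⟨(2 : K)⁻¹ • (b + star b), ?_, ?_⟩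
  · rw [hS.star_smul, star_inv₀, star_ofNat, star_add, star_star, add_comm]
  · have e3 : C.T (m * star b) = ν := by
      have : m * star b = star (b * star m) := by rw [star_mul, star_star]
      rw [this, h.T, C.T_comm, e2, star_star]
    rw [mul_smul_comm, map_smul, mul_add, map_add, e1, e3, smul_eq_mul]
    field_simp
    ring

/-- Splittings are continuous for the norm of a real place. -/
theorem exists_near_f {N : ℕ} (B : Basis (Fin N) k D) (τ : k →+* ℝ) (R : RData K D 3)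
    (hR : ∀ c : k, R.s (algebraMap k K c) = (τ c : ℂ)) (x₀ u₀ : D)
    {O : Set (Matrix (Fin 3) (Fin 3) ℂ × Matrix (Fin 3) (Fin 3) ℂ)} (hO : IsOpen O)
    (h0 : (R.f x₀, R.f u₀) ∈ O) : ∃ ε > 0, ∀ x u : D, nm B (Sum.inr τ) (x - x₀) < ε →
      nm B (Sum.inr τ) (u - u₀) < ε → (R.f x, R.f u) ∈ O := by
  obtain ⟨L, hLd⟩ : ∃ L : (Fin N → ℝ) → Matrix (Fin 3) (Fin 3) ℂ,
    L = fun c => ∑ i, (c i : ℂ) • R.f (B i) := ⟨_, rfl⟩
  have hL : Continuous L := by
    rw [hLd]
    refine continuous_finsetSum _ fun i _ => ?_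
    exact (Complex.continuous_ofReal.comp (continuous_apply i)).smul continuous_const
  obtain ⟨co, hcd⟩ : ∃ co : D → (Fin N → ℝ), co = fun x i => τ (B.repr x i) := ⟨_, rfl⟩
  have hco : ∀ x, R.f x = L (co x) := by
    intro x
    conv_lhs => rw [← B.sum_repr x]
    rw [map_sum, hLd, hcd]
    refine Finset.sum_congr rfl fun i _ => ?_
    change _ = ((τ (B.repr x i) : ℝ) : ℂ) • _
    rw [← hR, ← algebraMap_smul K (B.repr x i) (B i), Algebra.smul_def, map_mul, R.hf,
      Matrix.scalar_apply, ← Matrix.smul_eq_diagonal_mul]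
  have hO' : IsOpen {p : (Fin N → ℝ) × (Fin N → ℝ) | (L p.1, L p.2) ∈ O} :=
    hO.preimage ((hL.comp continuous_fst).prodMk (hL.comp continuous_snd))
  rw [hco, hco] at h0
  obtain ⟨ε, hε, hball⟩ := Metric.isOpen_iff.mp hO' (co x₀, co u₀) h0
  have key : ∀ x y : D, nm B (Sum.inr τ) (x - y) < ε → dist (co x) (co y) < ε := by
    intro x y hxy
    rw [dist_pi_lt_iff hε]
    intro i
    rw [Real.dist_eq, hcd]
    change |τ (B.repr x i) - τ (B.repr y i)| < ε
    rw [← map_sub]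
    have h1 := nm_lt_coord B (Sum.inr τ) hxy i
    rw [Arith.plAbv_inr, map_sub, Finsupp.sub_apply] at h1
    exact h1
  refine ⟨ε, hε, fun x u hx hu => ?_⟩
  rw [hco, hco]
  have hm : (co x, co u) ∈ Metric.ball (co x₀, co u₀) ε := by
    rw [Metric.mem_ball, Prod.dist_eq, max_lt_iff]
    exact ⟨key _ _ hx, key _ _ hu⟩
  exact hball hm

end Vale.Agent.P011.H511
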