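import Vale.Agent.P011.H511.RBase
import Vale.Agent.P011.Six.H359.Spl3
import Mathlib.Topology.Algebra.Field

/-!
At a real place of `k` which splits in `K` the quadratic form is indefinite for every symmetric
non central element `g`.
-/

open Module Polynomial Matrix NumberField

set_option linter.unusedSectionVars false
set_option linter.unusedVariables false

namespace Vale.Agent.P011.H511

open Vale.Agent.P011.H775 Vale.Agent.P011.H948 Vale.Agent.P011.Even

/-- The quadratic form `u ↦ det (u, G u, z)` takes both signs. -/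
theorem both_signs {G : Matrix (Fin 3) (Fin 3) ℝ} {z : Fin 3 → ℝ}
    (hz : (G *ᵥ z) ⨯₃ z ≠ 0) :
    (∃ u, 0 < (u ⨯₃ (G *ᵥ u)) ⬝ᵥ z) ∧ ∃ u, (u ⨯₃ (G *ᵥ u)) ⬝ᵥ z < 0 := by
  obtain ⟨w, hw⟩ : ∃ w, w = (G *ᵥ z) ⨯₃ z := ⟨_, rfl⟩
  have h1 : ∀ t : ℝ, ((z + t • w) ⨯₃ (G *ᵥ (z + t • w))) ⬝ᵥ z =
      t * (w ⬝ᵥ ((G *ᵥ z) ⨯₃ z)) + t ^ 2 * ((w ⨯₃ (G *ᵥ w)) ⬝ᵥ z) := by
    intro t
    simp [cross_apply, Matrix.mulVec, dotProduct, Fin.sum_univ_three, -Matrix.mulVec_mulVec]
    ring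
  rw [← hw] at h1 hz
  obtain ⟨a, ha⟩ : ∃ a, a = w ⬝ᵥ w := ⟨_, rfl⟩
  obtain ⟨b, hb⟩ : ∃ b, b = (w ⨯₃ (G *ᵥ w)) ⬝ᵥ z := ⟨_, rfl⟩
  have ha0 : 0 < a := by
    rw [ha]
    have h2 : 0 ≤ w ⬝ᵥ w := Finset.sum_nonneg fun i _ => mul_self_nonneg _
    refine lt_of_le_of_ne h2 fun h3 => hz ?_
    exact dotProduct_self_eq_zero.mp h3.symm
  rw [← ha, ← hb] at h1
  have hb1 : 0 < |b| + 1 := by positivity
  obtain ⟨t, ht⟩ : ∃ t, t = a / (|b| + 1) := ⟨_, rfl⟩
  have ht0 : 0 < t := by rw [ht]; positivity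
  have hta : t * |b| < a := by
    rw [ht, div_mul_eq_mul_div, div_lt_iff₀ hb1]
    nlinarith [abs_nonneg b]
  refine ⟨⟨z + t • w, ?_⟩, ⟨z + (-t) • w, ?_⟩⟩
  · rw [h1]
    have := neg_abs_le b
    nlinarith
  · rw [h1]
    have := le_abs_self b
    nlinarith

/-- Both signs at rank one matrices. -/
theorem both_signs_mat {G P : Matrix (Fin 3) (Fin 3) ℝ} (hP : IsUnit (G * P * P))
    (hGP : G * P = P * G) (hG : ∃ e, cyc Gᵀ e ≠ 0) :
    (∃ X : Matrix (Fin 3) (Fin 3) ℝ, 0 < (G * P * P * (G * X - X * G).adjugate).trace) ∧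
      ∃ X : Matrix (Fin 3) (Fin 3) ℝ, (G * P * P * (G * X - X * G).adjugate).trace < 0 := by
  obtain ⟨v, hv⟩ := hG
  obtain ⟨y, hy⟩ : ∃ y, y = v ⨯₃ (Gᵀ *ᵥ v) := ⟨_, rfl⟩
  obtain ⟨z, hz⟩ : ∃ z, z = (G * P * P) *ᵥ y := ⟨_, rfl⟩
  have h1 : (G *ᵥ z) ⨯₃ z ≠ 0 := by
    have e1 : G *ᵥ z = (G * P * P) *ᵥ (G *ᵥ y) := by
      rw [hz, Matrix.mulVec_mulVec, Matrix.mulVec_mulVec]
      congr 1
      calc G * (G * P * P) = G * (P * G * P) := by rw [hGP]
        _ = (G * P) * (G * P) := by simp only [mul_assoc]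
        _ = (G * P) * (P * G) := by rw [hGP]
        _ = _ := by simp only [mul_assoc]
    rw [e1, hz, cross_mulVec]
    have e2 : (G *ᵥ y) ⨯₃ y = cyc Gᵀ v • v := by
      have := cross_key Gᵀ v
      rw [← hy, Matrix.transpose_transpose] at this
      rw [← cross_anticomm, this, neg_smul, neg_neg]
    rw [e2, Matrix.mulVec_smul]
    have hv0 : v ≠ 0 := by
      rintro rfl
      apply hv
      simp [cyc]
    intro h0
    have h2 := (smul_eq_zero.mp h0).resolve_left hv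
    apply hv0
    have h3 : (G * P * P)ᵀ *ᵥ ((G * P * P).adjugateᵀ *ᵥ v) = (G * P * P).det • v := by
      rw [Matrix.mulVec_mulVec, ← Matrix.transpose_mul, Matrix.adjugate_mul,
        Matrix.transpose_smul, Matrix.transpose_one, Matrix.smul_mulVec, Matrix.one_mulVec]
    rw [h2, Matrix.mulVec_zero] at h3
    exact (smul_eq_zero.mp h3.symm).resolve_left
      ((Matrix.isUnit_iff_isUnit_det _).mp hP).ne_zero
  obtain ⟨⟨u, hu⟩, ⟨u', hu'⟩⟩ := both_signs h1
  refine ⟨⟨vecMulVec u v, ?_⟩, ⟨vecMulVec u' v, ?_⟩⟩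
  · rw [val_split, ← hy, ← hz]
    exact hu
  · rw [val_split, ← hy, ← hz]
    exact hu'

variable {k K D : Type} [Field k] [NumberField k] [Field K] [NumberField K] [StarRing K]
  [DivisionRing D] [StarRing D] [Algebra k K] [Algebra k D] [Algebra K D] [IsScalarTower k K D]
  {d : kˣ} {s : K}

/-- **Real places of `k` which split in `K`.** -/
theorem realOK_split (hS : Setting k K D d s) (hdeg : finrank K D = 3 ^ 2) (C : Cub K D) {g : D}
    (hg : star g = g) (hgc : ∀ c : K, g ≠ c • (1 : D)) (τ : k →+* ℝ) (hτ : 0 < τ d) :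
    RealOK C τ g := by
  have hfin := hS.fin
  have hcen := hS.cen
  have hK := char0K hS
  have hD0 : CharZero D := charZero_of_injective_algebraMap (algebraMap K D).injective
  obtain ⟨ψ, f₀, hψ, hf₀⟩ := Six.H359.exists_spl_real3 hS hdeg τ hτ
  let _ : Algebra K ℝ := ψ.toAlgebra
  let f : D →ₐ[K] Matrix (Fin 3) (Fin 3) ℝ := { f₀ with
    commutes' := fun c => by
      change f₀ (algebraMap K D c) = _
      rw [hf₀, Matrix.algebraMap_eq_diagonal]
      rfl }
  -- density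
  let S : AddSubgroup (Matrix (Fin 3) (Fin 3) ℝ) :=
    (J0 hS).toAddSubgroup.map (f : D →+ Matrix (Fin 3) (Fin 3) ℝ)
  have hS' : ∀ X, X ∈ S ↔ ∃ j : D, star j = j ∧ f j = X := by
    intro X
    exact AddSubgroup.mem_map
  have hspan : Submodule.span ℝ (S : Set (Matrix (Fin 3) (Fin 3) ℝ)) = ⊤ := by
    rw [eq_top_iff, ← RP.span_split (by norm_num) hdeg f, Submodule.span_le]
    rintro _ ⟨x, rfl⟩
    obtain ⟨c, hc⟩ : ∃ c : ℝ, c = ψ s := ⟨_, rfl⟩
    have hs0 := s_ne_zero hS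
    have hm1 : star ((2 : K)⁻¹ • (x + star x)) = (2 : K)⁻¹ • (x + star x) := by
      rw [hS.star_smul, star_inv₀, star_ofNat, star_add, star_star, add_comm]
    have hm2 : star ((2 * s)⁻¹ • (x - star x)) = (2 * s)⁻¹ • (x - star x) := by
      rw [hS.star_smul, star_inv₀, star_mul', star_ofNat, hS.star_s, star_sub, star_star,
        mul_neg, inv_neg, neg_smul, ← smul_neg, neg_sub]
    have hx : x = (2 : K)⁻¹ • (x + star x) + s • ((2 * s)⁻¹ • (x - star x)) := by
      rw [smul_smul, mul_inv, mul_comm (2 : K)⁻¹ s⁻¹, ← mul_assoc, mul_inv_cancel₀ hs0, one_mul,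
        ← smul_add]
      have : x + star x + (x - star x) = (2 : K) • x := by
        rw [two_smul]
        abel
      rw [this, smul_smul, inv_mul_cancel₀ two_ne_zero, one_smul]
    rw [SetLike.mem_coe, hx, map_add, map_smul f s]
    refine Submodule.add_mem _ (Submodule.subset_span ((hS' _).mpr ⟨_, hm1, rfl⟩)) ?_
    rw [← algebraMap_smul ℝ s]
    exact Submodule.smul_mem _ _ (Submodule.subset_span ((hS' _).mpr ⟨_, hm2, rfl⟩))
  have hdense : Dense (S : Set (Matrix (Fin 3) (Fin 3) ℝ)) := by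
    refine dense_of_span S (fun q X hX => ?_) hspan
    obtain ⟨j, hj, rfl⟩ := (hS' X).mp hX
    refine (hS' _).mpr ⟨(q : k) • j, ?_, ?_⟩
    · rw [star_smul_k hS, hj]
    · rw [← algebraMap_smul K (q : k) j, map_smul, ← algebraMap_smul ℝ (algebraMap k K q) (f j)]
      congr 1
      change ψ (algebraMap k K q) = q
      rw [map_ratCast, map_ratCast]
  -- both signs
  have hcont : Continuous fun X : Matrix (Fin 3) (Fin 3) ℝ =>
      (f g * f (pp g) * f (pp g) * (f g * X - X * f g).adjugate).trace := by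
    apply Continuous.matrix_trace
    apply Continuous.mul continuous_const
    apply Continuous.matrix_adjugate
    exact (continuous_const.mul continuous_id).sub (continuous_id.mul continuous_const)
  have hg0 : g ≠ 0 := fun h0 => hgc 0 (by rw [h0, zero_smul])
  have hp0 : pp g ≠ 0 := (scub hS hdeg C).pp_ne_zero three_ne_zero hgc
  have hunit : IsUnit (f g * f (pp g) * f (pp g)) := by
    rw [← map_mul, ← map_mul]
    exact (isUnit_iff_ne_zero.mpr (mul_ne_zero (mul_ne_zero hg0 hp0) hp0)).map f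
  have hcomm : f g * f (pp g) = f (pp g) * f g := by
    rw [← map_mul, ← map_mul, (pp_comm (g := g)).eq]
  have hcyc : ∃ e, cyc (f g)ᵀ e ≠ 0 := by
    apply exists_cyc_real
    let _ : Algebra K ℂ := (Complex.ofRealHom.comp ψ).toAlgebra
    let fC : D →ₐ[K] Matrix (Fin 3) (Fin 3) ℂ :=
      { (Complex.ofRealHom.mapMatrix (m := Fin 3)).comp f₀ with
        commutes' := fun c => by
          change (f₀ (algebraMap K D c)).map Complex.ofRealHom = _
          rw [hf₀, Matrix.algebraMap_eq_diagonal, Matrix.scalar_apply, Matrix.diagonal_map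
            (map_zero _)]
          rfl }
    obtain ⟨a, ha, hr⟩ := exists_roots hS hdeg C hg hgc fC
    refine exists_cyc_of_roots ha (fun i => ?_)
    have h1 : ((f g)ᵀ.map Complex.ofRealHom) = (fC g)ᵀ := by
      rw [Matrix.transpose_map]
      rfl
    rw [h1, Matrix.charpoly_transpose]
    exact hr i
  obtain ⟨⟨X, hX⟩, ⟨X', hX'⟩⟩ := both_signs_mat hunit hcomm hcyc
  have hval : ∀ j : D, star j = j → ∃ c : k, Val C g (s • (g * j - j * g)) c ∧
      τ c = τ d * (f g * f (pp g) * f (pp g) * (f g * f j - f j * f g).adjugate).trace := by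
    intro j hj
    obtain ⟨c, hc, h1⟩ := val_comm hS hdeg C hg hj
    refine ⟨c, hc, ?_⟩
    have h2 := h1 ℝ f
    have h3 : ∀ c : k, algebraMap K ℝ (algebraMap k K c) = τ c := hψ
    rwa [h3, h3] at h2
  constructor
  · obtain ⟨Y, hY, hYS⟩ := hdense.inter_open_nonempty _ (isOpen_lt continuous_const hcont) ⟨X, hX⟩
    obtain ⟨j, hj, rfl⟩ := (hS' Y).mp hYS
    obtain ⟨c, hc, h1⟩ := hval j hj
    exact ⟨_, c, hc, by rw [h1]; exact mul_pos hτ hY⟩
  · obtain ⟨Y, hY, hYS⟩ := hdense.inter_open_nonempty _ (isOpen_lt hcont continuous_const)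
      ⟨X', hX'⟩
    obtain ⟨j, hj, rfl⟩ := (hS' Y).mp hYS
    obtain ⟨c, hc, h1⟩ := hval j hj
    exact ⟨_, c, hc, by rw [h1]; exact mul_neg_of_pos_of_neg hτ hY⟩

end Vale.Agent.P011.H511
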