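import Vale.Agent.P011.H511.RMu
import Vale.Agent.P011.H511.RSplit

/-!
The real places: a unitary element `u₀` such that the quadratic form is indefinite at all real
places for all `x, u` near `x₀, u₀` there.
-/

open Module Polynomial Matrix NumberField

set_option linter.unusedSectionVars false
set_option linter.unusedVariables false

namespace Vale.Agent.P011.H511

open Vale.Agent.P011.H775 Vale.Agent.P011.H948 Vale.Agent.P011.Even Vale.Agent.P011.RP

theorem exists_min_pos {ι : Type} [Finite ι] (ε : ι → ℝ) (hε : ∀ i, 0 < ε i) :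
    ∃ δ > 0, ∀ i, δ ≤ ε i := by
  cases nonempty_fintype ι
  by_cases hemp : Nonempty ι
  · refine ⟨Finset.univ.inf' Finset.univ_nonempty ε, ?_, fun φ =>
      Finset.inf'_le _ (Finset.mem_univ φ)⟩
    rw [gt_iff_lt, Finset.lt_inf'_iff]
    exact fun φ _ => hε φ
  · exact ⟨1, one_pos, fun φ => (hemp ⟨φ⟩).elim⟩

/-- The function without denominators whose sign is the sign of the hermitian form of `g`. -/
noncomputable def Phi (A : Matrix (Fin 3) (Fin 3) ℂ) (v : Fin 3 → ℂ)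
    (Z : Matrix (Fin 3) (Fin 3) ℂ) : ℝ :=
  2 * (star Z.trace * (star v ⬝ᵥ ((Z * A) *ᵥ v))).re - Complex.normSq Z.trace * hv A v

theorem Phi_cont (A : Matrix (Fin 3) (Fin 3) ℂ) (v : Fin 3 → ℂ) : Continuous (Phi A v) := by
  have h1 : Continuous fun Z : Matrix (Fin 3) (Fin 3) ℂ => Z.trace :=
    continuous_id.matrix_trace
  have h2 : Continuous fun Z : Matrix (Fin 3) (Fin 3) ℂ => star v ⬝ᵥ ((Z * A) *ᵥ v) :=
    continuous_const.dotProduct ((continuous_id.mul continuous_const).matrix_mulVec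
      continuous_const)
  unfold Phi
  exact (continuous_const.mul (Complex.continuous_re.comp (h1.star.mul h2))).sub
    ((Complex.continuous_normSq.comp h1).mul continuous_const)

theorem Phi_smul (A : Matrix (Fin 3) (Fin 3) ℂ) (v : Fin 3 → ℂ) (c : ℂ)
    (Z : Matrix (Fin 3) (Fin 3) ℂ) : Phi A v (c • Z) = Complex.normSq c * Phi A v Z := by
  have h1 : star (c * Z.trace) * (c * (star v ⬝ᵥ ((Z * A) *ᵥ v))) =
      (Complex.normSq c : ℂ) * (star Z.trace * (star v ⬝ᵥ ((Z * A) *ᵥ v))) := by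
    rw [star_mul', ← Complex.mul_conj c]
    simp only [Complex.star_def]
    ring
  rw [Phi, Phi, Matrix.trace_smul, Matrix.smul_mul, Matrix.smul_mulVec, dotProduct_smul,
    smul_eq_mul, smul_eq_mul, h1, Complex.re_ofReal_mul, map_mul]
  ring

variable {k K D : Type} [Field k] [NumberField k] [Field K] [NumberField K] [StarRing K]
  [DivisionRing D] [StarRing D] [Algebra k K] [Algebra k D] [Algebra K D] [IsScalarTower k K D]
  {d : kˣ} {s : K}

theorem R_smul (R : RData K D 3) (c : K) (x : D) : R.f (c • x) = R.s c • R.f x := by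
  rw [Algebra.smul_def, map_mul, R.hf, Matrix.scalar_apply, ← Matrix.smul_eq_diagonal_mul]

theorem R_trace (hS : Setting k K D d s) (hdeg : finrank K D = 3 ^ 2) (C : Cub K D)
    (R : RData K D 3) (x : D) : (R.f x).trace = R.s (C.T x) := by
  have hfin := hS.fin
  have hcen := hS.cen
  let _ : Algebra K ℂ := R.s.toAlgebra
  let f : D →ₐ[K] Matrix (Fin 3) (Fin 3) ℂ := { R.f with
    commutes' := fun c => by
      change R.f (algebraMap K D c) = _
      rw [R.hf, Matrix.algebraMap_eq_diagonal]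
      rfl }
  exact (spl_compat C hdeg f x).1

theorem R_adj (hS : Setting k K D d s) (hdeg : finrank K D = 3 ^ 2) (C : Cub K D)
    (R : RData K D 3) (x : D) : (R.f x).adjugate = R.f (C.adj x) := by
  have hfin := hS.fin
  have hcen := hS.cen
  let _ : Algebra K ℂ := R.s.toAlgebra
  let f : D →ₐ[K] Matrix (Fin 3) (Fin 3) ℂ := { R.f with
    commutes' := fun c => by
      change R.f (algebraMap K D c) = _
      rw [R.hf, Matrix.algebraMap_eq_diagonal]
      rfl }
  exact (spl_compat C hdeg f x).2.2.2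

/-- The sign of the hermitian form of `g`. -/
theorem hv_chart (hS : Setting k K D d s) (hdeg : finrank K D = 3 ^ 2) (C : Cub K D)
    (R : RData K D 3) {z g y : D} (hT : C.T z ≠ 0) (hg : star g = g) (hy : star y = y)
    (h2 : (2 : K) • ((C.T z)⁻¹ • z) = 1 + g + s • y) (v : Fin 3 → ℂ) :
    Complex.normSq (R.s (C.T z)) * hv (R.f g * R.A) v = Phi R.A v (R.f z) := by
  have hfin := hS.fin
  have hcen := hS.cen
  have hsm : StarModule K D := ⟨hS.star_smul⟩
  obtain ⟨t, ht⟩ : ∃ t, t = R.s (C.T z) := ⟨_, rfl⟩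
  have ht0 : t ≠ 0 := by
    rw [ht]
    exact (map_ne_zero R.s).mpr hT
  obtain ⟨hs1, hs2⟩ := im_s hS R
  have hG : R.f g = (2 : ℂ) • (t⁻¹ • R.f z) - 1 - R.s s • R.f y := by
    have := congrArg R.f h2
    rw [R_smul, R_smul, map_add, map_add, R_smul, map_one, map_inv₀, map_ofNat, ← ht] at this
    rw [this]
    abel
  have hYA : (R.f y * R.A)ᴴ = R.f y * R.A := R.isHermitian hy
  have e1 : star v ⬝ᵥ ((R.f g * R.A) *ᵥ v) = 2 * (t⁻¹ * (star v ⬝ᵥ ((R.f z * R.A) *ᵥ v))) -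
      (hv R.A v : ℂ) - R.s s * (hv (R.f y * R.A) v : ℂ) := by
    rw [hG, ← hv_real R.hA, ← hv_real hYA]
    simp only [sub_mul, Matrix.smul_mul, one_mul, Matrix.sub_mulVec, Matrix.smul_mulVec,
      dotProduct_sub, dotProduct_smul, smul_eq_mul]
  have e2 : hv (R.f g * R.A) v = 2 * (t⁻¹ * (star v ⬝ᵥ ((R.f z * R.A) *ᵥ v))).re - hv R.A v := by
    conv_lhs => rw [hv, e1]
    rw [Complex.sub_re, Complex.sub_re, Complex.ofReal_re]
    have e3 : (R.s s * (hv (R.f y * R.A) v : ℂ)).re = 0 := by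
      rw [hs1]
      simp
    have e4 : (2 * (t⁻¹ * (star v ⬝ᵥ ((R.f z * R.A) *ᵥ v)))).re =
        2 * (t⁻¹ * (star v ⬝ᵥ ((R.f z * R.A) *ᵥ v))).re := by
      have : (2 : ℂ) = ((2 : ℝ) : ℂ) := by norm_num
      rw [this, Complex.re_ofReal_mul]
    rw [e3, e4, sub_zero]
  rw [← ht, e2, Phi, R_trace hS hdeg C, ← ht]
  have e5 : (star t * (star v ⬝ᵥ ((R.f z * R.A) *ᵥ v))) =
      (Complex.normSq t : ℂ) * (t⁻¹ * (star v ⬝ᵥ ((R.f z * R.A) *ᵥ v))) := by
    rw [← Complex.mul_conj t, Complex.star_def]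
    field_simp
  rw [e5, Complex.re_ofReal_mul]
  ring

/-- The number `ν`. -/
theorem exists_nu (hS : Setting k K D d s) (R : ∀ φ : k →+* ℝ, φ d < 0 → RData K D 3)
    (hR : ∀ φ hφ, ∀ c : k, (R φ hφ).s (algebraMap k K c) = (φ c : ℂ))
    (b₁ b₂ μ : ∀ φ : k →+* ℝ, φ d < 0 → ℂ) (h₁ : ∀ φ hφ, 0 < (star (μ φ hφ) * b₁ φ hφ).re)
    (h₂ : ∀ φ hφ, (star (μ φ hφ) * b₂ φ hφ).re < 0) :
    ∃ ν : K, ν ≠ 0 ∧ ∀ φ hφ, 0 < (star ((R φ hφ).s ν) * b₁ φ hφ).re ∧
      (star ((R φ hφ).s ν) * b₂ φ hφ).re < 0 := by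
  by_cases hex : ∃ φ : k →+* ℝ, φ d < 0
  · obtain ⟨a, b, hab⟩ := exists_in_open (F := k) (fun φ => {p : ℝ × ℝ | ∀ hφ : φ d < 0,
      0 < (star ((p.1 : ℂ) + (p.2 : ℂ) * (R φ hφ).s s) * b₁ φ hφ).re ∧
      (star ((p.1 : ℂ) + (p.2 : ℂ) * (R φ hφ).s s) * b₂ φ hφ).re < 0})
      (fun φ => by
        by_cases hφ : φ d < 0
        · have hc : ∀ b : ℂ, Continuous fun p : ℝ × ℝ =>
              (star ((p.1 : ℂ) + (p.2 : ℂ) * (R φ hφ).s s) * b).re := by
            intro b
            apply Complex.continuous_re.comp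
            refine Continuous.mul (Continuous.star ?_) continuous_const
            exact (Complex.continuous_ofReal.comp continuous_fst).add
              ((Complex.continuous_ofReal.comp continuous_snd).mul continuous_const)
          have : {p : ℝ × ℝ | ∀ hφ : φ d < 0,
              0 < (star ((p.1 : ℂ) + (p.2 : ℂ) * (R φ hφ).s s) * b₁ φ hφ).re ∧
              (star ((p.1 : ℂ) + (p.2 : ℂ) * (R φ hφ).s s) * b₂ φ hφ).re < 0} =
              {p | 0 < (star ((p.1 : ℂ) + (p.2 : ℂ) * (R φ hφ).s s) * b₁ φ hφ).re} ∩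
              {p | (star ((p.1 : ℂ) + (p.2 : ℂ) * (R φ hφ).s s) * b₂ φ hφ).re < 0} := by
            ext p
            exact ⟨fun h => h hφ, fun h _ => h⟩
          rw [this]
          exact (isOpen_lt continuous_const (hc _)).inter (isOpen_lt (hc _) continuous_const)
        · have : {p : ℝ × ℝ | ∀ hφ : φ d < 0,
              0 < (star ((p.1 : ℂ) + (p.2 : ℂ) * (R φ hφ).s s) * b₁ φ hφ).re ∧
              (star ((p.1 : ℂ) + (p.2 : ℂ) * (R φ hφ).s s) * b₂ φ hφ).re < 0} = Set.univ := by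
            ext p
            exact ⟨fun _ => trivial, fun _ h => (hφ h).elim⟩
          rw [this]
          exact isOpen_univ)
      (fun φ => by
        by_cases hφ : φ d < 0
        · obtain ⟨t, ht, ht0⟩ : ∃ t : ℝ, (R φ hφ).s s = (t : ℂ) * Complex.I ∧ t ≠ 0 :=
            ⟨_, (im_s hS (R φ hφ)).1, (im_s hS (R φ hφ)).2⟩
          refine ⟨((μ φ hφ).re, (μ φ hφ).im / t), fun _ => ?_⟩
          have e : (((μ φ hφ).re : ℝ) : ℂ) + (((μ φ hφ).im / t : ℝ) : ℂ) *
              (R φ hφ).s s = μ φ hφ := by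
            rw [ht, ← mul_assoc, ← Complex.ofReal_mul, div_mul_cancel₀ _ ht0,
              Complex.re_add_im]
          simp only [e]
          exact ⟨h₁ φ hφ, h₂ φ hφ⟩
        · exact ⟨(0, 0), fun h => (hφ h).elim⟩)
    have hν : ∀ φ hφ, (R φ hφ).s (algebraMap k K a + algebraMap k K b * s) =
        (φ a : ℂ) + (φ b : ℂ) * (R φ hφ).s s := by
      intro φ hφ
      rw [map_add, map_mul, hR, hR]
    refine ⟨algebraMap k K a + algebraMap k K b * s, ?_, fun φ hφ => ?_⟩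
    · intro h0
      obtain ⟨φ, hφ⟩ := hex
      have h1 := (hab φ hφ).1
      have h2 := hν φ hφ
      rw [h0, map_zero] at h2
      change 0 < (star ((φ a : ℂ) + (φ b : ℂ) * (R φ hφ).s s) * b₁ φ hφ).re at h1
      rw [← h2, star_zero, zero_mul, Complex.zero_re] at h1
      exact lt_irrefl _ h1
    · rw [hν]
      exact hab φ hφ
  · exact ⟨1, one_ne_zero, fun φ hφ => (hex ⟨φ, hφ⟩).elim⟩

/-- **The real places.** -/
theorem real_part (hS : Setting k K D d s) (hdeg : finrank K D = 3 ^ 2) (C : Cub K D) {N : ℕ}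
    (B : Basis (Fin N) k D) {x₀ w₀ : D} (hw₀ : w₀ * star w₀ = 1)
    (hT₀ : C.T ((x₀ - 1) * w₀) = 0)
    (hind : ∀ a b : K, a • ((x₀ - 1) * w₀) + b • star ((x₀ - 1) * w₀) = 0 → a = 0 ∧ b = 0) :
    ∃ u₀ : D, u₀ * star u₀ = 1 ∧ C.T ((x₀ - 1) * u₀) ≠ 0 ∧ ∃ ε > 0, ∀ x u : D,
      (∀ φ : k →+* ℝ, nm B (Sum.inr φ) (x - x₀) < ε) →
      (∀ φ : k →+* ℝ, nm B (Sum.inr φ) (u - u₀) < ε) → C.T ((x - 1) * u) ≠ 0 →
      ∀ g y : D, star g = g → star y = y →
        (2 : K) • ((C.T ((x - 1) * u))⁻¹ • ((x - 1) * u)) = 1 + g + s • y →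
        (∀ c : K, g ≠ c • (1 : D)) → ∀ φ : k →+* ℝ, RealOK C φ g := by
  have hfin := hS.fin
  have hcen := hS.cen
  have hK := char0K hS
  have h := scub hS hdeg C
  have hs0 := s_ne_zero hS
  obtain ⟨m, hm⟩ : ∃ m, m = (x₀ - 1) * w₀ := ⟨_, rfl⟩
  rw [← hm] at hT₀ hind
  choose R hR using fun (φ : k →+* ℝ) (hφ : φ d < 0) => exists_R hS hdeg φ hφ
  -- the two vectors at each nonsplit real place
  have hstep : ∀ (φ : k →+* ℝ) (hφ : φ d < 0), ∃ (v₁ v₂ : Fin 3 → ℂ) (μ : ℂ),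
      0 < (star μ * (star v₁ ⬝ᵥ (((R φ hφ).f m * (R φ hφ).A) *ᵥ v₁))).re ∧
      (star μ * (star v₂ ⬝ᵥ (((R φ hφ).f m * (R φ hφ).A) *ᵥ v₂))).re < 0 := by
    intro φ hφ
    refine exists_mu (M' := (R φ hφ).f (star m)) (R φ hφ).unit (R φ hφ).hA ((R φ hφ).star_f m) ?_
    intro a b hab
    let _ : Algebra K ℂ := (R φ hφ).s.toAlgebra
    let f : D →ₐ[K] Matrix (Fin 3) (Fin 3) ℂ := { (R φ hφ).f with
      commutes' := fun c => by
        change (R φ hφ).f (algebraMap K D c) = _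
        rw [(R φ hφ).hf, Matrix.algebraMap_eq_diagonal]
        rfl }
    have hli : LinearIndependent K ![m, star m] := by
      rw [LinearIndependent.pair_iff]
      exact hind
    have h1 := Vale.Agent.P011S.SF.split_indep (by norm_num) f ![m, star m] hli
    have h2 : (fun i => f (![m, star m] i)) = ![f m, f (star m)] := by
      ext i
      fin_cases i <;> rfl
    rw [h2, LinearIndependent.pair_iff] at h1
    exact h1 a b hab
  choose v₁ v₂ μ hμ₁ hμ₂ using hstep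
  obtain ⟨ν, hν0, hν⟩ := exists_nu hS R hR _ _ μ hμ₁ hμ₂
  obtain ⟨b, hb, hmb⟩ := exists_b hS hdeg C hind (s⁻¹ * ν)
  obtain ⟨y, hy⟩ : ∃ y, y = s • b := ⟨_, rfl⟩
  have hys : star y = -y := by rw [hy, hS.star_smul, hS.star_s, hb, neg_smul]
  have hmy : C.T (m * y) = ν := by
    rw [hy, mul_smul_comm, map_smul, hmb, smul_eq_mul, ← mul_assoc, mul_inv_cancel₀ hs0, one_mul]
  -- the elements `e l = (1 + l y) adj (1 - l y)`
  let e : k → D := fun l => (1 + l • y) * C.adj (1 - l • y)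
  let κ : k → K := fun l => 2 * C.T (m * y * C.adj (1 - l • y))
  have hTe : ∀ l : k, C.T (m * e l) = algebraMap k K l * κ l := by
    intro l
    have h1 : e l = C.N (1 - l • y) • (1 : D) + (2 * algebraMap k K l) •
        (y * C.adj (1 - l • y)) := by
      rw [← C.mul_adj]
      change (1 + l • y) * C.adj (1 - l • y) = _
      rw [mul_smul, algebraMap_smul, two_smul, ← smul_mul_assoc, ← add_mul, ← add_mul]
      congr 1
      abel
    rw [h1, mul_add, mul_smul_comm, mul_one, mul_smul_comm, map_add, map_smul, map_smul, hT₀,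
      smul_zero, zero_add, smul_eq_mul, ← mul_assoc m]
    change _ = algebraMap k K l * (2 * C.T (m * y * C.adj (1 - l • y)))
    ring
  have hκ : ∀ l : k, κ l = 2 * ν - algebraMap k K l * (2 * C.T (m * y * C.cr 1 y)) +
      algebraMap k K l ^ 2 * (2 * C.T (m * y * C.adj y)) := by
    intro l
    change 2 * C.T (m * y * C.adj (1 - l • y)) = _
    rw [adj_sub, C.adj_one, ← algebraMap_smul K l y, C.adj_smul, C.cr_smul_right, mul_sub,
      mul_add, mul_one, mul_smul_comm, mul_smul_comm, map_sub, map_add, map_smul, map_smul, hmy,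
      smul_eq_mul, smul_eq_mul]
    ring
  -- the choice of `l`
  obtain ⟨l, hl0, hκl, hl⟩ : ∃ l : k, l ≠ 0 ∧ κ l ≠ 0 ∧ ∀ φ hφ,
      0 < Phi (R φ hφ).A (v₁ φ hφ) ((R φ hφ).f (m * e l)) ∧
      Phi (R φ hφ).A (v₂ φ hφ) ((R φ hφ).f (m * e l)) < 0 := by
    have htend : Filter.Tendsto (fun n : ℕ => 1 / ((n : ℝ) + 1)) Filter.atTop (nhds 0) :=
      tendsto_one_div_add_atTop_nhds_zero_nat
    have hln : ∀ (φ : k →+* ℝ) (n : ℕ), φ (1 / ((n : k) + 1)) = 1 / ((n : ℝ) + 1) := by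
      intro φ n
      rw [map_div₀, map_one, map_add, map_natCast, map_one]
    -- at a nonsplit real place
    have hA : ∀ (φ : k →+* ℝ), ∀ᶠ n : ℕ in Filter.atTop, ∀ hφ : φ d < 0,
        0 < Phi (R φ hφ).A (v₁ φ hφ) ((R φ hφ).f (m * e (1 / ((n : k) + 1)))) ∧
        Phi (R φ hφ).A (v₂ φ hφ) ((R φ hφ).f (m * e (1 / ((n : k) + 1)))) < 0 := by
      intro φ
      by_cases hφ : φ d < 0
      swap
      · exact Filter.Eventually.of_forall fun n h => (hφ h).elim
      obtain ⟨Y, hY⟩ : ∃ Y, Y = (R φ hφ).f y := ⟨_, rfl⟩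
      obtain ⟨M, hM⟩ : ∃ M, M = (R φ hφ).f m := ⟨_, rfl⟩
      obtain ⟨A, hAd⟩ : ∃ A, A = (R φ hφ).A := ⟨_, rfl⟩
      obtain ⟨Zf, hZf⟩ : ∃ Zf : ℝ → Matrix (Fin 3) (Fin 3) ℂ,
        Zf = fun r : ℝ => M * ((1 + (r : ℂ) • Y) * (1 - (r : ℂ) • Y).adjugate) := ⟨_, rfl⟩
      obtain ⟨kf, hkf⟩ : ∃ kf : ℝ → ℂ,
        kf = fun r : ℝ => 2 * (M * Y * (1 - (r : ℂ) • Y).adjugate).trace := ⟨_, rfl⟩
      have hc1 : Continuous fun r : ℝ => (r : ℂ) • Y :=
        Complex.continuous_ofReal.smul continuous_const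
      have hc2 : Continuous fun r : ℝ => (1 - (r : ℂ) • Y).adjugate :=
        (continuous_const.sub hc1).matrix_adjugate
      have hZc : Continuous Zf := by
        rw [hZf]
        exact continuous_const.mul ((continuous_const.add hc1).mul hc2)
      have hkc : Continuous kf := by
        rw [hkf]
        exact continuous_const.mul (continuous_const.mul hc2).matrix_trace
      let Ps : (Fin 3 → ℂ) → ℝ → ℝ := fun v r =>
        2 * (star (kf r) * (star v ⬝ᵥ ((Zf r * A) *ᵥ v))).re - r * Complex.normSq (kf r) * hv A v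
      have hPc : ∀ v, Continuous (Ps v) := by
        intro v
        refine (continuous_const.mul (Complex.continuous_re.comp (hkc.star.mul
          (continuous_const.dotProduct ((hZc.mul continuous_const).matrix_mulVec
            continuous_const))))).sub ((continuous_id.mul
              (Complex.continuous_normSq.comp hkc)).mul continuous_const)
      have hP0 : ∀ v, Ps v 0 = 4 * (star ((R φ hφ).s ν) * (star v ⬝ᵥ ((M * A) *ᵥ v))).re := by
        intro v
        have e1 : Zf 0 = M := by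
          rw [hZf]
          simp
        have e2 : kf 0 = 2 * (R φ hφ).s ν := by
          rw [hkf]
          simp only [Complex.ofReal_zero, zero_smul, sub_zero, Matrix.adjugate_one, mul_one]
          rw [hM, hY, ← map_mul, R_trace hS hdeg C, hmy]
        change 2 * (star (kf 0) * (star v ⬝ᵥ ((Zf 0 * A) *ᵥ v))).re -
          0 * Complex.normSq (kf 0) * hv A v = _
        rw [e1, e2, zero_mul, zero_mul, sub_zero, star_mul', star_ofNat, mul_assoc (2 : ℂ)]
        have e3 : (2 : ℂ) = ((2 : ℝ) : ℂ) := by norm_num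
        rw [e3, Complex.re_ofReal_mul]
        ring
      have hPphi : ∀ (v) (n : ℕ), Phi A v ((R φ hφ).f (m * e (1 / ((n : k) + 1)))) =
          (1 / ((n : ℝ) + 1)) * Ps v (1 / ((n : ℝ) + 1)) := by
        intro v n
        obtain ⟨l, hl⟩ : ∃ l : k, l = 1 / ((n : k) + 1) := ⟨_, rfl⟩
        obtain ⟨r, hr⟩ : ∃ r : ℝ, r = 1 / ((n : ℝ) + 1) := ⟨_, rfl⟩
        have hlr : φ l = r := by rw [hl, hr, hln]
        rw [← hl, ← hr]
        have e1 : (R φ hφ).f (l • y) = (r : ℂ) • Y := by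
          rw [← algebraMap_smul K l y, R_smul, hR, hlr, hY]
        have e2 : (R φ hφ).f (m * e l) = Zf r := by
          rw [hZf, map_mul, ← hM]
          change M * (R φ hφ).f ((1 + l • y) * C.adj (1 - l • y)) = _
          rw [map_mul, ← R_adj hS hdeg C, map_add, map_sub, map_one, e1]
        have e3 : (R φ hφ).s (κ l) = kf r := by
          rw [hkf]
          change (R φ hφ).s (2 * C.T (m * y * C.adj (1 - l • y))) = _
          rw [map_mul, map_ofNat, ← R_trace hS hdeg C, map_mul, map_mul, ← R_adj hS hdeg C,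
            map_sub, map_one, e1, ← hM, ← hY]
        have e4 : (Zf r).trace = (r : ℂ) * kf r := by
          rw [← e2, R_trace hS hdeg C, hTe, map_mul, hR, hlr, e3]
        rw [e2, Phi, e4]
        have e5 : star ((r : ℂ) * kf r) * (star v ⬝ᵥ ((Zf r * A) *ᵥ v)) =
            (r : ℂ) * (star (kf r) * (star v ⬝ᵥ ((Zf r * A) *ᵥ v))) := by
          rw [star_mul', Complex.star_def, Complex.conj_ofReal]
          ring
        rw [e5, Complex.re_ofReal_mul, map_mul, Complex.normSq_ofReal]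
        change _ = r * (2 * (star (kf r) * (star v ⬝ᵥ ((Zf r * A) *ᵥ v))).re -
          r * Complex.normSq (kf r) * hv A v)
        ring
      have hν' := hν φ hφ
      have h1 : 0 < Ps (v₁ φ hφ) 0 := by
        rw [hP0, hM, hAd]
        linarith [hν'.1]
      have h2 : Ps (v₂ φ hφ) 0 < 0 := by
        rw [hP0, hM, hAd]
        linarith [hν'.2]
      have h3 := ((hPc (v₁ φ hφ)).tendsto 0).comp htend
      have h4 := ((hPc (v₂ φ hφ)).tendsto 0).comp htend
      filter_upwards [h3.eventually (lt_mem_nhds h1), h4.eventually (gt_mem_nhds h2)] with n hn1 hn2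
      intro _
      have hpos : (0 : ℝ) < 1 / ((n : ℝ) + 1) := by positivity
      rw [← hAd, hPphi, hPphi]
      exact ⟨mul_pos hpos hn1, mul_neg_of_pos_of_neg hpos hn2⟩
    -- `κ l ≠ 0`
    have hB : ∀ᶠ n : ℕ in Filter.atTop, κ (1 / ((n : k) + 1)) ≠ 0 := by
      obtain ⟨σ⟩ : Nonempty (K →+* ℂ) := inferInstance
      obtain ⟨a₁, ha₁⟩ : ∃ a₁, a₁ = 2 * ν := ⟨_, rfl⟩
      obtain ⟨a₂, ha₂⟩ : ∃ a₂, a₂ = 2 * C.T (m * y * C.cr 1 y) := ⟨_, rfl⟩
      obtain ⟨a₃, ha₃⟩ : ∃ a₃, a₃ = 2 * C.T (m * y * C.adj y) := ⟨_, rfl⟩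
      have hc : Continuous fun r : ℝ => σ a₁ - (r : ℂ) * σ a₂ + (r : ℂ) ^ 2 * σ a₃ := by fun_prop
      have h0 : σ a₁ - ((0 : ℝ) : ℂ) * σ a₂ + ((0 : ℝ) : ℂ) ^ 2 * σ a₃ ≠ 0 := by
        rw [Complex.ofReal_zero, zero_mul, sub_zero, zero_pow two_ne_zero, zero_mul, add_zero,
          ha₁]
        exact (map_ne_zero σ).mpr (mul_ne_zero two_ne_zero hν0)
      have h1 := (hc.tendsto 0).comp htend
      filter_upwards [h1.eventually_ne h0] with n hn
      intro h2
      apply hn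
      have h3 := congrArg σ h2
      rw [hκ, ← ha₁, ← ha₂, ← ha₃] at h3
      simp only [map_zero, map_add, map_sub, map_mul, map_pow] at h3
      have h4 : σ (algebraMap k K (1 / ((n : k) + 1))) = ((1 / ((n : ℝ) + 1) : ℝ) : ℂ) := by
        rw [map_div₀, map_one, map_add, map_natCast, map_one, map_div₀, map_one, map_add,
          map_natCast, map_one]
        push_cast
        rfl
      rw [h4] at h3
      exact h3
    have hA' : ∀ᶠ n : ℕ in Filter.atTop, ∀ φ : k →+* ℝ, ∀ hφ : φ d < 0,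
        0 < Phi (R φ hφ).A (v₁ φ hφ) ((R φ hφ).f (m * e (1 / ((n : k) + 1)))) ∧
        Phi (R φ hφ).A (v₂ φ hφ) ((R φ hφ).f (m * e (1 / ((n : k) + 1)))) < 0 :=
      Filter.eventually_all.mpr hA
    obtain ⟨n, hn1, hn2⟩ := (hA'.and hB).exists
    exact ⟨1 / ((n : k) + 1), div_ne_zero one_ne_zero (Nat.cast_add_one_ne_zero n), hn2, hn1⟩
  -- the unitary element
  have hne : 1 - l • y ≠ 0 := by
    intro h0
    have h1 := congrArg star h0
    rw [star_sub, star_one, star_smul_k hS, hys, smul_neg, sub_neg_eq_add, star_zero] at h1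
    have h2 : (2 : K) • (1 : D) = 0 := by
      have : (2 : K) • (1 : D) = (1 - l • y) + (1 + l • y) := by
        rw [two_smul]
        abel
      rw [this, h0, h1, add_zero]
    exact one_ne_zero ((smul_eq_zero.mp h2).resolve_left two_ne_zero)
  have hstar1 : star (1 - l • y) = 1 + l • y := by
    rw [star_sub, star_one, star_smul_k hS, hys, smul_neg, sub_neg_eq_add]
  have hstar2 : star (1 + l • y) = 1 - l • y := by
    rw [star_add, star_one, star_smul_k hS, hys, smul_neg, sub_eq_add_neg]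
  have hne' : 1 + l • y ≠ 0 := by
    rw [← hstar1]
    exact (star_ne_zero).mpr hne
  obtain ⟨c, hc⟩ : ∃ c, c = (1 + l • y) * (1 - l • y)⁻¹ := ⟨_, rfl⟩
  have hcomm : Commute (1 + l • y) (1 - l • y) := by
    have : Commute (l • y) (l • y) := Commute.refl _
    exact ((Commute.one_left _).add_left ((Commute.one_right _).sub_right this))
  have hcu : c * star c = 1 := by
    rw [hc, star_mul, star_inv₀, hstar1, hstar2]
    have h1 : (1 + l • y) * (1 - l • y)⁻¹ = (1 - l • y)⁻¹ * (1 + l • y) :=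
      (hcomm.inv_right₀).eq
    rw [h1, mul_assoc, ← mul_assoc (1 + l • y), mul_inv_cancel₀ hne', one_mul,
      inv_mul_cancel₀ hne]
  have hce : c = (C.N (1 - l • y))⁻¹ • e l := by
    rw [hc, C.inv_eq hne, mul_smul_comm]
  have hN := C.N_ne_zero hne
  have hmc : (x₀ - 1) * (w₀ * c) = (C.N (1 - l • y))⁻¹ • (m * e l) := by
    rw [← mul_assoc, ← hm, hce, mul_smul_comm]
  refine ⟨w₀ * c, ?_, ?_, ?_⟩
  · rw [star_mul, mul_assoc, ← mul_assoc c, hcu, one_mul, hw₀]
  · rw [hmc, map_smul, hTe, smul_eq_mul]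
    exact mul_ne_zero (inv_ne_zero hN) (mul_ne_zero
      ((map_ne_zero (algebraMap k K)).mpr hl0) hκl)
  -- nearness
  have hnear : ∀ φ : k →+* ℝ, ∃ ε > 0, ∀ x u : D, nm B (Sum.inr φ) (x - x₀) < ε →
      nm B (Sum.inr φ) (u - w₀ * c) < ε → ∀ hφ : φ d < 0,
        0 < Phi (R φ hφ).A (v₁ φ hφ) ((R φ hφ).f ((x - 1) * u)) ∧
        Phi (R φ hφ).A (v₂ φ hφ) ((R φ hφ).f ((x - 1) * u)) < 0 := by
    intro φ
    by_cases hφ : φ d < 0
    swap
    · exact ⟨1, one_pos, fun x u _ _ h => (hφ h).elim⟩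
    have hcm : Continuous fun p : Matrix (Fin 3) (Fin 3) ℂ × Matrix (Fin 3) (Fin 3) ℂ =>
        (p.1 - 1) * p.2 := (continuous_fst.sub continuous_const).mul continuous_snd
    have hO : IsOpen ({p : Matrix (Fin 3) (Fin 3) ℂ × Matrix (Fin 3) (Fin 3) ℂ |
        0 < Phi (R φ hφ).A (v₁ φ hφ) ((p.1 - 1) * p.2)} ∩
        {p | Phi (R φ hφ).A (v₂ φ hφ) ((p.1 - 1) * p.2) < 0}) :=
      (isOpen_lt continuous_const ((Phi_cont _ _).comp hcm)).inter
        (isOpen_lt ((Phi_cont _ _).comp hcm) continuous_const)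
    have hmem : ((R φ hφ).f x₀, (R φ hφ).f (w₀ * c)) ∈
        ({p : Matrix (Fin 3) (Fin 3) ℂ × Matrix (Fin 3) (Fin 3) ℂ |
        0 < Phi (R φ hφ).A (v₁ φ hφ) ((p.1 - 1) * p.2)} ∩
        {p | Phi (R φ hφ).A (v₂ φ hφ) ((p.1 - 1) * p.2) < 0}) := by
      have e1 : ((R φ hφ).f x₀ - 1) * (R φ hφ).f (w₀ * c) =
          (R φ hφ).s (C.N (1 - l • y))⁻¹ • (R φ hφ).f (m * e l) := by
        rw [← R_smul, ← hmc, map_mul (R φ hφ).f (x₀ - 1), map_sub, map_one]
      have e2 : 0 < Complex.normSq ((R φ hφ).s (C.N (1 - l • y))⁻¹) :=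
        Complex.normSq_pos.mpr ((_root_.map_ne_zero _).mpr (inv_ne_zero hN))
      constructor
      · change 0 < Phi (R φ hφ).A (v₁ φ hφ) (((R φ hφ).f x₀ - 1) * (R φ hφ).f (w₀ * c))
        rw [e1, Phi_smul]
        exact mul_pos e2 (hl φ hφ).1
      · change Phi (R φ hφ).A (v₂ φ hφ) (((R φ hφ).f x₀ - 1) * (R φ hφ).f (w₀ * c)) < 0
        rw [e1, Phi_smul]
        exact mul_neg_of_pos_of_neg e2 (hl φ hφ).2
    obtain ⟨ε, hε, hnr⟩ := exists_near_f B φ (R φ hφ) (hR φ hφ) x₀ (w₀ * c) hO hmem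
    refine ⟨ε, hε, fun x u hx hu _ => ?_⟩
    have h1 := hnr x u hx hu
    rw [map_mul, map_sub, map_one]
    exact h1
  choose ε hε hnr using hnear
  obtain ⟨δ, hδ, hδε⟩ := exists_min_pos ε hε
  refine ⟨δ, hδ, fun x u hx hu hT g y' hg hy' h2 hgc φ => ?_⟩
  rcases lt_trichotomy (φ d) 0 with hφ | hφ | hφ
  · have h3 := hnr φ x u ((hx φ).trans_le (hδε φ)) ((hu φ).trans_le (hδε φ)) hφ
    refine realOK_nonsplit hS hdeg C hg hgc φ (R φ hφ) (hR φ hφ) ⟨⟨v₁ φ hφ, ?_⟩, ⟨v₂ φ hφ, ?_⟩⟩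
    · have h4 := hv_chart hS hdeg C (R φ hφ) hT hg hy' h2 (v₁ φ hφ)
      rw [← h4] at h3
      by_contra hcon
      push Not at hcon
      exact absurd h3.1 (not_lt.mpr (mul_nonpos_of_nonneg_of_nonpos (Complex.normSq_nonneg _)
        hcon))
    · have h4 := hv_chart hS hdeg C (R φ hφ) hT hg hy' h2 (v₂ φ hφ)
      have h5 := h3.2
      rw [← h4] at h5
      by_contra hcon
      push Not at hcon
      exact absurd h5 (not_lt.mpr (mul_nonneg (Complex.normSq_nonneg _) hcon))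
  · exact absurd ((map_eq_zero φ).mp hφ) d.ne_zero
  · exact realOK_split hS hdeg C hg hgc φ hφ

end Vale.Agent.P011.H511
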